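import Vale.Agent.P232.Periodic

/-!
# P232: sets of finite perimeter are limits of smooth functions
-/

noncomputable section

open MeasureTheory Filter Topology Set
open scoped ContDiff Convolution

namespace Vale.Agent.P232

open Periodic

namespace ApproxAux

/-- The indicator of a set. -/
def ind (E : Set Point) : Point → ℝ := E.indicator fun _ => 1

lemma ind_mem (E : Set Point) (x : Point) : ind E x ∈ Icc (0 : ℝ) 1 := by
  by_cases h : x ∈ E <;> simp [ind, h]

lemma ind_periodic {E : Set Point} (hE : IsTorusSet E) : IsPeriodic (ind E) := by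
  intro x i
  have h : (x + EuclideanSpace.single i 1 ∈ E) = (x ∈ E) := hE.2 x i
  by_cases hx : x ∈ E <;> simp [ind, h, hx]

lemma locallyIntegrable_ind {E : Set Point} (hE : IsTorusSet E) :
    LocallyIntegrable (ind E) volume :=
  (locallyIntegrable_const (1 : ℝ)).indicator hE.1

/-- The mollified indicator. -/
def moll (φ : ContDiffBump (0 : Point)) (E : Set Point) : Point → ℝ :=
  φ.normed volume ⋆[ContinuousLinearMap.lsmul ℝ ℝ, volume] ind E

variable {φ : ContDiffBump (0 : Point)} {E : Set Point}

lemma moll_apply (x : Point) :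
    moll φ E x = ∫ t, φ.normed volume t * ind E (x - t) := by
  simp [moll, convolution_def]

lemma integrable_moll (hE : IsTorusSet E) (x : Point) :
    Integrable fun t => φ.normed volume t * ind E (x - t) := by
  refine φ.integrable_normed.mul_bdd (c := 1)
    ((measurable_const.indicator hE.1).comp (measurable_id.const_sub x)).aestronglyMeasurable
    (ae_of_all _ fun t => ?_)
  rw [Real.norm_eq_abs, abs_of_nonneg (ind_mem E _).1]
  exact (ind_mem E _).2

lemma moll_mem (hE : IsTorusSet E) (x : Point) : moll φ E x ∈ Icc (0 : ℝ) 1 := by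
  rw [moll_apply]
  constructor
  · exact integral_nonneg fun t => mul_nonneg (φ.nonneg_normed t) (ind_mem E _).1
  · refine le_trans (integral_mono (integrable_moll hE x) φ.integrable_normed fun t => ?_)
      φ.integral_normed.le
    exact mul_le_of_le_one_right (φ.nonneg_normed t) (ind_mem E _).2

lemma moll_smooth (hE : IsTorusSet E) : ContDiff ℝ ∞ (moll φ E) :=
  φ.hasCompactSupport_normed.contDiff_convolution_left _ φ.contDiff_normed
    (locallyIntegrable_ind hE)

lemma moll_periodic (hE : IsTorusSet E) : IsPeriodic (moll φ E) := by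
  intro x i
  rw [moll_apply, moll_apply]
  congr 1
  funext t
  rw [add_sub_right_comm, ind_periodic hE]

lemma measurable_moll_integrand (hE : IsTorusSet E) :
    Measurable fun p : Point × Point => φ.normed volume p.2 * ind E (p.1 - p.2) :=
  (φ.continuous_normed.measurable.comp measurable_snd).mul
    ((measurable_const.indicator hE.1).comp (measurable_fst.sub measurable_snd))

/-- The test inequality passes to the mollification. -/
lemma integral_moll_divergence_le (hE : IsTorusSet E) {A : ℝ} (hA : PerimeterLE E A)
    {X : Point → Point} (hX : ContDiff ℝ 1 X) (hXp : IsPeriodic X) (hX1 : ∀ x, ‖X x‖ ≤ 1) :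
    ∫ x in cube, moll φ E x * divergence X x ≤ A := by
  obtain ⟨B, hB⟩ := (isCompact_closedBall (0 : Point) 2).exists_bound_of_continuousOn
    (continuous_divergence hX).continuousOn
  have hint : Integrable (Function.uncurry fun (x : Point) (t : Point) =>
      φ.normed volume t * ind E (x - t) * divergence X x)
      ((volume.restrict cube).prod volume) := by
    refine Integrable.mono' ((integrable_const B).mul_prod φ.integrable_normed)
      ((measurable_moll_integrand hE).mul ((continuous_divergence hX).measurable.comp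
        measurable_fst)).aestronglyMeasurable ?_
    have hmem : ∀ᵐ p ∂(volume.restrict cube).prod (volume : Measure Point), p.1 ∈ cube :=
      Measure.quasiMeasurePreserving_fst.ae (ae_restrict_mem measurableSet_cube)
    filter_upwards [hmem] with p hp
    have h1 := hB p.1 (cube_subset_closedBall hp)
    rw [Function.uncurry, norm_mul, Real.norm_eq_abs (_ * _),
      abs_of_nonneg (mul_nonneg (φ.nonneg_normed _) (ind_mem E _).1), mul_comm B]
    exact mul_le_mul (mul_le_of_le_one_right (φ.nonneg_normed _) (ind_mem E _).2) h1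
      (norm_nonneg _) (φ.nonneg_normed _)
  calc ∫ x in cube, moll φ E x * divergence X x
      = ∫ x in cube, ∫ t, φ.normed volume t * ind E (x - t) * divergence X x := by
        simp only [moll_apply, ← integral_mul_const]
    _ = ∫ t, ∫ x in cube, φ.normed volume t * ind E (x - t) * divergence X x :=
        integral_integral_swap hint
    _ ≤ ∫ t, φ.normed volume t * A := by
        refine integral_mono hint.integral_prod_right (φ.integrable_normed.mul_const A) fun t => ?_
        simp only [mul_assoc, integral_const_mul]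
        refine mul_le_mul_of_nonneg_left ?_ (φ.nonneg_normed t)
        -- move the translation to the field
        have hYd : ∀ z, divergence (fun y => X (y + t)) z = divergence X (z + t) := fun z => by
          simp only [divergence, fderiv_comp_add_right]
        have hYp : IsPeriodic fun y => X (y + t) := fun x i => by
          show X _ = X _
          rw [add_right_comm, hXp]
        have hYc : ContDiff ℝ 1 fun y => X (y + t) := hX.comp (by fun_prop)
        have hper : IsPeriodic fun z => ind E z * divergence (fun y => X (y + t)) z :=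
          fun x i => by
            show _ * _ = _ * _
            rw [ind_periodic hE x i, divergence_periodic hYp x i]
        have h := integral_translate hper (-t)
        simp only [hYd, ← sub_eq_add_neg, sub_add_cancel] at h
        rw [h]
        refine le_trans (le_of_eq ?_) (hA _ hYc hYp fun y => hX1 _)
        rw [inter_comm, ← setIntegral_indicator hE.1]
        refine setIntegral_congr_fun measurableSet_cube fun z _ => ?_
        by_cases hz : z ∈ E <;> simp [ind, hz, hYd]
    _ = A := by rw [integral_mul_const, φ.integral_normed, one_mul]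

/-- The normalised gradient, softened by `d`. -/
def gradField (U : Point → ℝ) (d : ℝ) (x : Point) : Point :=
  (Real.sqrt ((∑ k, fderiv ℝ U x (unitVec k) ^ 2) + d ^ 2))⁻¹ •
    ∑ k, fderiv ℝ U x (unitVec k) • unitVec k

lemma gradField_smooth {U : Point → ℝ} (hU : ContDiff ℝ ∞ U) {d : ℝ} (hd : 0 < d) :
    ContDiff ℝ 1 (gradField U d) := by
  have hc : ∀ k, ContDiff ℝ 1 fun x => fderiv ℝ U x (unitVec k) := fun k =>
    (hU.fderiv_right (m := 1) (WithTop.coe_le_coe.2 le_top)).clm_apply contDiff_const
  have hpos : ∀ x, 0 < (∑ k, fderiv ℝ U x (unitVec k) ^ 2) + d ^ 2 := fun x => by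
    have : 0 ≤ ∑ k, fderiv ℝ U x (unitVec k) ^ 2 := by positivity
    have : 0 < d ^ 2 := pow_pos hd 2
    linarith
  refine ContDiff.smul (𝕜' := ℝ) ?_
    (ContDiff.sum fun k _ => (hc k).smul (contDiff_const (c := unitVec k)))
  exact (((ContDiff.sum fun k _ => (hc k).pow 2).add contDiff_const).sqrt
    fun x => (hpos x).ne').inv fun x => (Real.sqrt_pos.2 (hpos x)).ne'

lemma gradField_periodic {U : Point → ℝ} (hU : IsPeriodic U) (d : ℝ) :
    IsPeriodic (gradField U d) := by
  intro x i
  simp only [gradField, fderiv_periodic hU x i]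

lemma norm_sum_unitVec (c : Fin 3 → ℝ) :
    ‖∑ k, c k • unitVec k‖ = Real.sqrt (∑ k, c k ^ 2) := by
  rw [EuclideanSpace.norm_eq]
  congr 1
  refine Finset.sum_congr rfl fun i _ => ?_
  simp [unitVec, Pi.single_apply]

lemma norm_gradField_le (U : Point → ℝ) (d : ℝ) (x : Point) : ‖gradField U d x‖ ≤ 1 := by
  rw [gradField, norm_smul, norm_sum_unitVec, norm_inv, Real.norm_eq_abs,
    abs_of_nonneg (Real.sqrt_nonneg _)]
  refine (mul_le_mul_of_nonneg_left (Real.sqrt_le_sqrt
    (le_add_of_nonneg_right (sq_nonneg d))) (inv_nonneg.2 (Real.sqrt_nonneg _))).trans ?_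
  exact inv_mul_le_one

lemma le_fderiv_gradField (U : Point → ℝ) {d : ℝ} (hd : 0 < d) (x : Point) :
    Real.sqrt (∑ k, fderiv ℝ U x (unitVec k) ^ 2) - d ≤ fderiv ℝ U x (gradField U d x) := by
  set G := ∑ k, fderiv ℝ U x (unitVec k) ^ 2 with hG
  have hG0 : 0 ≤ G := by positivity
  have he : fderiv ℝ U x (gradField U d x) = G / Real.sqrt (G + d ^ 2) := by
    simp only [gradField, map_smul, map_sum, smul_eq_mul, ← hG]
    rw [div_eq_inv_mul]
    congr 1
    exact Finset.sum_congr rfl fun k _ => by ring
  have h2 : 0 < Real.sqrt (G + d ^ 2) := Real.sqrt_pos.2 (by positivity)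
  rw [he, le_div_iff₀ h2]
  have h3 : Real.sqrt G ≤ Real.sqrt (G + d ^ 2) := Real.sqrt_le_sqrt (by nlinarith)
  have h5 : Real.sqrt (G + d ^ 2) ≤ Real.sqrt G + d := by
    rw [Real.sqrt_le_iff]
    exact ⟨by positivity, by nlinarith [Real.sq_sqrt hG0, Real.sqrt_nonneg G]⟩
  rcases le_total (Real.sqrt G) d with h | h
  · nlinarith [mul_nonneg (sub_nonneg.2 h) h2.le]
  · nlinarith [mul_le_mul_of_nonneg_left h5 (sub_nonneg.2 h), Real.sq_sqrt hG0]

lemma pd_comp {U : Point → ℝ} (hU : Differentiable ℝ U) (k : Fin 3) (x : Fin 3 → ℝ) :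
    pd (fun y => U (WithLp.toLp 2 y)) k x = fderiv ℝ U (WithLp.toLp 2 x) (unitVec k) := by
  have h := ((hU _).hasFDerivAt.comp x
    (PiLp.hasFDerivAt_toLp (𝕜 := ℝ) 2 x)).fderiv
  exact congrArg (fun L : (Fin 3 → ℝ) →L[ℝ] ℝ => L (Pi.single k 1)) h

end ApproxAux

open ApproxAux

/-- Smooth approximation of sets of finite perimeter, near the indicator in mean. -/
theorem approx_l1 {E : Set Point} {A : ℝ} (hE : IsTorusSet E) (hA : PerimeterLE E A) {δ : ℝ}
    (hδ : 0 < δ) : ∃ u : (Fin 3 → ℝ) → ℝ, Adm u ∧ |mean u - torusVolume E| ≤ δ ∧ dfct u ≤ δ ∧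
      energy u ≤ A + δ ∧ ∫ x in box 3, |u x - ind E (WithLp.toLp 2 x)| ≤ δ := by
  let bump : ℕ → ContDiffBump (0 : Point) := fun j =>
    ⟨((j : ℝ) + 1)⁻¹ / 2, ((j : ℝ) + 1)⁻¹, by positivity, half_lt_self (by positivity)⟩
  have hlim : Tendsto (fun j => (bump j).rOut) atTop (𝓝 0) := by
    simpa [bump, one_div] using tendsto_one_div_add_atTop_nhds_zero_nat (𝕜 := ℝ)
  have hae : ∀ᵐ x ∂volume.restrict cube,
      Tendsto (fun j => moll (bump j) E x) atTop (𝓝 (ind E x)) :=
    ae_restrict_of_ae (ContDiffBump.ae_convolution_tendsto_right_of_locallyIntegrable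
      (K := 2) hlim (Eventually.of_forall fun j => le_of_eq (by simp only [bump]; ring))
      (locallyIntegrable_ind hE))
  have hbd : ∀ j, ∀ᵐ x ∂volume.restrict cube, ‖moll (bump j) E x‖ ≤ 1 := fun j =>
    ae_of_all _ fun x => by
      rw [Real.norm_eq_abs, abs_of_nonneg (moll_mem hE x).1]; exact (moll_mem hE x).2
  have hmean : Tendsto (fun j => ∫ x in cube, moll (bump j) E x) atTop
      (𝓝 (torusVolume E)) := by
    have hi : ∫ x in cube, ind E x = torusVolume E := by
      rw [ind, setIntegral_indicator hE.1, setIntegral_const, smul_eq_mul, mul_one, torusVolume,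
        inter_comm]
    rw [← hi]
    exact tendsto_integral_of_dominated_convergence (fun _ => 1)
      (fun j => (moll_smooth hE).continuous.aestronglyMeasurable) (integrable_const 1) hbd hae
  have hdf : Tendsto (fun j => ∫ x in cube, moll (bump j) E x * (1 - moll (bump j) E x)) atTop
      (𝓝 0) := by
    have h := tendsto_integral_of_dominated_convergence (μ := volume.restrict cube)
      (F := fun j x => moll (bump j) E x * (1 - moll (bump j) E x))
      (f := fun x => ind E x * (1 - ind E x)) (fun _ => 1)
      (fun j => ((moll_smooth hE).continuous.mul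
        (continuous_const.sub (moll_smooth hE).continuous)).aestronglyMeasurable)
      (integrable_const 1) (fun j => ae_of_all _ fun x => ?_) ?_
    · convert h
      refine (integral_eq_zero_of_ae (ae_of_all _ fun x => ?_)).symm
      by_cases hx : x ∈ E <;> simp [ind, hx]
    · obtain ⟨h0, h1⟩ := moll_mem (φ := bump j) hE x
      rw [Real.norm_eq_abs, abs_of_nonneg (mul_nonneg h0 (sub_nonneg.2 h1))]
      nlinarith
    · filter_upwards [hae] with x hx using hx.mul (hx.const_sub 1)
  have hl1 : Tendsto (fun j => ∫ x in cube, |moll (bump j) E x - ind E x|) atTop (𝓝 0) := by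
    have h := tendsto_integral_of_dominated_convergence (μ := volume.restrict cube)
      (F := fun j x => |moll (bump j) E x - ind E x|) (f := fun _ => (0 : ℝ)) (fun _ => 1)
      (fun j => ((moll_smooth hE).continuous.measurable.sub
        (measurable_const.indicator hE.1)).abs.aestronglyMeasurable)
      (integrable_const 1) (fun j => ae_of_all _ fun x => ?_) ?_
    · simpa using h
    · obtain ⟨h0, h1⟩ := moll_mem (φ := bump j) hE x
      obtain ⟨i0, i1⟩ := ind_mem E x
      rw [Real.norm_eq_abs, abs_abs]
      exact abs_sub_le_iff.2 ⟨by linarith, by linarith⟩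
    · filter_upwards [hae] with x hx
      simpa using (hx.sub_const (ind E x)).abs
  obtain ⟨j, ⟨hj1, hj2⟩, hj3⟩ := (((Metric.tendsto_nhds.1 hmean δ hδ).and
    (hdf.eventually (eventually_le_nhds hδ))).and
      (hl1.eventually (eventually_le_nhds hδ))).exists
  set U := moll (bump j) E with hU
  refine ⟨fun y => U (WithLp.toLp 2 y),
    ⟨((moll_smooth hE).of_le (WithTop.coe_le_coe.2 le_top)).comp PiLp.contDiff_toLp,
      fun x i => ?_, fun x => moll_mem hE _⟩, ?_, ?_, ?_, ?_⟩
  · show U _ = U _
    rw [WithLp.toLp_add, show (WithLp.toLp 2 (Pi.single i (1 : ℝ)) : Point) =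
      EuclideanSpace.single i 1 from rfl]
    exact moll_periodic hE _ i
  · rw [mean, integral_box U]
    exact (Real.dist_eq _ _ ▸ hj1).le
  · rw [dfct, integral_box fun x => U x * (1 - U x)]
    exact hj2
  · have hUd : Differentiable ℝ U := (moll_smooth hE).differentiable (by simp)
    have hU1 : ContDiff ℝ 1 U := (moll_smooth hE).of_le (WithTop.coe_le_coe.2 le_top)
    simp only [energy, grad, pd_comp hUd]
    rw [integral_box fun x => Real.sqrt (∑ k, fderiv ℝ U x (unitVec k) ^ 2)]
    set X := gradField U δ with hX
    have hXc : ContDiff ℝ 1 X := gradField_smooth (moll_smooth hE) hδ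
    have hXp : IsPeriodic X := gradField_periodic (moll_periodic hE) δ
    have hcG : Continuous fun x => Real.sqrt (∑ k, fderiv ℝ U x (unitVec k) ^ 2) :=
      Real.continuous_sqrt.comp (continuous_finsetSum _ fun k _ =>
        ((hU1.continuous_fderiv one_ne_zero).clm_apply continuous_const).pow 2)
    have hcX : Continuous fun x => fderiv ℝ U x (X x) :=
      (hU1.continuous_fderiv one_ne_zero).clm_apply hXc.continuous
    have h1 : ∫ x in cube, (Real.sqrt (∑ k, fderiv ℝ U x (unitVec k) ^ 2) - δ) ≤
        ∫ x in cube, fderiv ℝ U x (X x) :=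
      setIntegral_mono (integrableOn_cube (hcG.sub continuous_const)) (integrableOn_cube hcX)
        (le_fderiv_gradField U hδ)
    have h2 : ∫ x in cube, fderiv ℝ U x (X x) ≤ A := by
      have hneg := integral_moll_divergence_le (φ := bump j) hE hA hXc.neg
        (fun x i => congrArg Neg.neg (hXp x i))
        (fun x => by simpa using norm_gradField_le U δ x)
      rw [integral_mul_divergence hU1 (moll_periodic hE) hXc.neg
        (fun x i => congrArg Neg.neg (hXp x i))] at hneg
      simpa [map_neg, integral_neg] using hneg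
    rw [integral_sub (integrableOn_cube hcG) (integrable_const δ), setIntegral_const] at h1
    rw [volume_real_cube, one_smul] at h1
    linarith
  · rw [integral_box fun x => |U x - ind E x|]
    exact hj3

/-- Smooth approximation of sets of finite perimeter. -/
theorem approx : Approx := fun E A hE hA _ hδ =>
  let ⟨u, h1, h2, h3, h4, _⟩ := approx_l1 (E := E) (A := A) hE hA hδ
  ⟨u, h1, h2, h3, h4⟩

end Vale.Agent.P232
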