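import Vale.Agent.P232.Pins

/-!
# P232: the statements feeding the recursion over the axes
-/

noncomputable section

open MeasureTheory Filter Topology Set

namespace Vale.Agent.P232

/-- An axis without a cut gives the bound of the row. -/
def RowBound : Prop :=
  ∀ r : Row, r.Good → ∀ u : (Fin 3 → ℝ) → ℝ, Adm u → ∀ i : Fin 3,
    ¬ CanCut (area u i) r.β r.η → r.v0 ≤ mean u → mean u ≤ r.v1 →
      r.target (mean u) - err (dfct u) ≤ energy u

/-- An axis without a cut, for very small volumes. -/
def TinyBound : Prop :=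
  ∀ u : (Fin 3 → ℝ) → ℝ, Adm u → ∀ i : Fin 3, 0 < mean u → mean u ≤ 25 / 1000000 →
    ¬ CanCut (area u i) (ballPer (mean u) / mean u) (105 / 2 * mean u ^ (4 / 3 : ℝ)) →
      ballPer (mean u) - err (dfct u) ≤ energy u

/-- A function with a gap across each axis lives in space. -/
def ThreeGaps : Prop :=
  ∀ u : (Fin 3 → ℝ) → ℝ, Adm u → (∀ i, HasGap u i) →
    ballPer (max 0 (mean u - dfct u)) ≤ energy u

end Vale.Agent.P232
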