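import Vale.Agent.P232.Pins

/-!
# P232: the unit box, periodic functions and coordinate lines
-/

noncomputable section

open MeasureTheory Filter Topology Set Function

namespace Vale.Agent.P232

variable {n : ℕ}

/-- Periodicity with respect to the unit vectors. -/
def Per (f : (Fin n → ℝ) → ℝ) : Prop := ∀ x i, f (x + Pi.single i 1) = f x

theorem box_eq : box n = pi univ fun _ => Ico (0 : ℝ) 1 := by
  ext x; simp [box]

theorem box_ae : box n =ᵐ[volume] Icc (0 : Fin n → ℝ) 1 := by
  rw [box_eq, volume_pi]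
  exact Measure.univ_pi_Ico_ae_eq_Icc

theorem measurableSet_box : MeasurableSet (box n) := by
  rw [box_eq]
  exact MeasurableSet.pi countable_univ fun _ _ => measurableSet_Ico

theorem volume_box : volume.real (box n) = 1 := by
  rw [measureReal_def, box_eq, volume_pi_pi]
  simp

instance : IsFiniteMeasure (volume.restrict (box n)) :=
  ⟨by rw [Measure.restrict_apply_univ, box_eq, volume_pi_pi]; simp⟩

theorem integrableOn_box {f : (Fin n → ℝ) → ℝ} (hf : Continuous f) : IntegrableOn f (box n) :=
  (integrableOn_congr_set_ae box_ae).2 hf.integrableOn_Icc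

theorem setIntegral_box_mono {f g : (Fin n → ℝ) → ℝ} (hf : Continuous f) (hg : Continuous g)
    (h : ∀ x ∈ box n, f x ≤ g x) : ∫ x in box n, f x ≤ ∫ x in box n, g x :=
  setIntegral_mono_on (integrableOn_box hf) (integrableOn_box hg) measurableSet_box h

theorem continuous_sliceInt {f : (Fin (n + 1) → ℝ) → ℝ} (hf : Continuous f) (i : Fin (n + 1)) :
    Continuous fun z => ∫ y in box n, f (i.insertNth z y) := by
  simp_rw [fun z : ℝ => setIntegral_congr_set (f := fun y => f (i.insertNth z y)) (μ := volume)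
    (box_ae (n := n))]
  refine continuous_parametric_integral_of_continuous ?_ isCompact_Icc
  exact hf.comp (continuous_fst.finInsertNth (A := fun _ : Fin (n + 1) => ℝ) i continuous_snd)

theorem integral_box_succ {f : (Fin (n + 1) → ℝ) → ℝ} (hf : Continuous f) (i : Fin (n + 1)) :
    ∫ x in box (n + 1), f x = ∫ z in (0 : ℝ)..1, ∫ y in box n, f (i.insertNth z y) := by
  set e := MeasurableEquiv.piFinSuccAbove (fun _ : Fin (n + 1) => ℝ) i with he
  have hs : MeasurePreserving e.symm :=
    (volume_preserving_piFinSuccAbove (fun _ : Fin (n + 1) => ℝ) i).symm e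
  rw [← hs.setIntegral_preimage_emb e.symm.measurableEmbedding]
  have hpre : e.symm ⁻¹' box (n + 1) = Ico (0 : ℝ) 1 ×ˢ box n := by
    ext ⟨z, y⟩
    simp [he, box, MeasurableEquiv.piFinSuccAbove_symm_apply, Fin.forall_iff_succAbove i,
      Fin.insertNthEquiv]
  have hes : ∀ q : ℝ × (Fin n → ℝ),
      e.symm q = Fin.insertNth (α := fun _ => ℝ) i q.1 q.2 := fun _ => rfl
  have hint : IntegrableOn (fun q => f (e.symm q)) (Ico (0 : ℝ) 1 ×ˢ box n)
      ((volume : Measure ℝ).prod volume) := by
    rw [← hpre, ← Measure.volume_eq_prod]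
    exact (hs.integrableOn_comp_preimage e.symm.measurableEmbedding).2 (integrableOn_box hf)
  rw [hpre, Measure.volume_eq_prod, setIntegral_prod _ hint,
    intervalIntegral.integral_of_le zero_le_one, setIntegral_congr_set Ico_ae_eq_Ioc]
  simp only [hes]

theorem integral_box_one {f : (Fin 1 → ℝ) → ℝ} :
    ∫ x in box 1, f x = ∫ t in (0 : ℝ)..1, f (fun _ => t) := by
  set e := MeasurableEquiv.funUnique (Fin 1) ℝ
  have hs : MeasurePreserving e.symm := (volume_preserving_funUnique (Fin 1) ℝ).symm e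
  rw [← hs.setIntegral_preimage_emb e.symm.measurableEmbedding,
    intervalIntegral.integral_of_le zero_le_one, ← setIntegral_congr_set Ico_ae_eq_Ioc]
  have : e.symm ⁻¹' box 1 = Ico (0 : ℝ) 1 := by
    ext t; simp [e, box, Fin.forall_fin_one, uniqueElim]
  rw [this]
  rfl

theorem Per.add_int {f : (Fin n → ℝ) → ℝ} (hp : Per f) (i : Fin n) (x : Fin n → ℝ) :
    Function.Periodic (fun t => f (x + Pi.single i t)) 1 := by
  intro t
  simp only
  rw [Pi.single_add, ← add_assoc, hp]

theorem Per.comp_left {f : (Fin n → ℝ) → ℝ} (hp : Per f) (φ : ℝ → ℝ) : Per fun x => φ (f x) :=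
  fun x i => congrArg φ (hp x i)

theorem Per.shift {f : (Fin n → ℝ) → ℝ} (hp : Per f) (c : Fin n → ℝ) :
    Per fun x => f (x + c) := fun x i => by
  simp only
  rw [add_right_comm, hp]

theorem integral_box_add {f : (Fin n → ℝ) → ℝ} (hf : Continuous f) (hp : Per f)
    (c : Fin n → ℝ) : ∫ x in box n, f (x + c) = ∫ x in box n, f x := by
  induction n with
  | zero => exact setIntegral_congr_fun measurableSet_box fun x _ => by
              rw [Subsingleton.elim (x + c) x]
  | succ n ih =>
    rw [integral_box_succ (f := fun x => f (x + c)) (by fun_prop) 0, integral_box_succ hf 0]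
    have h1 : ∀ z, ∫ y in box n, f ((0 : Fin (n + 1)).insertNth z y + c) =
        ∫ y in box n, f ((0 : Fin (n + 1)).insertNth (z + c 0) y) := by
      intro z
      have hadd : ∀ y, (0 : Fin (n + 1)).insertNth z y + c =
          (0 : Fin (n + 1)).insertNth (z + c 0) (y + fun j => c j.succ) := by
        intro y
        funext j
        refine Fin.cases ?_ (fun j => ?_) j <;> simp
      simp_rw [hadd]
      refine ih (f := fun y => f ((0 : Fin (n + 1)).insertNth (z + c 0) y)) ?_ ?_ _
      · exact hf.comp (continuous_const.finInsertNth (A := fun _ : Fin (n + 1) => ℝ) 0 continuous_id)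
      · intro y j
        simp only
        rw [show (0 : Fin (n + 1)).insertNth (α := fun _ => ℝ) (z + c 0) (y + Pi.single j 1) =
          (0 : Fin (n + 1)).insertNth (z + c 0) y + Pi.single j.succ 1 from ?_, hp]
        funext k
        refine Fin.cases ?_ (fun k => ?_) k
        · simp
        · simp [Pi.single_apply]
    simp_rw [h1]
    have hper : Function.Periodic
        (fun z => ∫ y in box n, f ((0 : Fin (n + 1)).insertNth z y)) 1 := by
      intro z
      refine setIntegral_congr_fun measurableSet_box fun y _ => ?_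
      rw [← hp ((0 : Fin (n + 1)).insertNth z y) 0]
      congr 1
      funext k
      refine Fin.cases ?_ (fun k => ?_) k <;> simp
    rw [intervalIntegral.integral_comp_add_right
      (fun z => ∫ y in box n, f ((0 : Fin (n + 1)).insertNth z y)) (c 0)]
    simpa [add_comm] using hper.intervalIntegral_add_eq (c 0) 0

theorem insertNth_eq_add (i : Fin (n + 1)) (z : ℝ) (y : Fin n → ℝ) :
    i.insertNth (α := fun _ => ℝ) z y = i.insertNth 0 y + Pi.single i z := by
  funext j
  obtain rfl | ⟨k, rfl⟩ := Fin.eq_self_or_eq_succAbove i j <;> simp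

theorem single_succAbove (i : Fin (n + 1)) (k : Fin n) :
    i.insertNth (α := fun _ => ℝ) 0 (Pi.single k 1) = Pi.single (i.succAbove k) 1 := by
  funext j
  obtain rfl | ⟨l, rfl⟩ := Fin.eq_self_or_eq_succAbove i j
  · simp
  · simp [Pi.single_apply]

theorem Per.insertNth_add_one {f : (Fin (n + 1) → ℝ) → ℝ} (hp : Per f) (i : Fin (n + 1)) (z : ℝ)
    (y : Fin n → ℝ) : f (i.insertNth (z + 1) y) = f (i.insertNth z y) := by
  rw [insertNth_eq_add i (z + 1), Pi.single_add, ← add_assoc, hp, ← insertNth_eq_add]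

theorem hasFDerivAt_insertNth (i : Fin (n + 1)) (z : ℝ) (y : Fin n → ℝ) :
    HasFDerivAt (fun y => i.insertNth (α := fun _ => ℝ) z y)
      (ContinuousLinearMap.pi fun j => i.insertNth (α := fun _ => (Fin n → ℝ) →L[ℝ] ℝ) 0
        (fun k => ContinuousLinearMap.proj k) j) y := by
  refine hasFDerivAt_pi.2 fun j => ?_
  obtain rfl | ⟨k, rfl⟩ := Fin.eq_self_or_eq_succAbove i j
  · simpa using hasFDerivAt_const z y
  · simpa using hasFDerivAt_apply k y

theorem hasDerivAt_insertNth {f : (Fin (n + 1) → ℝ) → ℝ} (hf : ContDiff ℝ 1 f) (i : Fin (n + 1))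
    (z : ℝ) (y : Fin n → ℝ) :
    HasDerivAt (fun t => f (i.insertNth t y)) (pd f i (i.insertNth z y)) z := by
  have h : HasDerivAt (fun t => i.insertNth (α := fun _ => ℝ) t y) (Pi.single i 1) z := by
    have := hasDerivAt_update (i.insertNth (α := fun _ => ℝ) 0 y) i z
    simpa [Fin.update_insertNth, Function.update] using this.congr_of_eventuallyEq
      (Eventually.of_forall fun t => by simp [Fin.update_insertNth])
  exact ((hf.differentiable one_ne_zero _).hasFDerivAt).comp_hasDerivAt z h

theorem pd_insertNth {f : (Fin (n + 1) → ℝ) → ℝ} (hf : ContDiff ℝ 1 f) (i : Fin (n + 1))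
    (z : ℝ) (y : Fin n → ℝ) (k : Fin n) :
    pd (fun y => f (i.insertNth z y)) k y = pd f (i.succAbove k) (i.insertNth z y) := by
  have h := ((hf.differentiable one_ne_zero (i.insertNth z y)).hasFDerivAt.comp y
    (hasFDerivAt_insertNth i z y)).fderiv
  simp only [pd]
  rw [show (fun y => f (i.insertNth z y)) = f ∘ fun y => i.insertNth (α := fun _ => ℝ) z y from rfl,
    h, ContinuousLinearMap.comp_apply]
  congr 1
  funext j
  obtain rfl | ⟨l, rfl⟩ := Fin.eq_self_or_eq_succAbove i j
  · simp
  · simp [Pi.single_apply]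

theorem contDiff_insertNth (i : Fin (n + 1)) (z : ℝ) :
    ContDiff ℝ 1 fun y : Fin n → ℝ => i.insertNth (α := fun _ => ℝ) z y := by
  refine contDiff_pi.2 fun j => ?_
  obtain rfl | ⟨k, rfl⟩ := Fin.eq_self_or_eq_succAbove i j
  · simpa using contDiff_const
  · simpa using contDiff_apply ℝ ℝ k

theorem continuous_pd {f : (Fin n → ℝ) → ℝ} (hf : ContDiff ℝ 1 f) (k : Fin n) :
    Continuous (pd f k) :=
  (hf.continuous_fderiv one_ne_zero).clm_apply continuous_const

theorem continuous_grad {f : (Fin n → ℝ) → ℝ} (hf : ContDiff ℝ 1 f) : Continuous (grad f) :=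
  Real.continuous_sqrt.comp (continuous_finsetSum _ fun k _ => (continuous_pd hf k).pow 2)

theorem grad_nonneg (f : (Fin n → ℝ) → ℝ) (x : Fin n → ℝ) : 0 ≤ grad f x := Real.sqrt_nonneg _

theorem abs_pd_le_grad (f : (Fin n → ℝ) → ℝ) (k : Fin n) (x : Fin n → ℝ) :
    |pd f k x| ≤ grad f x := by
  rw [grad, ← Real.sqrt_sq_eq_abs]
  exact Real.sqrt_le_sqrt
    (Finset.single_le_sum (fun j _ => sq_nonneg (pd f j x)) (Finset.mem_univ k))

theorem grad_congr {f g : (Fin n → ℝ) → ℝ} {x : Fin n → ℝ} (h : f =ᶠ[𝓝 x] g) :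
    grad f x = grad g x := by
  simp [grad, pd, h.fderiv_eq]

theorem pd_shift (f : (Fin n → ℝ) → ℝ) (c : Fin n → ℝ) (k : Fin n) (x : Fin n → ℝ) :
    pd (fun x => f (x + c)) k x = pd f k (x + c) := by
  simp [pd, fderiv_comp_add_right]

theorem grad_shift (f : (Fin n → ℝ) → ℝ) (c : Fin n → ℝ) (x : Fin n → ℝ) :
    grad (fun x => f (x + c)) x = grad f (x + c) := by
  simp [grad, pd_shift]

theorem Per.pd {f : (Fin n → ℝ) → ℝ} (hp : Per f) (k : Fin n) : Per (pd f k) := fun x i => by
  rw [← pd_shift f (Pi.single i 1)]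
  simp [show (fun x => f (x + Pi.single i 1)) = f from funext fun x => hp x i]

theorem Per.grad {f : (Fin n → ℝ) → ℝ} (hp : Per f) : Per (grad f) := fun x i => by
  simp [P232.grad, hp.pd _ x i]

theorem pd_comp {f : (Fin n → ℝ) → ℝ} {φ : ℝ → ℝ} {x : Fin n → ℝ} {d : ℝ}
    (hφ : HasDerivAt φ d (f x)) (hf : DifferentiableAt ℝ f x) (k : Fin n) :
    pd (fun y => φ (f y)) k x = d * pd f k x := by
  unfold pd
  rw [(hφ.comp_hasFDerivAt x hf.hasFDerivAt).fderiv (f := fun y => φ (f y))]
  simp

theorem grad_comp {f : (Fin n → ℝ) → ℝ} {φ : ℝ → ℝ} {x : Fin n → ℝ} {d : ℝ}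
    (hφ : HasDerivAt φ d (f x)) (hf : DifferentiableAt ℝ f x) :
    grad (fun y => φ (f y)) x = |d| * grad f x := by
  simp only [grad, pd_comp hφ hf, mul_pow, ← Finset.mul_sum]
  rw [Real.sqrt_mul (sq_nonneg d), Real.sqrt_sq_eq_abs]

/-- A periodic function of one variable runs at least twice across the difference of two values. -/
theorem periodic_variation {g g' : ℝ → ℝ} (hd : ∀ z, HasDerivAt g (g' z) z) (hc : Continuous g')
    (hp : Function.Periodic g 1) (r s : ℝ) :
    2 * |g r - g s| ≤ ∫ z in (0 : ℝ)..1, |g' z| := by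
  have hp' : Function.Periodic (fun z => |g' z|) 1 := by
    intro z
    have h1 : HasDerivAt (fun z => g (z + 1)) (g' (z + 1)) z := (hd (z + 1)).comp_add_const z 1
    rw [show (fun z => g (z + 1)) = g from funext hp] at h1
    simp only [h1.unique (hd z)]
  obtain ⟨t, ht, htg⟩ := hp.exists_mem_Ico one_pos s r
  rw [htg, show (0 : ℝ) = 0 from rfl]
  have hshift := hp'.intervalIntegral_add_eq 0 r
  rw [zero_add] at hshift
  rw [hshift]
  have hab : ∀ a b : ℝ, a ≤ b → |g b - g a| ≤ ∫ z in a..b, |g' z| := by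
    intro a b hle
    rw [← intervalIntegral.integral_eq_sub_of_hasDerivAt (fun z _ => hd z)
      (hc.intervalIntegrable _ _)]
    exact intervalIntegral.abs_integral_le_integral_abs hle
  have hi : ∀ a b : ℝ, IntervalIntegrable (fun z => |g' z|) volume a b :=
    fun a b => hc.abs.intervalIntegrable a b
  rw [← intervalIntegral.integral_add_adjacent_intervals (hi r t) (hi t (r + 1))]
  have h2 := hab t (r + 1) ht.2.le
  rw [hp r] at h2
  have h1 := hab r t ht.1
  rw [abs_sub_comm] at h1
  linarith

theorem grad_zero_of_eventually {f : (Fin n → ℝ) → ℝ} {x : Fin n → ℝ}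
    (h : f =ᶠ[𝓝 x] fun _ => 0) : grad f x = 0 := by
  rw [grad_congr h]
  simp [grad, pd]

/-- Cutting a periodic function which vanishes near the faces of the box out of the space. -/
theorem exists_ext {w : (Fin n → ℝ) → ℝ} (hw : ContDiff ℝ 1 w) (hp : Per w) (hnn : ∀ x, 0 ≤ w x)
    {δ : ℝ} (hδ : 0 < δ) (hface : ∀ i x, |x i| < δ → w x = 0) :
    ∃ g : (Fin n → ℝ) → ℝ, ContDiff ℝ 1 g ∧ HasCompactSupport g ∧ (∀ x, 0 ≤ g x) ∧
      (∀ G : ℝ → ℝ, G 0 = 0 → ∫ x, G (g x) = ∫ x in box n, G (w x)) ∧
      ∫ x, grad g x = ∫ x in box n, grad w x := by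
  have hface1 : ∀ i x, |x i - 1| < δ → w x = 0 := fun i x h => by
    rw [show x = (x - Pi.single i 1) + Pi.single i 1 by abel, hp]
    exact hface i _ (by simpa using h)
  set g := (box n).indicator w with hg
  have hout : ∀ x, x ∉ box n → g =ᶠ[𝓝 x] fun _ => 0 := by
    intro x hx
    simp only [box, mem_ofPred_eq, not_forall, mem_Ico, not_and_or, not_le, not_lt] at hx
    obtain ⟨i, hi⟩ := hx
    have hev : ∀ᶠ y in 𝓝 x, |y i - x i| < δ := by
      have := ((continuous_apply i).sub (continuous_const (y := x i))).abs.tendsto x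
      exact this (Iio_mem_nhds (by simpa using hδ))
    filter_upwards [hev] with y hy
    by_cases hb : y ∈ box n
    · rw [hg, indicator_of_mem hb]
      have := hb i
      rcases hi with hi | hi
      · refine hface i y (abs_lt.2 ?_)
        rw [abs_lt] at hy; constructor <;> linarith [this.1]
      · refine hface1 i y (abs_lt.2 ?_)
        rw [abs_lt] at hy; constructor <;> linarith [this.2]
    · exact indicator_of_notMem hb w
  have hin : ∀ x, x ∈ box n → g =ᶠ[𝓝 x] w := by
    intro x hx
    by_cases hint : ∀ i, 0 < x i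
    · have : (pi univ fun _ : Fin n => Ioo (0 : ℝ) 1) ∈ 𝓝 x :=
        (isOpen_set_pi finite_univ fun _ _ => isOpen_Ioo).mem_nhds fun i _ => ⟨hint i, (hx i).2⟩
      filter_upwards [this] with y hy
      exact indicator_of_mem (show y ∈ box n from fun i => Ioo_subset_Ico_self (hy i trivial)) w
    · push Not at hint
      obtain ⟨i, hi⟩ := hint
      have hi0 : x i = 0 := le_antisymm hi (hx i).1
      have hev : ∀ᶠ y in 𝓝 x, |y i| < δ := by
        have := ((continuous_apply i).abs.tendsto x)
        exact this (Iio_mem_nhds (by simpa [hi0] using hδ))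
      filter_upwards [hev] with y hy
      rw [hg]
      by_cases hb : y ∈ box n
      · exact indicator_of_mem hb w
      · rw [indicator_of_notMem hb, hface i y hy]
  refine ⟨g, ?_, ?_, ?_, ?_, ?_⟩
  · refine contDiff_iff_contDiffAt.2 fun x => ?_
    by_cases hx : x ∈ box n
    · exact hw.contDiffAt.congr_of_eventuallyEq (hin x hx)
    · exact contDiffAt_const.congr_of_eventuallyEq (hout x hx)
  · refine HasCompactSupport.intro (isCompact_Icc (a := (0 : Fin n → ℝ)) (b := 1)) fun x hx => ?_
    exact indicator_of_notMem (fun hb => hx ⟨fun i => (hb i).1, fun i => (hb i).2.le⟩) w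
  · exact fun x => indicator_nonneg (fun y _ => hnn y) x
  · intro G hG
    rw [← integral_indicator measurableSet_box]
    congr 1
    funext x
    by_cases hx : x ∈ box n <;> simp [hg, hx, hG]
  · rw [← integral_indicator measurableSet_box]
    congr 1
    funext x
    by_cases hx : x ∈ box n
    · rw [indicator_of_mem hx, grad_congr (hin x hx)]
    · rw [indicator_of_notMem hx, grad_zero_of_eventually (hout x hx)]

theorem Adm.per {u : (Fin n → ℝ) → ℝ} (hu : Adm u) : Per u := hu.periodic

theorem Adm.shift {u : (Fin n → ℝ) → ℝ} (hu : Adm u) (c : Fin n → ℝ) :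
    Adm fun x => u (x + c) :=
  ⟨hu.smooth.comp (contDiff_id.add contDiff_const), hu.per.shift c, fun x => hu.mem _⟩

theorem mean_shift {u : (Fin n → ℝ) → ℝ} (hu : Adm u) (c : Fin n → ℝ) :
    mean (fun x => u (x + c)) = mean u :=
  integral_box_add hu.smooth.continuous hu.per c

theorem dfct_shift {u : (Fin n → ℝ) → ℝ} (hu : Adm u) (c : Fin n → ℝ) :
    dfct (fun x => u (x + c)) = dfct u :=
  integral_box_add (f := fun x => u x * (1 - u x))
    (hu.smooth.continuous.mul (continuous_const.sub hu.smooth.continuous))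
    (hu.per.comp_left fun t => t * (1 - t)) c

theorem energy_shift {u : (Fin n → ℝ) → ℝ} (hu : Adm u) (c : Fin n → ℝ) :
    energy (fun x => u (x + c)) = energy u := by
  simp only [energy, grad_shift]
  exact integral_box_add (continuous_grad hu.smooth) hu.per.grad c

theorem energy_nonneg (u : (Fin n → ℝ) → ℝ) : 0 ≤ energy u :=
  setIntegral_nonneg measurableSet_box fun x _ => grad_nonneg u x

theorem dfct_nonneg {u : (Fin n → ℝ) → ℝ} (hu : Adm u) : 0 ≤ dfct u :=
  setIntegral_nonneg measurableSet_box fun x _ => mul_nonneg (hu.mem x).1 (by linarith [(hu.mem x).2])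

theorem mean_mem {u : (Fin n → ℝ) → ℝ} (hu : Adm u) : mean u ∈ Icc (0 : ℝ) 1 := by
  refine ⟨setIntegral_nonneg measurableSet_box fun x _ => (hu.mem x).1, ?_⟩
  refine (setIntegral_box_mono hu.smooth.continuous continuous_const fun x _ => (hu.mem x).2).trans_eq ?_
  simp [volume_box]

theorem Per.fract {f : (Fin n → ℝ) → ℝ} (hp : Per f) (x : Fin n → ℝ) (s : Finset (Fin n)) :
    f (fun j => if j ∈ s then Int.fract (x j) else x j) = f x := by
  induction s using Finset.induction with
  | empty => simp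
  | insert k s hk ih =>
    rw [← ih]
    set y := fun j => if j ∈ insert k s then Int.fract (x j) else x j with hy
    have : (fun j => if j ∈ s then Int.fract (x j) else x j) =
        y + Pi.single k (⌊x k⌋ : ℝ) := by
      funext j
      rcases eq_or_ne j k with rfl | hj
      · simp [hy, hk]
      · simp [hy, hj]
    rw [this]
    have := ((hp.add_int k y).int_mul ⌊x k⌋ 0).symm
    simpa using this

/-- A strict bound on a face of the box holds on a neighbouring slab. -/
theorem exists_slab {v : (Fin n → ℝ) → ℝ} (hv : Continuous v) (hp : Per v) {l : ℝ} (k : Fin n)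
    (h : ∀ x, x k = 0 → v x < l) : ∃ δ > 0, ∀ x, |x k| < δ → v x < l := by
  set lo : Fin n → ℝ := fun j => if j = k then -(1 / 2) else 0
  set hi : Fin n → ℝ := fun j => if j = k then 1 / 2 else 1
  have hK : IsCompact (Icc lo hi ∩ {x | l ≤ v x}) :=
    isCompact_Icc.inter_right (isClosed_le continuous_const hv)
  have hred : ∀ x, |x k| < 1 / 2 → l ≤ v x → ∃ y ∈ Icc lo hi ∩ {x | l ≤ v x}, y k = x k := by
    intro x hx hl
    refine ⟨fun j => if j ∈ Finset.univ.erase k then Int.fract (x j) else x j, ⟨⟨?_, ?_⟩, ?_⟩, ?_⟩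
    · intro j
      rw [abs_lt] at hx
      rcases eq_or_ne j k with rfl | hj
      · simp [lo, -one_div]; linarith
      · simp [lo, hj]
    · intro j
      rw [abs_lt] at hx
      rcases eq_or_ne j k with rfl | hj
      · simp [hi, -one_div]; linarith
      · simp [hi, hj, (Int.fract_lt_one (x j)).le]
    · show l ≤ v _
      rw [hp.fract]; exact hl
    · simp
  rcases (Icc lo hi ∩ {x | l ≤ v x}).eq_empty_or_nonempty with he | hne
  · refine ⟨1 / 2, by norm_num, fun x hx => ?_⟩
    by_contra hl
    obtain ⟨y, hy, -⟩ := hred x hx (not_lt.1 hl)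
    rw [he] at hy; exact hy
  · obtain ⟨y₀, hy₀, hmin⟩ :=
      hK.exists_isMinOn hne (continuous_apply k).abs.continuousOn
    have hpos : 0 < |y₀ k| := abs_pos.2 fun h0 => not_lt.2 hy₀.2 (h y₀ h0)
    refine ⟨min (1 / 2) |y₀ k|, lt_min (by norm_num) hpos, fun x hx => ?_⟩
    by_contra hl
    obtain ⟨y, hy, hyk⟩ := hred x (hx.trans_le (min_le_left _ _)) (not_lt.1 hl)
    have h1 : |y₀ k| ≤ |y k| := hmin hy
    rw [hyk] at h1
    exact (hx.trans_le (min_le_right _ _)).not_ge h1

theorem exists_slab_all {v : (Fin n → ℝ) → ℝ} (hv : Continuous v) (hp : Per v) {l : ℝ}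
    (h : ∀ k x, x k = 0 → v x < l) : ∃ δ > 0, ∀ k x, |x k| < δ → v x < l := by
  choose δ hδ hs using fun k => exists_slab hv hp k (h k)
  rcases isEmpty_or_nonempty (Fin n) with he | hne
  · exact ⟨1, one_pos, fun k => isEmptyElim k⟩
  · exact ⟨Finset.univ.inf' Finset.univ_nonempty δ, (Finset.lt_inf'_iff _).2 fun k _ => hδ k,
      fun k x hx => hs k x (hx.trans_le (Finset.inf'_le δ (Finset.mem_univ k)))⟩

theorem pd_one_sub {f : (Fin n → ℝ) → ℝ} (hf : ContDiff ℝ 1 f) (x : Fin n → ℝ) :
    grad (fun y => 1 - f y) x = grad f x := by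
  rw [grad_comp (φ := fun t => 1 - t) (d := -1) ((hasDerivAt_id _).const_sub 1)
    (hf.differentiable one_ne_zero x)]
  simp

theorem Adm.one_sub {u : (Fin n → ℝ) → ℝ} (hu : Adm u) : Adm fun x => 1 - u x :=
  ⟨contDiff_const.sub hu.smooth, hu.per.comp_left fun t => 1 - t,
    fun x => ⟨by linarith [(hu.mem x).2], by linarith [(hu.mem x).1]⟩⟩

theorem mean_one_sub {u : (Fin n → ℝ) → ℝ} (hu : Adm u) :
    mean (fun x => 1 - u x) = 1 - mean u := by
  simp only [mean]
  rw [integral_sub (integrableOn_box continuous_const) (integrableOn_box hu.smooth.continuous)]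
  simp [volume_box]

theorem dfct_one_sub (u : (Fin n → ℝ) → ℝ) : dfct (fun x => 1 - u x) = dfct u := by
  simp only [dfct]; congr 1; funext x; ring

theorem energy_one_sub {u : (Fin n → ℝ) → ℝ} (hu : Adm u) :
    energy (fun x => 1 - u x) = energy u := by
  simp only [energy, pd_one_sub hu.smooth]

end Vale.Agent.P232
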