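import Vale.Agent.P232.AssemblyPins
import Vale.Agent.P232.Boxes

/-!
# P232: elementary facts about the profile, chords and periodic areas
-/

noncomputable section

open MeasureTheory Filter Topology Set

namespace Vale.Agent.P232

namespace Axis

theorem le_sqrt_convex {a b l : ℝ} (ha : 0 ≤ a) (hb : 0 ≤ b) (h0 : 0 ≤ l) (h1 : l ≤ 1) :
    (1 - l) * Real.sqrt a + l * Real.sqrt b ≤ Real.sqrt ((1 - l) * a + l * b) := by
  have hl : 0 ≤ 1 - l := sub_nonneg.2 h1
  refine (Real.le_sqrt (by positivity) (by positivity)).2 ?_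
  nlinarith [mul_nonneg (mul_nonneg hl h0) (sq_nonneg (Real.sqrt a - Real.sqrt b)),
    Real.sq_sqrt ha, Real.sq_sqrt hb]

theorem prof_nonneg (x : ℝ) : 0 ≤ prof x :=
  mul_nonneg zero_le_two (le_min (le_min (Real.sqrt_nonneg _) zero_le_one) (Real.sqrt_nonneg _))

theorem continuous_prof : Continuous prof := by unfold prof; fun_prop

theorem prof_pos {x : ℝ} (h0 : 0 < x) (h1 : x < 1) : 0 < prof x :=
  mul_pos two_pos (lt_min (lt_min (Real.sqrt_pos.2 (by positivity)) one_pos)
    (Real.sqrt_pos.2 (mul_pos Real.pi_pos (sub_pos.2 h1))))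

theorem prof_convex {a b l : ℝ} (ha : a ∈ Icc (0 : ℝ) 1) (hb : b ∈ Icc (0 : ℝ) 1)
    (h0 : 0 ≤ l) (h1 : l ≤ 1) :
    (1 - l) * prof a + l * prof b ≤ prof ((1 - l) * a + l * b) := by
  have hl : 0 ≤ 1 - l := sub_nonneg.2 h1
  have hπ := Real.pi_pos.le
  have e1 : Real.pi * ((1 - l) * a + l * b) = (1 - l) * (Real.pi * a) + l * (Real.pi * b) := by ring
  have e2 : Real.pi * (1 - ((1 - l) * a + l * b)) =
      (1 - l) * (Real.pi * (1 - a)) + l * (Real.pi * (1 - b)) := by ring
  have t1 : (1 - l) * min (min (Real.sqrt (Real.pi * a)) 1) (Real.sqrt (Real.pi * (1 - a))) +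
      l * min (min (Real.sqrt (Real.pi * b)) 1) (Real.sqrt (Real.pi * (1 - b))) ≤
        min (min (Real.sqrt (Real.pi * ((1 - l) * a + l * b))) 1)
          (Real.sqrt (Real.pi * (1 - ((1 - l) * a + l * b)))) := by
    refine le_min (le_min ?_ ?_) ?_
    · rw [e1]
      exact le_trans (add_le_add
        (mul_le_mul_of_nonneg_left ((min_le_left _ _).trans (min_le_left _ _)) hl)
        (mul_le_mul_of_nonneg_left ((min_le_left _ _).trans (min_le_left _ _)) h0))
        (le_sqrt_convex (mul_nonneg hπ ha.1) (mul_nonneg hπ hb.1) h0 h1)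
    · calc _ ≤ (1 - l) * 1 + l * 1 := add_le_add
            (mul_le_mul_of_nonneg_left ((min_le_left _ _).trans (min_le_right _ _)) hl)
            (mul_le_mul_of_nonneg_left ((min_le_left _ _).trans (min_le_right _ _)) h0)
        _ = 1 := by ring
    · rw [e2]
      exact le_trans (add_le_add
        (mul_le_mul_of_nonneg_left (min_le_right _ _) hl)
        (mul_le_mul_of_nonneg_left (min_le_right _ _) h0))
        (le_sqrt_convex (mul_nonneg hπ (sub_nonneg.2 ha.2)) (mul_nonneg hπ (sub_nonneg.2 hb.2))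
          h0 h1)
  unfold prof
  linarith

/-- A chord lies between zero and the profile. -/
theorem chord_mem {c m x : ℝ} (hc : 0 ≤ c) (hm : m ≤ 1) (hcx : c ≤ x) (hxm : x ≤ m) :
    0 ≤ chord c m x ∧ chord c m x ≤ prof x := by
  rcases (hcx.trans hxm).eq_or_lt with h | h
  · subst h
    obtain rfl : x = c := le_antisymm hxm hcx
    have : chord x x x = prof x := by simp [chord]
    rw [this]
    exact ⟨prof_nonneg x, le_rfl⟩
  set l := (x - c) / (m - c) with hl
  have hmc : 0 < m - c := sub_pos.2 h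
  have h0 : 0 ≤ l := div_nonneg (sub_nonneg.2 hcx) hmc.le
  have h1 : l ≤ 1 := (div_le_one hmc).2 (by linarith)
  have hx : (1 - l) * c + l * m = x := by rw [hl]; field_simp; ring
  have he : chord c m x = (1 - l) * prof c + l * prof m := by simp only [chord, ← hl]; ring
  have h2 := prof_convex (a := c) (b := m) ⟨hc, by linarith⟩ ⟨by linarith, hm⟩ h0 h1
  rw [hx] at h2
  rw [he]
  exact ⟨by have := prof_nonneg c; have := prof_nonneg m; nlinarith, h2⟩

theorem continuous_chord (c m : ℝ) : Continuous (chord c m) := by unfold chord; fun_prop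

theorem measurable_weight (c m : ℝ) : Measurable (weight c m) := by
  have := (continuous_chord c m).measurable
  have := continuous_prof.measurable
  unfold weight
  fun_prop

theorem weight_le_one (c m x : ℝ) : weight c m x ≤ 1 := by
  refine Real.sqrt_le_one.2 (max_le zero_le_one ?_)
  linarith [sq_nonneg (chord c m x / prof x)]

theorem intervalIntegrable_weight (c m a b : ℝ) : IntervalIntegrable (weight c m) volume a b := by
  refine (intervalIntegrable_const (c := (1 : ℝ))).mono_fun'
    (measurable_weight c m).aestronglyMeasurable (ae_of_all _ fun x => ?_)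
  simp only [Real.norm_eq_abs]
  rw [weight, abs_of_nonneg (Real.sqrt_nonneg _)]
  exact weight_le_one c m x

theorem exists_extrema {a : ℝ → ℝ} (ha : Continuous a) (hp : Function.Periodic a 1) :
    ∃ zm zM, ∀ z, a zm ≤ a z ∧ a z ≤ a zM := by
  obtain ⟨zm, _, hmin⟩ := (isCompact_Icc (a := (0 : ℝ)) (b := 1)).exists_isMinOn
    (nonempty_Icc.2 zero_le_one) ha.continuousOn
  obtain ⟨zM, _, hmax⟩ := (isCompact_Icc (a := (0 : ℝ)) (b := 1)).exists_isMaxOn
    (nonempty_Icc.2 zero_le_one) ha.continuousOn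
  refine ⟨zm, zM, fun z => ?_⟩
  obtain ⟨y, hy, hyz⟩ := hp.exists_mem_Ico₀ one_pos z
  rw [hyz]
  exact ⟨hmin (Ico_subset_Icc_self hy), hmax (Ico_subset_Icc_self hy)⟩

theorem sSup_range_eq {a : ℝ → ℝ} {zM : ℝ} (h : ∀ z, a z ≤ a zM) : sSup (range a) = a zM :=
  IsGreatest.csSup_eq ⟨⟨zM, rfl⟩, by rintro _ ⟨z, rfl⟩; exact h z⟩

/-- A periodic function runs at least twice over the weighted distance of two values. -/
theorem weighted_variation {a a' t : ℝ → ℝ} (hd : ∀ z, HasDerivAt a (a' z) z) (hc : Continuous a')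
    (hp : Function.Periodic a 1) (ht : Continuous t) (ht0 : ∀ x, 0 ≤ t x) (r s : ℝ) :
    2 * (∫ x in a r..a s, t x) ≤ ∫ z in (0 : ℝ)..1, t (a z) * |a' z| := by
  have hac : Continuous a := continuous_iff_continuousAt.2 fun z => (hd z).continuousAt
  have h := periodic_variation (g := fun z => ∫ x in a r..a z, t x) (g' := fun z => t (a z) * a' z)
    (fun z => (ht.integral_hasStrictDerivAt (a r) (a z)).hasDerivAt.comp z (hd z))
    ((ht.comp hac).mul hc) (fun z => by simp only [hp z]) s r
  simp only [intervalIntegral.integral_same, sub_zero] at h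
  refine le_trans ?_ (h.trans_eq (intervalIntegral.integral_congr fun z _ => ?_))
  · linarith [le_abs_self (∫ x in a r..a s, t x)]
  · simp [abs_mul, abs_of_nonneg (ht0 _)]

/-- The slicing bound without a weight. -/
theorem slice_bound (hSl : Slicing) {u : (Fin 3 → ℝ) → ℝ} (hu : Adm u) (i : Fin 3)
    {s t : ℝ → ℝ} (hs : Continuous s) (ht : Continuous t) (hs0 : ∀ z, 0 ≤ s z)
    (ht0 : ∀ z, 0 ≤ t z) (hst : ∀ z, s z ^ 2 + t z ^ 2 ≤ 1) :
    ∫ z in (0 : ℝ)..1, (s z * prof (area u i z) + t z * |slope u i z|) ≤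
      energy u + err (dfct u) := by
  have h := (hSl u hu i).2.2.2.2.2 (fun _ => 1) s t continuous_const hs ht
    (fun _ => ⟨zero_le_one, le_rfl⟩) hs0 ht0 hst
  simpa [energy] using h

theorem continuous_area (hSl : Slicing) {u : (Fin 3 → ℝ) → ℝ} (hu : Adm u) (i : Fin 3) :
    Continuous (area u i) :=
  continuous_iff_continuousAt.2 fun z => ((hSl u hu i).1 z).continuousAt

theorem integral_le_of_slice {a : ℝ → ℝ} {v : ℝ} (ha : Continuous a)
    (hint : ∫ z in (0 : ℝ)..1, a z = v) {b : ℝ} (h : ∀ z, a z ≤ b) : v ≤ b := by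
  rw [← hint]
  refine (intervalIntegral.integral_mono_on zero_le_one (ha.intervalIntegrable _ _)
    intervalIntegrable_const fun z _ => h z).trans_eq ?_
  simp

theorem le_integral_of_slice {a : ℝ → ℝ} {v : ℝ} (ha : Continuous a)
    (hint : ∫ z in (0 : ℝ)..1, a z = v) {b : ℝ} (h : ∀ z, b ≤ a z) : b ≤ v := by
  rw [← hint]
  refine le_trans (le_of_eq ?_) (intervalIntegral.integral_mono_on zero_le_one
    intervalIntegrable_const (ha.intervalIntegrable _ _) fun z _ => h z)
  simp

theorem integral_chord {a : ℝ → ℝ} {v : ℝ} (ha : Continuous a)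
    (hint : ∫ z in (0 : ℝ)..1, a z = v) (c m : ℝ) :
    ∫ z in (0 : ℝ)..1, chord c m (a z) = chord c m v := by
  simp only [chord]
  have hi : IntervalIntegrable (fun z => (prof m - prof c) * ((a z - c) / (m - c))) volume 0 1 :=
    (continuous_const.mul ((ha.sub continuous_const).div_const _)).intervalIntegrable _ _
  rw [intervalIntegral.integral_add intervalIntegrable_const hi,
    intervalIntegral.integral_const_mul, intervalIntegral.integral_div,
    intervalIntegral.integral_sub (ha.intervalIntegrable _ _) intervalIntegrable_const, hint]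
  simp

theorem integral_indicator_low {a : ℝ → ℝ} (ha : Continuous a) (p : ℝ) :
    ∫ z in (0 : ℝ)..1, {y | a y ≤ p}.indicator (fun _ => (1 : ℝ)) z =
      volume.real (Ico (0 : ℝ) 1 ∩ {y | a y ≤ p}) := by
  rw [intervalIntegral.integral_of_le zero_le_one, ← setIntegral_congr_set Ico_ae_eq_Ioc,
    setIntegral_indicator (measurableSet_le ha.measurable measurable_const), setIntegral_const,
    smul_eq_mul, mul_one]

theorem intervalIntegrable_low {a : ℝ → ℝ} (ha : Continuous a) (p : ℝ) :
    IntervalIntegrable ({y | a y ≤ p}.indicator fun _ => (1 : ℝ)) volume 0 1 :=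
  (intervalIntegrable_const (c := (1 : ℝ))).mono_fun'
    (measurable_const.indicator
      (measurableSet_le ha.measurable measurable_const)).aestronglyMeasurable
    (ae_of_all _ fun x => by by_cases h : a x ≤ p <;> simp [h])

/-! ### The calibration of a chord -/

/-- The clamp to `[C, M]`. -/
def clamp (C M x : ℝ) : ℝ := max C (min M x)

/-- The softened slope of the calibration. -/
def calS (C M d x : ℝ) : ℝ := chord C M (clamp C M x) / (prof (clamp C M x) + d)

/-- Its complement, shifted to vanish below `C`. -/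
def calT (C M d x : ℝ) : ℝ :=
  max 0 (Real.sqrt (1 - calS C M d x ^ 2) - Real.sqrt (1 - calS C M d C ^ 2))

variable {C M d : ℝ}

theorem clamp_mem (h : C ≤ M) (x : ℝ) : C ≤ clamp C M x ∧ clamp C M x ≤ M :=
  ⟨le_max_left _ _, max_le h (min_le_left _ _)⟩

theorem clamp_of_mem {x : ℝ} (h1 : C ≤ x) (h2 : x ≤ M) : clamp C M x = x := by
  rw [clamp, min_eq_right h2, max_eq_right h1]

theorem calS_mem (hC : 0 ≤ C) (hM : M ≤ 1) (h : C ≤ M) (hd : 0 < d) (x : ℝ) :
    0 ≤ calS C M d x ∧ calS C M d x ≤ 1 := by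
  obtain ⟨h1, h2⟩ := clamp_mem h x
  obtain ⟨h3, h4⟩ := chord_mem hC hM h1 h2
  have h5 := prof_nonneg (clamp C M x)
  exact ⟨div_nonneg h3 (by linarith), (div_le_one (by linarith)).2 (by linarith)⟩

theorem continuous_calS (hd : 0 < d) : Continuous (calS C M d) := by
  have hc : Continuous (clamp C M) := continuous_const.max (continuous_const.min continuous_id)
  exact ((continuous_chord C M).comp hc).div₀ ((continuous_prof.comp hc).add continuous_const)
    fun x => by have := prof_nonneg (clamp C M x); positivity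

theorem continuous_calT (hd : 0 < d) : Continuous (calT C M d) :=
  continuous_const.max ((Real.continuous_sqrt.comp
    (continuous_const.sub ((continuous_calS hd).pow 2))).sub continuous_const)

theorem calT_of_le (h : C ≤ M) {x : ℝ} (hx : x ≤ C) : calT C M d x = 0 := by
  have e : clamp C M x = clamp C M C := by
    simp [clamp, hx.trans h, h, hx]
  simp [calT, calS, e]

theorem calT_le (hC : 0 ≤ C) (hM : M ≤ 1) (h : C ≤ M) (hd : 0 < d) (x : ℝ) :
    0 ≤ calT C M d x ∧ calT C M d x ≤ 1 ∧ calS C M d x ^ 2 + calT C M d x ^ 2 ≤ 1 := by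
  obtain ⟨h1, h2⟩ := calS_mem hC hM h hd x
  have h0 : 0 ≤ 1 - calS C M d x ^ 2 := by nlinarith
  have ht : calT C M d x ≤ Real.sqrt (1 - calS C M d x ^ 2) :=
    max_le (Real.sqrt_nonneg _) (by linarith [Real.sqrt_nonneg (1 - calS C M d C ^ 2)])
  refine ⟨le_max_left _ _, ht.trans (Real.sqrt_le_one.2 (by nlinarith)), ?_⟩
  have h3 := pow_le_pow_left₀ (le_max_left _ _ : 0 ≤ calT C M d x) ht 2
  rw [Real.sq_sqrt h0] at h3
  simp only [calT] at h3 ⊢
  linarith

theorem chord_sub_le (hC : 0 ≤ C) (hM : M ≤ 1) (hd : 0 < d) {x : ℝ} (h1 : C ≤ x) (h2 : x ≤ M) :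
    chord C M x - d ≤ calS C M d x * prof x := by
  obtain ⟨h3, h4⟩ := chord_mem hC hM h1 h2
  have h5 := prof_nonneg x
  rw [calS, clamp_of_mem h1 h2, div_mul_eq_mul_div, le_div_iff₀ (by linarith)]
  nlinarith [mul_nonneg hd.le (sub_nonneg.2 h4), mul_pos hd hd]

theorem weight_sub_le (hC : 0 ≤ C) (hM : M ≤ 1) (hP : 0 < prof C) (hd : 0 < d) {e : ℝ}
    (he : 0 ≤ e) (hde : 2 * d ≤ prof C * e ^ 2) {x : ℝ} (h1 : C ≤ x) (h2 : x ≤ M) :
    weight C M x - e ≤ calT C M d x := by
  obtain ⟨h3, h4⟩ := chord_mem hC hM h1 h2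
  have h5 := prof_nonneg x
  have hCC : calS C M d C = prof C / (prof C + d) := by
    rw [calS, clamp_of_mem le_rfl (h1.trans h2)]
    simp [chord]
  have hx : calS C M d x ^ 2 ≤ (chord C M x / prof x) ^ 2 := by
    rw [calS, clamp_of_mem h1 h2]
    rcases h5.eq_or_lt with h | h
    · have : chord C M x = 0 := le_antisymm (h4.trans h.symm.le) h3
      simp [this]
    · exact pow_le_pow_left₀ (div_nonneg h3 (by linarith))
        (div_le_div_of_nonneg_left h3 h (by linarith)) 2
  have hlow : 1 - calS C M d C ^ 2 ≤ e ^ 2 := by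
    rw [hCC, div_pow, one_sub_div (by positivity), div_le_iff₀ (by positivity)]
    nlinarith [mul_le_mul_of_nonneg_left hde hP.le, mul_nonneg hd.le hd.le, mul_nonneg hP.le hd.le,
      mul_nonneg (mul_nonneg hP.le hd.le) (sq_nonneg e), mul_nonneg (sq_nonneg d) (sq_nonneg e)]
  have hw : weight C M x ≤ Real.sqrt (1 - calS C M d x ^ 2) :=
    Real.sqrt_le_sqrt (max_le (by nlinarith [calS_mem hC hM (h1.trans h2) hd x]) (by linarith))
  have h6 : Real.sqrt (1 - calS C M d C ^ 2) ≤ e := Real.sqrt_le_iff.2 ⟨he, hlow⟩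
  exact le_trans (by linarith) (le_max_right _ _)

end Axis

end Vale.Agent.P232
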