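import Vale.Agent.P232.AssemblyPins
import Vale.Agent.P232.Boxes

/-!
# P232: a function with gaps across all three axes lives in space
-/

noncomputable section

open MeasureTheory Filter Topology Set

namespace Vale.Agent.P232

theorem threeGaps (hS : SobolevSpace) : ThreeGaps := by
  intro u hu hgap
  choose a b hab hzero using hgap
  set c : Fin 3 → ℝ := fun i => (a i + b i) / 2 with hc
  obtain ⟨δ, hδ, hδle⟩ : ∃ δ > (0 : ℝ), ∀ i, δ ≤ (b i - a i) / 2 :=
    ⟨Finset.univ.inf' Finset.univ_nonempty fun i => (b i - a i) / 2,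
      (Finset.lt_inf'_iff _).2 fun i _ => by linarith [hab i],
      fun i => Finset.inf'_le _ (Finset.mem_univ i)⟩
  set w := fun x => u (x + c) with hw
  have hwA : Adm w := hu.shift c
  obtain ⟨g, hg, hgs, hgnn, hgint, hggrad⟩ :=
    exists_ext hwA.smooth hwA.per (fun x => (hwA.mem x).1) hδ fun i x hx => by
      refine hzero i _ ?_
      have h := hδle i
      rw [abs_lt] at hx
      simp only [mem_Ioo, Pi.add_apply, hc]
      constructor <;> linarith
  have h := hS g hg hgs hgnn
  rw [hggrad, hgint (fun t => t ^ (3 / 2 : ℝ)) (Real.zero_rpow (by norm_num))] at h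
  rw [← energy_shift hu c, ballPer]
  refine le_trans (mul_le_mul_of_nonneg_left (Real.rpow_le_rpow (le_max_left _ _) ?_ (by norm_num))
    (by positivity)) h
  have hc1 : Continuous fun x => w x ^ (3 / 2 : ℝ) :=
    hwA.smooth.continuous.rpow_const fun _ => Or.inr (by norm_num)
  have hc2 : Continuous fun x => w x * (1 - w x) :=
    hwA.smooth.continuous.mul (continuous_const.sub hwA.smooth.continuous)
  refine max_le (setIntegral_nonneg measurableSet_box fun x _ =>
    Real.rpow_nonneg (hwA.mem x).1 _) ?_
  rw [← mean_shift hu c, ← dfct_shift hu c]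
  show mean w - dfct w ≤ _
  rw [mean, dfct, ← integral_sub (integrableOn_box hwA.smooth.continuous) (integrableOn_box hc2)]
  refine setIntegral_box_mono (hwA.smooth.continuous.sub hc2) hc1 fun x _ => ?_
  obtain ⟨h0, h1⟩ := hwA.mem x
  rcases h0.eq_or_lt with h2 | h2
  · rw [← h2]; simp
  · calc w x - w x * (1 - w x) = w x ^ ((2 : ℕ) : ℝ) := by rw [Real.rpow_natCast]; ring
      _ ≤ w x ^ (3 / 2 : ℝ) := Real.rpow_le_rpow_of_exponent_ge h2 h1 (by norm_num)

end Vale.Agent.P232
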