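import Vale.Agent.P232.Axis

/-!
# P232: an axis without a cut, at very small volume
-/

noncomputable section

open MeasureTheory Filter Topology Set

namespace Vale.Agent.P232

open Axis

/-- The parameters used for very small volumes. -/
theorem tiny_params {v : ℝ} (hv0 : 0 < v) (hv : v ≤ 25 / 1000000) :
    ∃ p T ℓ : ℝ, 0 < p ∧ 105 / 2 * v ^ (4 / 3 : ℝ) = 7 * p ∧ 7 * p ≤ 1 / 10000 ∧
      1001 / 1000 * (ballPer v / v) * Real.sqrt (7 * p) ≤ 2 * (3 / 10) * Real.sqrt Real.pi ∧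
      2 * Real.sqrt (7 * p) < (1 - 3 / 10) * Real.sqrt Real.pi ∧ 0 < T ∧
      p ≤ (1 - 3 / 10) ^ 2 * Real.pi * T ^ 2 ∧ 0 ≤ ℓ ∧ ℓ * T = 5 * p ∧
      101 / 100 * ballPer v ≤ ℓ * (3 / 10) ∧
      101 / 100 * ballPer v ≤ 7 / 10 * (2 * Real.sqrt (Real.pi * p)) ∧
      0 ≤ ballPer v / v ∧ ballPer v ≤ 1 := by
  obtain ⟨q, hq0, hq3, hq4, hq2⟩ : ∃ q : ℝ, 0 < q ∧ q ^ 3 = v ∧ v ^ (4 / 3 : ℝ) = q ^ 4 ∧
      v ^ (2 / 3 : ℝ) = q ^ 2 := by
    have hpow : ∀ n : ℕ, (v ^ (1 / 3 : ℝ)) ^ n = v ^ ((n : ℝ) / 3) := fun n => by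
      rw [← Real.rpow_natCast, ← Real.rpow_mul hv0.le]
      congr 1; ring
    exact ⟨_, Real.rpow_pos_of_pos hv0 (1 / 3), by rw [hpow]; norm_num, by rw [hpow]; norm_num,
      by rw [hpow]; norm_num⟩
  obtain ⟨K, hK0, hK1, hB⟩ : ∃ K : ℝ, 0 < K ∧ K ≤ 485 / 100 ∧ ballPer v = K * q ^ 2 := by
    refine ⟨_, Real.rpow_pos_of_pos (by positivity : (0 : ℝ) < 36 * Real.pi) (1 / 3), ?_,
      by rw [ballPer, hq2]⟩
    refine le_of_pow_le_pow_left₀ three_ne_zero (by norm_num) ?_
    rw [← Real.rpow_natCast, ← Real.rpow_mul (by positivity)]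
    norm_num
    linarith [Real.pi_lt_d2]
  have hqle : q ≤ 293 / 10000 := by
    refine le_of_pow_le_pow_left₀ three_ne_zero (by norm_num) ?_
    rw [hq3]; exact hv.trans (by norm_num)
  obtain ⟨sπ, hsπ, hsπ1, hsπ2⟩ : ∃ s, Real.sqrt Real.pi = s ∧ 177 / 100 ≤ s ∧ s ^ 2 = Real.pi :=
    ⟨_, rfl, Real.le_sqrt_of_sq_le (by linarith [Real.pi_gt_d2]), Real.sq_sqrt Real.pi_pos.le⟩
  obtain ⟨σ, hσ1, hσ2⟩ : ∃ σ : ℝ, 273 / 100 ≤ σ ∧ σ ^ 2 = 15 / 2 :=
    ⟨Real.sqrt (15 / 2), Real.le_sqrt_of_sq_le (by norm_num), Real.sq_sqrt (by norm_num)⟩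
  have hq4' : q ^ 4 ≤ 1 / 1000000 := by
    calc q ^ 4 ≤ (293 / 10000 : ℝ) ^ 4 := pow_le_pow_left₀ hq0.le hqle 4
      _ ≤ _ := by norm_num
  have hqq : q ^ 2 ≤ 1 / 1000 := by
    calc q ^ 2 ≤ (293 / 10000 : ℝ) ^ 2 := pow_le_pow_left₀ hq0.le hqle 2
      _ ≤ _ := by norm_num
  have hsq : Real.sqrt (7 * (15 / 2 * q ^ 4)) ≤ 725 / 100 * q ^ 2 := by
    refine Real.sqrt_le_iff.2 ⟨by positivity, ?_⟩
    rw [mul_pow, ← pow_mul]
    linarith [pow_pos hq0 4]
  have hsp : Real.sqrt (Real.pi * (15 / 2 * q ^ 4)) = sπ * σ * q ^ 2 := by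
    rw [Real.sqrt_eq_iff_mul_self_eq (by positivity) (by positivity), ← sq, mul_pow, mul_pow,
      hsπ2, hσ2]
    ring
  have hss : 177 / 100 * (273 / 100) * q ^ 2 ≤ sπ * σ * q ^ 2 :=
    mul_le_mul_of_nonneg_right (mul_le_mul hsπ1 hσ1 (by norm_num) (by linarith)) (by positivity)
  have hKq : K * q ^ 2 ≤ 485 / 100 * q ^ 2 := mul_le_mul_of_nonneg_right hK1 (by positivity)
  have hT : 0 < σ * q ^ 2 / (7 / 10 * sπ) :=
    div_pos (mul_pos (by linarith) (pow_pos hq0 2)) (by linarith)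
  refine ⟨15 / 2 * q ^ 4, σ * q ^ 2 / (7 / 10 * sπ), 35 / 10 * (sπ * σ * q ^ 2), by positivity,
    by rw [hq4]; ring, by linarith, ?_, ?_, hT, le_of_eq ?_, by linarith [pow_pos hq0 2], ?_,
    by rw [hB]; linarith [pow_pos hq0 2], by rw [hB, hsp]; linarith [pow_pos hq0 2],
    by rw [hB]; positivity, by rw [hB]; linarith⟩
  · rw [hsπ]
    refine (mul_le_mul_of_nonneg_left hsq (by rw [hB]; positivity)).trans ?_
    rw [hB, ← hq3, show 1001 / 1000 * (K * q ^ 2 / q ^ 3) * (725 / 100 * q ^ 2) =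
      1001 / 1000 * (725 / 100) * (K * q) by field_simp]
    linarith [mul_le_mul hK1 hqle hq0.le (by norm_num : (0 : ℝ) ≤ 485 / 100)]
  · rw [hsπ]
    linarith
  · rw [div_pow, mul_pow, mul_pow, hσ2, hsπ2]
    field_simp
    ring
  · have : sπ ≠ 0 := by linarith
    field_simp
    linear_combination 70 * hσ2

/-- At very small volume an axis without a cut at a slightly raised rate exceeds the ball. -/
theorem tinyBound_spare (hSl : Slicing) (hEx : Excursion) {u : (Fin 3 → ℝ) → ℝ} (hu : Adm u)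
    (i : Fin 3) (hv0 : 0 < mean u) (hv : mean u ≤ 25 / 1000000) {f : ℝ} (hf0 : 0 ≤ f)
    (hf : f ≤ 1001 / 1000)
    (hnc : ¬ CanCut (area u i) (f * (ballPer (mean u) / mean u))
      (105 / 2 * mean u ^ (4 / 3 : ℝ))) :
    101 / 100 * ballPer (mean u) - err (dfct u) ≤ energy u := by
  obtain ⟨p, T, ℓ, hp0, hpη, hη1, hβ, htime, hT0, hpT, hℓ0, hℓT, hℓB, hpB, hβ0, hB1⟩ :=
    tiny_params hv0 hv
  rw [hpη] at hnc
  obtain ⟨hder, hsl, hper, hmem, hint, -⟩ := hSl u hu i
  have hac : Continuous (area u i) := continuous_area hSl hu i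
  obtain ⟨zm, zM, hz⟩ := exists_extrema hac hper
  suffices h : 101 / 100 * ballPer (mean u) ≤ energy u + err (dfct u) by linarith
  have hβf : f * (ballPer (mean u) / mean u) * Real.sqrt (7 * p) ≤
      2 * (3 / 10) * Real.sqrt Real.pi :=
    (mul_le_mul_of_nonneg_right (mul_le_mul_of_nonneg_right hf hβ0) (Real.sqrt_nonneg _)).trans hβ
  by_cases htop : 1 - p < area u i zM
  · have hzm : area u i zm ≤ mean u := le_integral_of_slice hac hint fun z => (hz z).1
    have h1 := slice_bound hSl hu i (s := fun _ => 0) (t := fun _ => 1) continuous_const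
      continuous_const (fun _ => le_rfl) (fun _ => zero_le_one) fun _ => by norm_num
    have h2 := periodic_variation hder hsl hper zM zm
    simp only [zero_mul, one_mul, zero_add] at h1
    linarith [le_abs_self (area u i zM - area u i zm)]
  by_cases hbig : 3 / 10 ≤ volume.real (Ico (0 : ℝ) 1 ∩ {y | area u i y ≤ p})
  · obtain ⟨t, htc, ht01, ht0, ht1⟩ : ∃ t : ℝ → ℝ, Continuous t ∧ (∀ x, t x ∈ Icc (0 : ℝ) 1) ∧
        (∀ x, x ≤ p → t x = 0) ∧ ∀ x, 2 * p ≤ x → t x = 1 := by
      refine ⟨fun x => max 0 (min 1 ((x - p) / p)), by fun_prop,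
        fun x => ⟨le_max_left _ _, max_le zero_le_one (min_le_left _ _)⟩,
        fun x hx => max_eq_left ((min_le_right _ _).trans
          (div_nonpos_of_nonpos_of_nonneg (by linarith) hp0.le)), fun x hx => ?_⟩
      have : 1 ≤ (x - p) / p := (one_le_div hp0).2 (by linarith)
      simp [this]
    have htint : ∀ b, 7 * p ≤ b → 5 * p ≤ ∫ x in p..b, t x := by
      intro b hb
      rw [← intervalIntegral.integral_add_adjacent_intervals (b := 2 * p)
        (htc.intervalIntegrable _ _) (htc.intervalIntegrable _ _)]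
      have h1 : 0 ≤ ∫ x in p..2 * p, t x :=
        intervalIntegral.integral_nonneg (by linarith) fun x _ => (ht01 x).1
      have h2 : ∫ x in (2 * p)..b, t x = b - 2 * p := by
        rw [intervalIntegral.integral_congr (g := fun _ => (1 : ℝ)) fun x hx => ?_]
        · simp
        · rw [uIcc_of_le (by linarith)] at hx
          exact ht1 x hx.1
      linarith
    have hex : ∃ z, area u i z ≤ p := by
      by_contra hne
      push Not at hne
      have : Ico (0 : ℝ) 1 ∩ {y | area u i y ≤ p} = ∅ :=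
        eq_empty_iff_forall_notMem.2 fun y hy => (hne y).not_ge hy.2
      rw [this, measureReal_empty] at hbig
      norm_num at hbig
    have hEx' := hEx (area u i) (slope u i) t (f * (ballPer (mean u) / mean u)) (7 * p) p (3 / 10)
      T ℓ hder hsl hper hmem htc ht01 ht0 hp0 (by linarith) (by linarith) (mul_nonneg hf0 hβ0)
      (by norm_num) hβf htime
      hT0 hpT hℓ0 (hℓT.le.trans (htint _ le_rfl)) hex hnc zM
    rw [sSup_range_eq fun z => (hz z).2] at hEx'
    have h1 := slice_bound hSl hu i (s := fun _ => 0) (t := fun z => t (area u i z))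
      continuous_const (htc.comp hac) (fun _ => le_rfl) (fun _ => (ht01 _).1) fun z => by
        nlinarith [(ht01 (area u i z)).1, (ht01 (area u i z)).2]
    simp only [zero_mul, zero_add] at h1
    linarith [htint _ hEx'.1, hEx'.2, mul_le_mul_of_nonneg_left hbig hℓ0]
  -- few thin slices
  have hlow : ∀ z, 2 * Real.sqrt (Real.pi * p) *
      (1 - {y | area u i y ≤ p}.indicator (fun _ => (1 : ℝ)) z) ≤ prof (area u i z) := by
    intro z
    by_cases hzp : area u i z ≤ p
    · rw [indicator_of_mem (show z ∈ {y | area u i y ≤ p} from hzp), sub_self, mul_zero]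
      exact prof_nonneg _
    · rw [indicator_of_notMem (show z ∉ {y | area u i y ≤ p} from hzp), sub_zero, mul_one]
      have h1 : p ≤ area u i z := le_of_not_ge hzp
      have h2 : p ≤ 1 - area u i z := by linarith [(hz z).2, not_lt.1 htop]
      refine mul_le_mul_of_nonneg_left (le_min (le_min ?_ ?_) ?_) zero_le_two
      · exact Real.sqrt_le_sqrt (mul_le_mul_of_nonneg_left h1 Real.pi_pos.le)
      · exact Real.sqrt_le_one.2 (by nlinarith [Real.pi_lt_d2, Real.pi_pos])
      · exact Real.sqrt_le_sqrt (mul_le_mul_of_nonneg_left h2 Real.pi_pos.le)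
  have h1 := slice_bound hSl hu i (s := fun _ => 1) (t := fun _ => 0) continuous_const
    continuous_const (fun _ => zero_le_one) (fun _ => le_rfl) fun _ => by norm_num
  simp only [zero_mul, one_mul, add_zero] at h1
  have il := intervalIntegrable_low hac p
  have h2 := intervalIntegral.integral_mono_on zero_le_one
    ((intervalIntegrable_const.sub il).const_mul (2 * Real.sqrt (Real.pi * p)))
    ((continuous_prof.comp hac).intervalIntegrable _ _) fun z _ => hlow z
  rw [intervalIntegral.integral_const_mul,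
    intervalIntegral.integral_sub intervalIntegrable_const il, integral_indicator_low hac] at h2
  simp only [intervalIntegral.integral_const, sub_zero, one_smul, Function.comp_apply] at h2
  have h3 := mul_le_mul_of_nonneg_left (not_le.1 hbig).le
    (by positivity : (0 : ℝ) ≤ 2 * Real.sqrt (Real.pi * p))
  linarith

theorem tinyBound (hSl : Slicing) (hEx : Excursion) : TinyBound := by
  intro u hu i hv0 hv hnc
  have hB : 0 ≤ ballPer (mean u) := mul_nonneg (by positivity) (Real.rpow_nonneg hv0.le _)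
  linarith [tinyBound_spare hSl hEx hu i hv0 hv zero_le_one (by norm_num)
    (by rwa [one_mul])]

end Vale.Agent.P232
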