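import Vale.Agent.P232.Pins
import Vale.Agent.P232.Knothe
import Vale.Agent.P219.Sobolev

/-!
# P232: the sharp `L¹` Sobolev inequality

For a nonnegative `C¹` function with compact support the total variation bounds the sharp multiple
of the `n/(n-1)` norm, by Gromov's proof with the triangular map.
-/

noncomputable section

open MeasureTheory Set Filter Topology
open Vale.Agent.P219 (boxInt ballMass ballMass_pos boxInt_pos boxInt_add boxInt_eq
  continuous_pd hasDerivAt_pd integral_pd_eq_zero volume_ball_eq)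

namespace Vale.Agent.P232

variable {n : ℕ}

lemma pd_eq_pd (u : (Fin n → ℝ) → ℝ) : pd u = P219.pd u := rfl

/-- The inequality against a regularised density. -/
lemma sobolev_core {m : ℕ} {s h : (Fin (m + 1) → ℝ) → ℝ} (hs : ContDiff ℝ 1 s) (hs0 : ∀ x, 0 ≤ s x)
    (hsc : HasCompactSupport s) (hh : Continuous h) (hh0 : ∀ x, 0 ≤ h x) {L : ℝ} (hL : 0 < L)
    (hsL : tsupport s ⊆ P219.cube L (m + 1)) {δ : ℝ} (hδ : 0 < δ) :
    ((m + 1 : ℕ) : ℝ) * (ballMass (m + 1) / boxInt L (m + 1) (fun x => h x + δ)) ^
        (1 / ((m + 1 : ℕ) : ℝ)) * ∫ x, s x * h x ^ (1 / ((m + 1 : ℕ) : ℝ)) ≤ ∫ x, grad s x := by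
  set ρ : Unit → (Fin (m + 1) → ℝ) → ℝ := fun _ x => h x + δ with hρ
  have hρc : Continuous (Function.uncurry ρ) :=
    (hh.add continuous_const).comp continuous_snd
  have hρ0 : ∀ p x, 0 < ρ p x := fun _ x => add_pos_of_nonneg_of_pos (hh0 x) hδ
  obtain ⟨Y, D, T⟩ := Knothe.exists_transport hL (m + 1) ρ hρc hρ0
  classical
  set C := boxInt L (m + 1) (ρ ())
  have hC0 : 0 < C := boxInt_pos hL _ (hρc.comp (Continuous.prodMk_right ())) (hρ0 ())
  have hcube : IsOpen (P219.cube L (m + 1)) := by
    have : P219.cube L (m + 1) = ⋂ i, {x : Fin (m + 1) → ℝ | |x i| < L} := by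
      ext x; simp [P219.cube]
    rw [this]
    exact isOpen_iInter_of_finite fun i => isOpen_lt (by fun_prop) continuous_const
  have hzero : ∀ x, x ∉ P219.cube L (m + 1) → s =ᶠ[𝓝 x] 0 := fun x hx =>
    notMem_tsupport_iff_eventuallyEq.1 fun h => hx (hsL h)
  have hpd0 : ∀ x, x ∉ P219.cube L (m + 1) → ∀ k, pd s k x = 0 := fun x hx k => by
    rw [pd, (hzero x hx).fderiv_eq]
    simp
  set H : Fin (m + 1) → (Fin (m + 1) → ℝ) → ℝ := fun k x =>
    pd s k x * Y () x k + s x * D () x k with hH
  have hYc : ∀ k, Continuous fun x => Y () x k := fun k =>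
    (continuous_apply k).comp (T.cont.comp (Continuous.prodMk_right ()))
  have hHs : ∀ k, HasCompactSupport (H k) := fun k => by
    refine HasCompactSupport.of_support_subset_isCompact hsc fun x hx => ?_
    by_contra h
    refine hx ?_
    have h' := notMem_tsupport_iff_eventuallyEq.1 h
    simp only [hH, pd, h'.fderiv_eq, h'.eq_of_nhds]
    simp
  have hHc : ∀ k, Continuous (H k) := by
    intro k
    refine continuous_iff_continuousAt.2 fun x => ?_
    by_cases hx : x ∈ P219.cube L (m + 1)
    · refine ((continuous_pd hs k).mul (hYc k)).continuousAt.add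
        (hs.continuous.continuousAt.mul ?_)
      have hD : ContinuousOn (fun x => D () x k) (P219.cube L (m + 1)) :=
        (continuous_apply k).comp_continuousOn (T.contD.comp
          (Continuous.prodMk_right ()).continuousOn fun y hy => ⟨mem_univ _, hy⟩)
      exact hD.continuousAt (hcube.mem_nhds hx)
    · have he : H k =ᶠ[𝓝 x] 0 := by
        filter_upwards [eventually_eventually_nhds.2 (hzero x hx)] with y hy
        simp only [hH, pd, (show s =ᶠ[𝓝 y] 0 from hy).fderiv_eq,
          (show s =ᶠ[𝓝 y] 0 from hy).eq_of_nhds]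
        simp
      exact continuousAt_const.congr he.symm
  have hderiv : ∀ k x, HasDerivAt (fun t => s (Function.update x k t) * Y () (Function.update x k t) k)
      (H k x) (x k) := by
    intro k x
    by_cases hx : x ∈ P219.cube L (m + 1)
    · have h := (hasDerivAt_pd hs k x).mul (T.deriv () x hx k)
      simp only [Function.update_eq_self] at h
      exact h
    · have he : (fun t => s (Function.update x k t) * Y () (Function.update x k t) k) =ᶠ[𝓝 (x k)]
          fun _ => 0 := by
        have hc : Tendsto (fun t => Function.update x k t) (𝓝 (x k)) (𝓝 x) := by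
          have h := (Continuous.update (f := fun _ : ℝ => x) continuous_const k continuous_id).tendsto (x k)
          rwa [id, Function.update_eq_self] at h
        filter_upwards [hc.eventually (hzero x hx)] with t ht
        simp [ht]
      refine ((hasDerivAt_const (x k) (0 : ℝ)).congr_of_eventuallyEq he).congr_deriv ?_
      simp [hH, hpd0 x hx, (hzero x hx).eq_of_nhds]
  have hint0 : ∀ k, ∫ x, H k x = 0 := fun k =>
    integral_pd_eq_zero k (G := fun x => s x * Y () x k) (hs.continuous.mul (hYc k))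
      hsc.mul_right (hHc k) (hHs k) (hderiv k)
  set q : ℝ := 1 / ((m + 1 : ℕ) : ℝ) with hq
  have hq0 : 0 ≤ q := by positivity
  have hpt : ∀ x, ((m + 1 : ℕ) : ℝ) * (ballMass (m + 1) / C) ^ q * (s x * h x ^ q) ≤
      ∑ k, H k x + grad s x := by
    intro x
    have hRHS : 0 ≤ grad s x := Real.sqrt_nonneg _
    by_cases hx : x ∈ P219.cube L (m + 1)
    swap
    · have h0 : s x = 0 := (hzero x hx).eq_of_nhds
      simp only [h0, zero_mul, mul_zero, hH, hpd0 x hx, zero_add]
      simpa using hRHS
    have hA := Real.geom_mean_le_arith_mean_weighted Finset.univ (fun _ : Fin (m + 1) => q)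
      (fun k => D () x k) (fun _ _ => hq0)
      (by simp only [Finset.sum_const, Finset.card_univ, Fintype.card_fin, nsmul_eq_mul, hq]
          field_simp)
      (fun k _ => T.D_nonneg () x hx k)
    rw [← Finset.mul_sum, Real.finsetProd_rpow _ _ (fun k _ => T.D_nonneg () x hx k),
      T.prod_eq () x hx, mul_div_right_comm] at hA
    have hB : 0 ≤ ballMass (m + 1) / C := div_nonneg (ballMass_pos _).le hC0.le
    have h1 : (ballMass (m + 1) / C) ^ q * h x ^ q ≤ (ballMass (m + 1) / C * ρ () x) ^ q := by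
      rw [← Real.mul_rpow hB (hh0 x)]
      refine Real.rpow_le_rpow (mul_nonneg hB (hh0 x)) (mul_le_mul_of_nonneg_left ?_ hB) hq0
      simp only [hρ]; linarith
    have h2 : ((m + 1 : ℕ) : ℝ) * ((ballMass (m + 1) / C) ^ q * h x ^ q) ≤ ∑ k, D () x k := by
      refine (mul_le_mul_of_nonneg_left (h1.trans hA) (Nat.cast_nonneg _)).trans (le_of_eq ?_)
      rw [← mul_assoc, show ((m + 1 : ℕ) : ℝ) * q = 1 by simp only [hq]; field_simp, one_mul]
    have hCS : -grad s x ≤ ∑ k, pd s k x * Y () x k := by
      have h := Real.sum_mul_le_sqrt_mul_sqrt Finset.univ (fun k => -pd s k x) (fun k => Y () x k)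
      simp only [neg_sq, neg_mul, Finset.sum_neg_distrib] at h
      have hY : Real.sqrt (∑ k, Y () x k ^ 2) ≤ 1 := Real.sqrt_le_one.2 (T.norm_le () x)
      unfold grad
      nlinarith [mul_le_mul_of_nonneg_left hY (Real.sqrt_nonneg (∑ k, pd s k x ^ 2))]
    have hsum : ∑ k, H k x = (∑ k, pd s k x * Y () x k) + s x * ∑ k, D () x k := by
      simp only [hH, Finset.mul_sum, ← Finset.sum_add_distrib]
    have t3 := mul_le_mul_of_nonneg_left h2 (hs0 x)
    rw [hsum]
    linarith
  have hRc : Continuous (grad s) := Real.continuous_sqrt.comp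
    (continuous_finsetSum _ fun k _ => (continuous_pd hs k).pow 2)
  have hRs : HasCompactSupport (grad s) := by
    refine HasCompactSupport.of_support_subset_isCompact hsc fun x hx => ?_
    by_contra h
    refine hx ?_
    simp [grad, pd, (notMem_tsupport_iff_eventuallyEq.1 h).fderiv_eq]
  have hLc : Continuous fun x => s x * h x ^ q :=
    hs.continuous.mul (hh.rpow_const fun _ => Or.inr hq0)
  have hLs : HasCompactSupport fun x => s x * h x ^ q := hsc.mul_right
  have hmain := integral_mono (μ := volume) ((hLc.integrable_of_hasCompactSupport hLs).const_mul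
    (((m + 1 : ℕ) : ℝ) * (ballMass (m + 1) / C) ^ q))
    ((integrable_finsetSum _ fun k _ => (hHc k).integrable_of_hasCompactSupport (hHs k)).add
      (hRc.integrable_of_hasCompactSupport hRs)) hpt
  simp only [Pi.add_apply] at hmain
  rw [integral_const_mul, integral_add
    (integrable_finsetSum _ fun k _ => (hHc k).integrable_of_hasCompactSupport (hHs k))
    (hRc.integrable_of_hasCompactSupport hRs), integral_finsetSum _ fun k _ =>
    (hHc k).integrable_of_hasCompactSupport (hHs k), Finset.sum_eq_zero (fun k _ => hint0 k),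
    zero_add] at hmain
  exact hmain

/-- The sharp `L¹` Sobolev inequality in dimension `m + 1`. -/
theorem sobolev_sharp {m : ℕ} (hm : 1 ≤ m) {w : (Fin (m + 1) → ℝ) → ℝ} (hw : ContDiff ℝ 1 w)
    (hws : HasCompactSupport w) (hw0 : ∀ x, 0 ≤ w x) :
    ((m + 1 : ℕ) : ℝ) * ballMass (m + 1) ^ (1 / ((m + 1 : ℕ) : ℝ)) *
        (∫ x, w x ^ (((m + 1 : ℕ) : ℝ) / m)) ^ ((m : ℝ) / ((m + 1 : ℕ) : ℝ)) ≤
      ∫ x, grad w x := by
  have hm0 : (0 : ℝ) < m := by exact_mod_cast hm
  set q : ℝ := 1 / ((m + 1 : ℕ) : ℝ) with hq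
  set p : ℝ := ((m + 1 : ℕ) : ℝ) / m with hp
  have hq0 : 0 ≤ q := by positivity
  have hp0 : 0 < p := by positivity
  set h : (Fin (m + 1) → ℝ) → ℝ := fun x => w x ^ p with hh
  have hhc : Continuous h := hw.continuous.rpow_const fun _ => Or.inr hp0.le
  have hh0 : ∀ x, 0 ≤ h x := fun x => Real.rpow_nonneg (hw0 x) _
  have hhs : HasCompactSupport h := by
    refine HasCompactSupport.of_support_subset_isCompact hws fun x hx => ?_
    by_contra h'
    refine hx ?_
    simp [hh, image_eq_zero_of_notMem_tsupport h', Real.zero_rpow hp0.ne']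
  set I := ∫ x, h x with hI
  have hpq : ∀ x, w x * h x ^ q = h x := fun x => by
    simp only [hh]
    rw [← Real.rpow_mul (hw0 x)]
    conv_lhs => arg 1; rw [← Real.rpow_one (w x)]
    rw [← Real.rpow_add' (hw0 x) (by positivity)]
    congr 1
    simp only [hp, hq]
    push_cast
    field_simp
  rcases (integral_nonneg hh0 : 0 ≤ I).eq_or_lt with hI0 | hI0
  · rw [show I = 0 from hI0.symm, Real.zero_rpow (by positivity), mul_zero]
    exact integral_nonneg fun x => Real.sqrt_nonneg _
  obtain ⟨R, hR⟩ := hws.isCompact.isBounded.subset_closedBall (0 : Fin (m + 1) → ℝ)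
  set L := |R| + 1 with hLdef
  have hL : 0 < L := by positivity
  have hsL : tsupport w ⊆ P219.cube L (m + 1) := fun x hx i => by
    have h1 := mem_closedBall_zero_iff.1 (hR hx)
    have h2 : |x i| ≤ ‖x‖ := norm_le_pi_norm x i
    linarith [le_abs_self R]
  have hbox : boxInt L (m + 1) h = I := boxInt_eq hL _ hhc hhs fun x hx => by
    simp [hh, image_eq_zero_of_notMem_tsupport (fun h' => hx (hsL h')), Real.zero_rpow hp0.ne']
  set c := boxInt L (m + 1) fun _ => (1 : ℝ) with hc
  have hlim : Tendsto (fun δ : ℝ => ((m + 1 : ℕ) : ℝ) * (ballMass (m + 1) / (I + δ * c)) ^ q * I)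
      (𝓝[>] 0) (𝓝 (((m + 1 : ℕ) : ℝ) * (ballMass (m + 1) / I) ^ q * I)) := by
    have hca : ContinuousAt
        (fun δ : ℝ => ((m + 1 : ℕ) : ℝ) * (ballMass (m + 1) / (I + δ * c)) ^ q * I) 0 := by
      refine (continuousAt_const.mul ?_).mul continuousAt_const
      exact ((continuousAt_const.div (continuousAt_const.add (continuousAt_id.mul
        continuousAt_const)) (by simpa using hI0.ne')).rpow_const (Or.inr hq0))
    have h := hca.tendsto.mono_left (nhdsWithin_le_nhds (s := Ioi (0 : ℝ)))
    simpa using h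
  have hfin : ((m + 1 : ℕ) : ℝ) * (ballMass (m + 1) / I) ^ q * I ≤ ∫ x, grad w x := by
    refine le_of_tendsto hlim (eventually_nhdsWithin_of_forall fun δ hδ => ?_)
    have h' := sobolev_core hw hw0 hws hhc hh0 hL hsL (hδ : (0 : ℝ) < δ)
    have e : boxInt L (m + 1) (fun x => h x + δ) = I + δ * c := by
      rw [← hbox, hc, ← boxInt_add (m + 1) hhc continuous_const δ]
      simp
    rw [e, ← hq] at h'
    simpa only [hpq, ← hI] using h'
  refine le_trans (le_of_eq ?_) hfin
  rw [show (m : ℝ) / ((m + 1 : ℕ) : ℝ) = 1 - q by simp only [hq]; push_cast; field_simp; ring,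
    Real.rpow_sub hI0, Real.rpow_one,
    Real.div_rpow (ballMass_pos _).le hI0.le]
  ring

lemma ballMass_two : ballMass 2 = Real.pi := by
  have h := congrArg ENNReal.toReal (volume_ball_eq 2)
  rw [EuclideanSpace.volume_ball_fin_two, ENNReal.toReal_ofReal (ballMass_pos 2).le] at h
  simpa [Real.pi_nonneg] using h.symm

lemma ballMass_three : ballMass 3 = 4 * Real.pi / 3 := by
  have h := congrArg ENNReal.toReal (volume_ball_eq 3)
  rw [EuclideanSpace.volume_ball_fin_three, ENNReal.toReal_ofReal (ballMass_pos 3).le] at h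
  rw [ENNReal.ofReal_one, one_pow, one_mul, ENNReal.toReal_ofReal (by positivity)] at h
  linarith

theorem sobolevPlane : SobolevPlane := by
  intro w hw hws hw0
  have h := sobolev_sharp (m := 1) le_rfl hw hws hw0
  norm_num [ballMass_two] at h
  rwa [Real.sqrt_eq_rpow, Real.sqrt_eq_rpow]

theorem sobolevSpace : SobolevSpace := by
  intro w hw hws hw0
  have h := sobolev_sharp (m := 2) one_le_two hw hws hw0
  norm_num [ballMass_three] at h
  refine le_trans (le_of_eq ?_) h
  have e : (36 * Real.pi) ^ (1 / 3 : ℝ) = 3 * (4 * Real.pi / 3) ^ (1 / 3 : ℝ) := by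
    rw [show (36 : ℝ) * Real.pi = 3 ^ (3 : ℕ) * (4 * Real.pi / 3) by ring,
      Real.mul_rpow (by positivity) (by positivity), ← Real.rpow_natCast_mul (by norm_num)]
    norm_num
  rw [e]

end Vale.Agent.P232
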