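import Vale.Agent.P232.Slicing

/-!
# P232: cutting off a thin tail
-/

noncomputable section

open MeasureTheory Filter Topology Set

namespace Vale.Agent.P232.Cut

/-- A rising step of width `κ`. -/
def step (κ r : ℝ) : ℝ := Real.smoothTransition (r / κ)

/-- The cut-off on a period. -/
def profile (κ L r : ℝ) : ℝ := step κ r * step κ (L - r)

/-- The periodic cut-off. -/
def cutoff (κ z₁ L z : ℝ) : ℝ := profile κ L (Int.fract (z - z₁))

variable {κ L z₁ r z : ℝ}

theorem contDiff_step : ContDiff ℝ 1 (step κ) :=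
  Real.smoothTransition.contDiff.comp (contDiff_id.div_const κ)

theorem contDiff_profile : ContDiff ℝ 1 (profile κ L) :=
  contDiff_step.mul (contDiff_step.comp (contDiff_const.sub contDiff_id))

theorem step_mem : step κ r ∈ Icc (0 : ℝ) 1 :=
  ⟨Real.smoothTransition.nonneg _, Real.smoothTransition.le_one _⟩

theorem profile_mem : profile κ L r ∈ Icc (0 : ℝ) 1 :=
  ⟨mul_nonneg step_mem.1 step_mem.1, mul_le_one₀ step_mem.2 step_mem.1 step_mem.2⟩

theorem step_zero (hκ : 0 < κ) (h : r ≤ 0) : step κ r = 0 :=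
  Real.smoothTransition.zero_of_nonpos (div_nonpos_of_nonpos_of_nonneg h hκ.le)

theorem step_one (hκ : 0 < κ) (h : κ ≤ r) : step κ r = 1 :=
  Real.smoothTransition.one_of_one_le ((one_le_div₀ hκ).2 h)

theorem profile_left (hκ : 0 < κ) (h : r ≤ 0) : profile κ L r = 0 := by
  simp [profile, step_zero hκ h]

theorem profile_right (hκ : 0 < κ) (h : L ≤ r) : profile κ L r = 0 := by
  simp [profile, step_zero hκ (show L - r ≤ 0 by linarith)]

theorem profile_mid (hκ : 0 < κ) (h1 : κ ≤ r) (h2 : r + κ ≤ L) : profile κ L r = 1 := by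
  simp [profile, step_one hκ h1, step_one hκ (show κ ≤ L - r by linarith)]

theorem cutoff_eventually (hκ : 0 < κ) (hL : L < 1) (z : ℝ) :
    cutoff κ z₁ L =ᶠ[𝓝 z] fun y => profile κ L (y - z₁ - ⌊z - z₁⌋) := by
  have h0 := Int.floor_le (z - z₁)
  have h1 := Int.lt_floor_add_one (z - z₁)
  have hnhds : Ioo (z₁ + ⌊z - z₁⌋ - min 1 (1 - L)) (z₁ + ⌊z - z₁⌋ + 1) ∈ 𝓝 z :=
    Ioo_mem_nhds (by linarith [lt_min zero_lt_one (sub_pos.2 hL)]) (by linarith)
  have hm := min_le_left (1 : ℝ) (1 - L)
  have hm' := min_le_right (1 : ℝ) (1 - L)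
  filter_upwards [hnhds] with y hy
  rcases lt_or_ge (y - z₁ - ⌊z - z₁⌋) 0 with hneg | hge
  · have : Int.fract (y - z₁) = y - z₁ - ⌊z - z₁⌋ + 1 := by
      rw [Int.fract_eq_iff]
      exact ⟨by linarith [hy.1], by linarith, ⟨⌊z - z₁⌋ - 1, by push_cast; ring⟩⟩
    rw [cutoff, this, profile_right hκ (by linarith [hy.1]), profile_left hκ hneg.le]
  · have : Int.fract (y - z₁) = y - z₁ - ⌊z - z₁⌋ := by
      rw [Int.fract_eq_iff]
      exact ⟨hge, by linarith [hy.2], ⟨⌊z - z₁⌋, by ring⟩⟩
    rw [cutoff, this]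

theorem contDiff_cutoff (hκ : 0 < κ) (hL : L < 1) : ContDiff ℝ 1 (cutoff κ z₁ L) :=
  contDiff_iff_contDiffAt.2 fun z =>
    (contDiff_profile.comp ((contDiff_id.sub contDiff_const).sub contDiff_const)).contDiffAt
      |>.congr_of_eventuallyEq (cutoff_eventually hκ hL z)

theorem hasDerivAt_cutoff (hκ : 0 < κ) (hL : L < 1) (z : ℝ) :
    HasDerivAt (cutoff κ z₁ L) (deriv (profile κ L) (Int.fract (z - z₁))) z := by
  have h := (contDiff_profile (κ := κ) (L := L)).differentiable one_ne_zero
    (Int.fract (z - z₁)) |>.hasDerivAt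
  have h2 : HasDerivAt (fun y => profile κ L (y - z₁ - ⌊z - z₁⌋))
      (deriv (profile κ L) (Int.fract (z - z₁))) z := by
    have := (h.comp_sub_const (x := z - z₁) (a := (⌊z - z₁⌋ : ℝ))).comp_sub_const (x := z) (a := z₁)
    exact this
  exact h2.congr_of_eventuallyEq (cutoff_eventually hκ hL z)

theorem deriv_step_nonneg (r : ℝ) (hκ : 0 < κ) : 0 ≤ deriv (step κ) r := by
  refine Monotone.deriv_nonneg ?_
  exact Real.smoothTransition.monotone.comp fun a b h => div_le_div_of_nonneg_right h hκ.le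

theorem abs_deriv_profile_le (hκ : 0 < κ) (r : ℝ) :
    |deriv (profile κ L) r| ≤ deriv (step κ) r + deriv (step κ) (L - r) := by
  have hd : ∀ x, HasDerivAt (step κ) (deriv (step κ) x) x := fun x =>
    ((contDiff_step (κ := κ)).differentiable one_ne_zero x).hasDerivAt
  have := (hd r).mul ((hd (L - r)).comp_const_sub L r)
  rw [show deriv (profile κ L) r = _ from this.deriv]
  have h1 := deriv_step_nonneg r hκ
  have h2 := deriv_step_nonneg (L - r) hκ
  rw [abs_le]
  constructor <;>
    nlinarith [step_mem (κ := κ) (r := r) |>.1, step_mem (κ := κ) (r := r) |>.2,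
      step_mem (κ := κ) (r := L - r) |>.1, step_mem (κ := κ) (r := L - r) |>.2]

theorem deriv_step_zero (hκ : 0 < κ) (h : r ≤ 0 ∨ κ ≤ r) : deriv (step κ) r = 0 := by
  have hd := (contDiff_step (κ := κ)).differentiable one_ne_zero r |>.hasDerivAt
  rcases h with h | h
  · have h2 : HasDerivWithinAt (step κ) 0 (Iic r) r :=
      (hasDerivWithinAt_const r _ (0 : ℝ)).congr
        (fun y hy => step_zero hκ ((mem_Iic.1 hy).trans h)) (step_zero hκ h)
    exact (uniqueDiffWithinAt_Iic r).eq_deriv _ hd.hasDerivWithinAt h2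
  · have h2 : HasDerivWithinAt (step κ) 0 (Ici r) r :=
      (hasDerivWithinAt_const r _ (1 : ℝ)).congr
        (fun y hy => step_one hκ (h.trans (mem_Ici.1 hy))) (step_one hκ h)
    exact (uniqueDiffWithinAt_Ici r).eq_deriv _ hd.hasDerivWithinAt h2

theorem continuous_deriv_step : Continuous (deriv (step κ)) :=
  (contDiff_step (κ := κ)).continuous_deriv le_rfl

/-- The variation of a step, weighted by a function which is at most `M` on its support. -/
theorem integral_deriv_step_le {a : ℝ → ℝ} (ha : Continuous a) (hκ : 0 < κ) (hκ1 : κ ≤ 1) {M : ℝ}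
    (hM : ∀ r ∈ Icc 0 κ, a r ≤ M) :
    ∫ r in (0 : ℝ)..1, deriv (step κ) r * a r ≤ M := by
  have hi := (continuous_deriv_step (κ := κ)).mul ha
  refine (intervalIntegral.integral_mono_on zero_le_one (hi.intervalIntegrable _ _)
    (((continuous_deriv_step (κ := κ)).mul (continuous_const (y := M))).intervalIntegrable _ _)
    fun r hr => ?_).trans_eq ?_
  · rcases le_or_gt r κ with h | h
    · exact mul_le_mul_of_nonneg_left (hM r ⟨hr.1, h⟩) (deriv_step_nonneg r hκ)
    · simp [deriv_step_zero hκ (Or.inr h.le)]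
  · show ∫ r in (0 : ℝ)..1, deriv (step κ) r * M = M
    rw [intervalIntegral.integral_mul_const, intervalIntegral.integral_deriv_eq_sub
      (fun r _ => contDiff_step.differentiable one_ne_zero r)
      ((continuous_deriv_step).intervalIntegrable _ _),
      step_zero hκ le_rfl, step_one hκ hκ1]
    simp

theorem integral_deriv_step_le' {a : ℝ → ℝ} (ha : Continuous a) (hκ : 0 < κ) (hκL : κ ≤ L)
    (hL : L ≤ 1) {M : ℝ} (hM : ∀ r ∈ Icc (L - κ) L, a r ≤ M) :
    ∫ r in (0 : ℝ)..1, deriv (step κ) (L - r) * a r ≤ M := by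
  have hds : Continuous fun r => deriv (step κ) (L - r) :=
    (continuous_deriv_step (κ := κ)).comp ((continuous_const (y := L)).sub continuous_id)
  have hi := hds.mul ha
  refine (intervalIntegral.integral_mono_on zero_le_one (hi.intervalIntegrable _ _)
    ((hds.mul (continuous_const (y := M))).intervalIntegrable _ _) fun r hr => ?_).trans_eq ?_
  · rcases le_or_gt r L with h | h
    · rcases le_or_gt (L - κ) r with h' | h'
      · exact mul_le_mul_of_nonneg_left (hM r ⟨h', h⟩) (deriv_step_nonneg _ hκ)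
      · simp [deriv_step_zero hκ (Or.inr (show κ ≤ L - r by linarith))]
    · simp [deriv_step_zero hκ (Or.inl (show L - r ≤ 0 by linarith))]
  · show ∫ r in (0 : ℝ)..1, deriv (step κ) (L - r) * M = M
    rw [intervalIntegral.integral_mul_const, intervalIntegral.integral_comp_sub_left,
      intervalIntegral.integral_deriv_eq_sub (fun r _ => contDiff_step.differentiable one_ne_zero r)
      ((continuous_deriv_step).intervalIntegrable _ _),
      step_zero hκ (show L - 1 ≤ 0 by linarith), step_one hκ (show κ ≤ L - 0 by linarith)]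
    simp

/-- An integral over the cube of a function of one coordinate times a function. -/
theorem integral_axis {f : (Fin 3 → ℝ) → ℝ} (hf : Continuous f) {ψ : ℝ → ℝ} (hψ : Continuous ψ)
    (i : Fin 3) : ∫ x in box 3, ψ (x i) * f x =
      ∫ z in (0 : ℝ)..1, ψ z * ∫ y in box 2, f (i.insertNth z y) := by
  rw [integral_box_succ (f := fun x => ψ (x i) * f x) ((hψ.comp (continuous_apply i)).mul hf) i]
  simp only [Fin.insertNth_apply_same, integral_const_mul]

theorem grad_mul_le {u : (Fin 3 → ℝ) → ℝ} (hu : Adm u) (i : Fin 3) {c c' : ℝ → ℝ}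
    (hc : ∀ z, HasDerivAt c (c' z) z) (hc01 : ∀ z, c z ∈ Icc (0 : ℝ) 1) (x : Fin 3 → ℝ) :
    grad (fun y => u y * c (y i)) x ≤ c (x i) * grad u x + |c' (x i)| * u x := by
  have hd := (hu.smooth.differentiable one_ne_zero x).hasFDerivAt
  have hci := (hc (x i)).comp_hasFDerivAt x (hasFDerivAt_apply (𝕜 := ℝ) i x)
  have hpd : ∀ k, pd (fun y => u y * c (y i)) k x =
      c (x i) * pd u k x + (c' (x i) * u x) * (Pi.single k (1 : ℝ) : Fin 3 → ℝ) i := by
    intro k
    unfold pd
    rw [show (fun y => u y * c (y i)) = u * (c ∘ fun y => y i) from rfl, (hd.mul hci).fderiv]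
    simp only [_root_.add_apply, _root_.smul_apply, smul_eq_mul,
      ContinuousLinearMap.proj_apply, Function.comp_apply]
    ring
  simp only [grad, hpd]
  set d := c' (x i) * u x with hdd
  have hsum : ∑ k, (c (x i) * pd u k x + d * (Pi.single k (1 : ℝ) : Fin 3 → ℝ) i) ^ 2 =
      c (x i) ^ 2 * ∑ k, pd u k x ^ 2 + (2 * c (x i) * d * pd u i x + d ^ 2) := by
    rw [Finset.mul_sum]
    fin_cases i <;> simp [Fin.sum_univ_three] <;> ring
  rw [hsum, show |c' (x i)| * u x = |d| by rw [hdd, abs_mul, abs_of_nonneg (hu.mem x).1]]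
  refine (Real.sqrt_le_left (add_nonneg (mul_nonneg (hc01 _).1 (Real.sqrt_nonneg _))
    (abs_nonneg _))).2 ?_
  have hg := abs_pd_le_grad u i x
  rw [grad] at hg
  have : d * pd u i x ≤ |d| * Real.sqrt (∑ k, pd u k x ^ 2) :=
    (le_abs_self _).trans (by rw [abs_mul]; exact mul_le_mul_of_nonneg_left hg (abs_nonneg d))
  nlinarith [Real.sq_sqrt (Finset.sum_nonneg fun k (_ : k ∈ Finset.univ) => sq_nonneg (pd u k x)),
    sq_abs d, (hc01 (x i)).1]

/-- Over a period, the cut-off is the profile. -/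
theorem integral_period {f : ℝ → ℝ} (hf : Function.Periodic f 1) (F : ℝ → ℝ) :
    ∫ z in (0 : ℝ)..1, F (Int.fract (z - z₁)) * f z = ∫ r in (0 : ℝ)..1, F r * f (z₁ + r) := by
  have hp : Function.Periodic (fun z => F (Int.fract (z - z₁)) * f z) 1 := by
    intro z; simp only [hf z]; rw [show z + 1 - z₁ = z - z₁ + 1 by ring, Int.fract_add_one]
  have := hp.intervalIntegral_add_eq 0 z₁
  rw [zero_add] at this
  rw [this]
  have h2 := intervalIntegral.integral_comp_add_left (a := (0 : ℝ)) (b := 1)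
    (fun z => F (Int.fract (z - z₁)) * f z) z₁
  rw [add_zero] at h2
  rw [← h2]
  refine intervalIntegral.integral_congr_ae ?_
  have hne : ∀ᵐ r : ℝ, r ≠ 1 := by simp [ae_iff]
  filter_upwards [hne] with r hr1 hr
  rw [uIoc_of_le zero_le_one] at hr
  rw [add_sub_cancel_left, Int.fract_eq_self.2 ⟨hr.1.le, lt_of_le_of_ne hr.2 hr1⟩]

theorem cutRate_nonneg {β η a : ℝ} (hβ : 0 ≤ β) (hβη : β * Real.sqrt η ≤ 2 * Real.sqrt Real.pi)
    (ha : 0 ≤ a) (haη : a ≤ η) : 0 ≤ cutRate β a := by
  rw [cutRate, sub_nonneg, Real.sqrt_mul Real.pi_pos.le]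
  have h1 : β * Real.sqrt a ≤ 2 * Real.sqrt Real.pi :=
    (mul_le_mul_of_nonneg_left (Real.sqrt_le_sqrt haη) hβ).trans hβη
  calc β * a = β * Real.sqrt a * Real.sqrt a := by rw [mul_assoc, Real.mul_self_sqrt ha]
    _ ≤ 2 * Real.sqrt Real.pi * Real.sqrt a := mul_le_mul_of_nonneg_right h1 (Real.sqrt_nonneg _)
    _ = _ := by ring

theorem prof_small {a : ℝ} (ha : a ≤ 1 / 4) : prof a = 2 * Real.sqrt (Real.pi * a) := by
  have h1 : Real.sqrt (Real.pi * a) ≤ 1 := by
    rw [Real.sqrt_le_one]; nlinarith [Real.pi_pos, Real.pi_lt_d2]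
  have h2 : Real.sqrt (Real.pi * a) ≤ Real.sqrt (Real.pi * (1 - a)) :=
    Real.sqrt_le_sqrt (by nlinarith [Real.pi_pos])
  rw [prof, min_eq_left h1, min_eq_left h2]

/-- The gain of the cut-off, in the limit the integral of the cut rate. -/
theorem profile_gain {w : ℝ → ℝ} (hwc : Continuous w) (hw01 : ∀ r, w r ∈ Icc (0 : ℝ) 1) {β η : ℝ}
    (hwη : ∀ r ∈ Icc 0 L, w r ≤ η) (hβ : 0 ≤ β) (hβη : β * Real.sqrt η ≤ 2 * Real.sqrt Real.pi)
    (hη4 : η ≤ 1 / 4) (hκ0 : 0 < κ) (hκL : 2 * κ ≤ L) (hL1' : L ≤ 1) :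
    (∫ r in (0 : ℝ)..L, cutRate β (w r)) - 2 * Real.sqrt Real.pi * (2 * κ) ≤
      ∫ r in (0 : ℝ)..1, profile κ L r * (prof (w r) - β * w r) := by
  set G : ℝ → ℝ := fun r => profile κ L r with hG
  have hGc : Continuous G := contDiff_profile.continuous
  have hpw : Continuous fun r => prof (w r) := by unfold prof; fun_prop
  set C := 2 * Real.sqrt Real.pi with hC
  set f := fun r => G r * (prof (w r) - β * w r) with hf
  have hfc : Continuous f := hGc.mul (hpw.sub (continuous_const.mul hwc))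
  have hgc : Continuous fun r => cutRate β (w r) := by unfold cutRate; fun_prop
  have hrate : ∀ r ∈ Icc 0 L, f r = G r * cutRate β (w r) := fun r hr => by
    simp only [hf, cutRate]; rw [prof_small ((hwη r hr).trans hη4)]
  have hr0 : ∀ r ∈ Icc 0 L, 0 ≤ cutRate β (w r) := fun r hr =>
    cutRate_nonneg hβ hβη (hw01 r).1 (hwη r hr)
  have hrC : ∀ r ∈ Icc 0 L, cutRate β (w r) ≤ C := fun r hr => by
    rw [cutRate, hC, Real.sqrt_mul Real.pi_pos.le]
    have : Real.sqrt (w r) ≤ 1 := Real.sqrt_le_one.2 (hw01 r).2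
    nlinarith [mul_le_mul_of_nonneg_left this (Real.sqrt_nonneg Real.pi),
      mul_nonneg hβ (hw01 r).1]
  have hi := fun x y => hfc.intervalIntegrable (μ := volume) x y
  have hgi := fun x y => hgc.intervalIntegrable (μ := volume) x y
  have hzero : ∫ r in L..1, f r = 0 := by
    rw [intervalIntegral.integral_congr (g := fun _ => (0 : ℝ)) fun r hr => ?_]
    · simp
    · rw [uIcc_of_le hL1'] at hr
      simp [hf, hG, profile_right hκ0 hr.1]
  rw [← intervalIntegral.integral_add_adjacent_intervals (hi 0 L) (hi L 1), hzero, add_zero,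
    ← intervalIntegral.integral_add_adjacent_intervals (hgi 0 κ) (hgi κ L),
    ← intervalIntegral.integral_add_adjacent_intervals (hgi κ (L - κ)) (hgi (L - κ) L),
    ← intervalIntegral.integral_add_adjacent_intervals (hi 0 κ) (hi κ L),
    ← intervalIntegral.integral_add_adjacent_intervals (hi κ (L - κ)) (hi (L - κ) L)]
  have e1 : ∫ r in κ..(L - κ), f r = ∫ r in κ..(L - κ), cutRate β (w r) := by
    refine intervalIntegral.integral_congr fun r hr => ?_
    rw [uIcc_of_le (by linarith)] at hr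
    rw [hrate r ⟨by linarith [hr.1], by linarith [hr.2]⟩, hG]
    simp [profile_mid hκ0 hr.1 (show r + κ ≤ L by linarith [hr.2])]
  have ends : ∀ x y, 0 ≤ x → x ≤ y → y ≤ L →
      0 ≤ ∫ r in x..y, f r ∧ ∫ r in x..y, cutRate β (w r) ≤ C * (y - x) := by
    intro x y hx hxy hy
    refine ⟨intervalIntegral.integral_nonneg hxy fun r hr => ?_, ?_⟩
    · have hr' : r ∈ Icc 0 L := ⟨by linarith [hr.1], by linarith [hr.2]⟩
      rw [hrate r hr']; exact mul_nonneg profile_mem.1 (hr0 r hr')
    · refine (intervalIntegral.integral_mono_on hxy (hgi x y) intervalIntegrable_const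
        fun r hr => hrC r ⟨by linarith [hr.1], by linarith [hr.2]⟩).trans_eq ?_
      simp [mul_comm]
  obtain ⟨p1, q1⟩ := ends 0 κ le_rfl hκ0.le (by linarith)
  obtain ⟨p2, q2⟩ := ends (L - κ) L (by linarith) (by linarith) le_rfl
  linarith

/-- The cut-off is nearly two-valued. -/
theorem integral_profile_var (hκ0 : 0 < κ) (hκL : 2 * κ ≤ L) (hL1' : L ≤ 1) :
    ∫ r in (0 : ℝ)..1, profile κ L r * (1 - profile κ L r) ≤ 2 * κ := by
  set G : ℝ → ℝ := fun r => profile κ L r with hG
  have hGc : Continuous G := contDiff_profile.continuous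
  have hgg : Continuous fun r => G r * (1 - G r) := hGc.mul (continuous_const.sub hGc)
  have hi := fun x y => hgg.intervalIntegrable (μ := volume) x y
  rw [← intervalIntegral.integral_add_adjacent_intervals (hi 0 κ) (hi κ 1),
    ← intervalIntegral.integral_add_adjacent_intervals (hi κ (L - κ)) (hi (L - κ) 1),
    ← intervalIntegral.integral_add_adjacent_intervals (hi (L - κ) L) (hi L 1)]
  have z1 : ∫ r in κ..(L - κ), G r * (1 - G r) = 0 := by
    rw [intervalIntegral.integral_congr (g := fun _ => (0 : ℝ)) fun r hr => ?_]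
    · simp
    · rw [uIcc_of_le (by linarith)] at hr
      simp [hG, profile_mid hκ0 hr.1 (show r + κ ≤ L by linarith [hr.2])]
  have z2 : ∫ r in L..1, G r * (1 - G r) = 0 := by
    rw [intervalIntegral.integral_congr (g := fun _ => (0 : ℝ)) fun r hr => ?_]
    · simp
    · rw [uIcc_of_le hL1'] at hr
      simp [hG, profile_right hκ0 hr.1]
  have le1 : ∀ x y, x ≤ y → ∫ r in x..y, G r * (1 - G r) ≤ y - x := fun x y hxy => by
    refine (intervalIntegral.integral_mono_on hxy (hi x y)
      (intervalIntegrable_const (c := (1 : ℝ))) fun r _ => ?_).trans_eq (by simp)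
    have := profile_mem (κ := κ) (L := L) (r := r)
    simp only [hG]; nlinarith [this.1, this.2]
  linarith [le1 0 κ hκ0.le, le1 (L - κ) L (by linarith)]

/-- The total variation after multiplying by a function of one coordinate. -/
theorem energy_cut {u : (Fin 3 → ℝ) → ℝ} (hu : Adm u) (i : Fin 3) {b b' : ℝ → ℝ}
    (hbd : ∀ z, HasDerivAt b (b' z) z) (hb'c : Continuous b')
    (hc01 : ∀ z, 1 - b z ∈ Icc (0 : ℝ) 1)
    (hC1 : ContDiff ℝ 1 fun x => u x * (1 - b (x i))) :
    energy (fun x => u x * (1 - b (x i))) ≤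
      (energy u - ∫ x in box 3, b (x i) * grad u x) + ∫ z in (0 : ℝ)..1, |b' z| * area u i z := by
  have hbc : Continuous b := continuous_iff_continuousAt.2 fun z => (hbd z).continuousAt
  have e0 : Continuous fun x => b (x i) * grad u x :=
    (hbc.comp (continuous_apply i)).mul (continuous_grad hu.smooth)
  have e1 : Continuous fun x => |b' (x i)| * u x :=
    (hb'c.abs.comp (continuous_apply i)).mul hu.smooth.continuous
  have e2 : ∀ x, grad (fun x => u x * (1 - b (x i))) x ≤
      (grad u x - b (x i) * grad u x) + |b' (x i)| * u x := fun x => by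
    have := grad_mul_le hu i (c := fun z => 1 - b z) (c' := fun z => -b' z)
      (fun z => (hbd z).const_sub 1) hc01 x
    rw [abs_neg] at this
    exact this.trans_eq (by ring)
  have ig := integrableOn_box (continuous_grad hu.smooth)
  rw [show (∫ z in (0 : ℝ)..1, |b' z| * area u i z) = ∫ x in box 3, |b' (x i)| * u x from
      (integral_axis hu.smooth.continuous hb'c.abs i).symm, energy, energy,
    ← integral_sub ig (integrableOn_box e0),
    ← integral_add (ig.sub' (integrableOn_box e0)) (integrableOn_box e1)]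
  exact setIntegral_box_mono (continuous_grad hC1)
    (((continuous_grad hu.smooth).sub e0).add e1) fun x _ => e2 x

/-- The cut over a given interval. -/
theorem cutAt (hSl : Slicing) {u : (Fin 3 → ℝ) → ℝ} (hu : Adm u) (i : Fin 3) {β η : ℝ}
    (hβ : 0 ≤ β) (hη : 0 < η) (hη4 : η ≤ 1 / 4) (hβη : β * Real.sqrt η ≤ 2 * Real.sqrt Real.pi)
    {z₀ z₁ z₂ : ℝ} (h02 : z₀ < z₂) (h2b : z₂ < z₀ + 1 / 2)
    (haR : ∀ y ∈ Icc z₀ z₂, area u i y ≤ η)
    (hR : area u i z₂ ≤ ∫ y in z₀..z₂, cutRate β (area u i y))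
    (h1b : z₀ - 1 / 2 < z₁) (h10 : z₁ < z₀) (haL : ∀ y ∈ Icc z₁ z₀, area u i y ≤ η)
    (hL : area u i z₁ ≤ ∫ y in z₁..z₀, cutRate β (area u i y)) {δ : ℝ} (hδ : 0 < δ) :
    ∃ κ > 0, 2 * κ ≤ z₂ - z₁ ∧ ∃ u', u' = (fun x => u x * (1 - cutoff κ z₁ (z₂ - z₁) (x i))) ∧
      Adm u' ∧ (∀ x, u' x ≤ u x) ∧ HasGap u' i ∧ dfct u' ≤ dfct u + δ ∧ mean u - mean u' ≤ η ∧
      energy u' + β * (mean u - mean u') ≤ energy u + err (dfct u) + δ := by
  obtain ⟨hder, hslc, hper, hmem, -, hslice⟩ := hSl u hu i
  set a := area u i with ha_def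
  have hac : Continuous a := continuous_iff_continuousAt.2 fun z => (hder z).continuousAt
  set L := z₂ - z₁ with hLdef
  have hL0 : 0 < L := by linarith
  have hL1 : L < 1 := by linarith
  have haη : ∀ r ∈ Icc 0 L, a (z₁ + r) ≤ η := fun r hr => by
    rcases le_total (z₁ + r) z₀ with h | h
    · exact haL _ ⟨by linarith [hr.1], h⟩
    · exact haR _ ⟨h, by linarith [hr.2]⟩
  -- the width of the steps
  have hnear : ∀ w, ∃ κ > 0, ∀ z, |z - w| ≤ κ → a z ≤ a w + δ / 4 := by
    intro w
    obtain ⟨κ, hκ, h⟩ := Metric.continuous_iff.1 hac w (δ / 4) (by positivity)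
    refine ⟨κ / 2, by positivity, fun z hz => ?_⟩
    have := h z (by rw [Real.dist_eq]; linarith)
    rw [Real.dist_eq, abs_lt] at this
    linarith
  obtain ⟨κ₁, hκ₁, hn1⟩ := hnear z₁
  obtain ⟨κ₂, hκ₂, hn2⟩ := hnear z₂
  set C := 2 * Real.sqrt Real.pi with hC
  have hC0 : 0 ≤ C := by positivity
  obtain ⟨κ, hκ0, hκ⟩ : ∃ κ > 0, κ ≤ κ₁ ∧ κ ≤ κ₂ ∧ 2 * κ < z₀ - z₁ ∧ 2 * κ < z₂ - z₀ ∧
      2 * κ ≤ δ ∧ C * (2 * κ) ≤ δ / 2 := by
    refine ⟨min (min κ₁ κ₂) (min (min ((z₀ - z₁) / 3) ((z₂ - z₀) / 3))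
      (min (δ / 2) (δ / (4 * (C + 1))))), lt_min (lt_min hκ₁ hκ₂) (lt_min (lt_min (by linarith)
      (by linarith)) (lt_min (by positivity) (by positivity))), ?_⟩
    set κ := min (min κ₁ κ₂) (min (min ((z₀ - z₁) / 3) ((z₂ - z₀) / 3))
      (min (δ / 2) (δ / (4 * (C + 1)))))
    have k1 : κ ≤ κ₁ := (min_le_left _ _).trans (min_le_left _ _)
    have k2 : κ ≤ κ₂ := (min_le_left _ _).trans (min_le_right _ _)
    have k3 : κ ≤ (z₀ - z₁) / 3 := (min_le_right _ _).trans ((min_le_left _ _).trans (min_le_left _ _))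
    have k4 : κ ≤ (z₂ - z₀) / 3 :=
      (min_le_right _ _).trans ((min_le_left _ _).trans (min_le_right _ _))
    have k5 : κ ≤ δ / 2 := (min_le_right _ _).trans ((min_le_right _ _).trans (min_le_left _ _))
    have k6 : κ ≤ δ / (4 * (C + 1)) :=
      (min_le_right _ _).trans ((min_le_right _ _).trans (min_le_right _ _))
    rw [le_div_iff₀ (by positivity)] at k6
    have : 0 < κ := lt_min (lt_min hκ₁ hκ₂) (lt_min (lt_min (by linarith) (by linarith))
      (lt_min (by positivity) (by positivity)))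
    exact ⟨k1, k2, by linarith, by linarith, by linarith, by nlinarith⟩
  obtain ⟨hk1, hk2, hk3, hk4, hk5, hk6⟩ := hκ
  set b := cutoff κ z₁ L with hb
  set b' : ℝ → ℝ := fun z => deriv (profile κ L) (Int.fract (z - z₁)) with hb'
  have hbd : ∀ z, HasDerivAt b (b' z) z := hasDerivAt_cutoff hκ0 hL1
  have hb01 : ∀ z, b z ∈ Icc (0 : ℝ) 1 := fun z => profile_mem
  have hbC : ContDiff ℝ 1 b := contDiff_cutoff hκ0 hL1
  have hb'c : Continuous b' := by
    rw [show b' = deriv b from funext fun z => (hbd z).deriv.symm]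
    exact hbC.continuous_deriv le_rfl
  have hbp : ∀ z, b (z + 1) = b z := fun z => by
    simp only [hb, cutoff]; rw [show z + 1 - z₁ = z - z₁ + 1 by ring, Int.fract_add_one]
  set u' : (Fin 3 → ℝ) → ℝ := fun x => u x * (1 - b (x i)) with hu'
  have hc01 : ∀ z, 1 - b z ∈ Icc (0 : ℝ) 1 := fun z =>
    ⟨by linarith [(hb01 z).2], by linarith [(hb01 z).1]⟩
  have hu'A : Adm u' := by
    refine ⟨hu.smooth.mul (contDiff_const.sub (hbC.comp (contDiff_apply ℝ ℝ i))),
      fun x k => ?_, fun x => ⟨mul_nonneg (hu.mem x).1 (hc01 _).1,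
        mul_le_one₀ (hu.mem x).2 (hc01 _).1 (hc01 _).2⟩⟩
    simp only [hu', hu.periodic x k]
    rcases eq_or_ne k i with rfl | hki
    · simp [hbp]
    · simp [Pi.single_eq_of_ne (Ne.symm hki)]
  -- quantities along the axis
  set G : ℝ → ℝ := fun r => profile κ L r with hG
  have hGc : Continuous G := contDiff_profile.continuous
  have haz : Continuous fun r => a (z₁ + r) := hac.comp (continuous_const.add continuous_id)
  have hmean : mean u - mean u' = ∫ z in (0 : ℝ)..1, b z * a z := by
    unfold mean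
    rw [← integral_sub (integrableOn_box hu.smooth.continuous) (integrableOn_box hu'A.smooth.continuous)]
    rw [show (fun x => u x - u' x) = fun x => b (x i) * u x from funext fun x => by simp [hu']; ring]
    exact integral_axis hu.smooth.continuous hbC.continuous i
  have hI1 : ∫ z in (0 : ℝ)..1, b z * a z = ∫ r in (0 : ℝ)..1, G r * a (z₁ + r) :=
    integral_period hper G
  have hprofp : Function.Periodic (fun z => prof (a z)) 1 := fun z => by
    show prof (a (z + 1)) = prof (a z)
    rw [hper]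
  have hI2 : ∫ z in (0 : ℝ)..1, b z * prof (a z) = ∫ r in (0 : ℝ)..1, G r * prof (a (z₁ + r)) :=
    integral_period hprofp G
  have hsl : ∫ z in (0 : ℝ)..1, b z * prof (a z) ≤
      (∫ x in box 3, b (x i) * grad u x) + err (dfct u) := by
    have := hslice b (fun _ => 1) (fun _ => 0) hbC.continuous continuous_const continuous_const hb01
      (fun _ => zero_le_one) (fun _ => le_rfl) (fun _ => by norm_num)
    simpa using this
  have hprofc : Continuous fun r => prof (a (z₁ + r)) := by unfold prof; fun_prop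
  -- the gain
  have hgain : (∫ r in (0 : ℝ)..L, cutRate β (a (z₁ + r))) - C * (2 * κ) ≤
      ∫ r in (0 : ℝ)..1, G r * (prof (a (z₁ + r)) - β * a (z₁ + r)) :=
    profile_gain haz (fun r => hmem _) haη hβ hβη hη4 hκ0 (by linarith) hL1.le
  have hcuts : a z₁ + a z₂ ≤ ∫ r in (0 : ℝ)..L, cutRate β (a (z₁ + r)) := by
    have hgc : Continuous fun z => cutRate β (a z) := by unfold cutRate; fun_prop
    rw [intervalIntegral.integral_comp_add_left (fun z => cutRate β (a z)) z₁, add_zero,
      show z₁ + L = z₂ by simp [hLdef], ← intervalIntegral.integral_add_adjacent_intervals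
        (hgc.intervalIntegrable z₁ z₀) (hgc.intervalIntegrable z₀ z₂)]
    linarith
  have hedge : ∫ z in (0 : ℝ)..1, |b' z| * a z ≤ a z₁ + a z₂ + δ / 2 := by
    refine le_of_eq_of_le (integral_period hper fun r => |deriv (profile κ L) r|) ?_
    have hds := continuous_deriv_step (κ := κ)
    have hds' : Continuous fun r => deriv (step κ) (L - r) :=
      hds.comp (continuous_const.sub continuous_id)
    refine (intervalIntegral.integral_mono_on zero_le_one ?_ ?_ fun r _ =>
      mul_le_mul_of_nonneg_right (abs_deriv_profile_le hκ0 r) (hmem _).1).trans ?_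
    · exact ((contDiff_profile.continuous_deriv le_rfl).abs.mul haz).intervalIntegrable _ _
    · exact ((hds.add hds').mul haz).intervalIntegrable _ _
    · simp only [add_mul]
      have e1 : IntervalIntegrable (fun r => deriv (step κ) r * a (z₁ + r)) volume 0 1 :=
        (hds.mul haz).intervalIntegrable _ _
      have e2 : IntervalIntegrable (fun r => deriv (step κ) (L - r) * a (z₁ + r)) volume 0 1 :=
        (hds'.mul haz).intervalIntegrable _ _
      rw [intervalIntegral.integral_add e1 e2]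
      have q1 := integral_deriv_step_le (M := a z₁ + δ / 4) haz hκ0 (by linarith) fun r hr =>
        hn1 _ (by rw [add_sub_cancel_left, abs_of_nonneg hr.1]; linarith [hr.2])
      have q2 := integral_deriv_step_le' (M := a z₂ + δ / 4) (L := L) haz hκ0 (by linarith) hL1.le
        fun r hr => hn2 _ (by
          rw [show z₁ + r - z₂ = -(L - r) by simp [hLdef]; ring, abs_neg,
            abs_of_nonneg (by linarith [hr.2])]
          linarith [hr.1])
      linarith
  refine ⟨κ, hκ0, by linarith, u', rfl, hu'A, fun x => mul_le_of_le_one_right (hu.mem x).1 (hc01 _).2,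
    ⟨z₀ - κ, z₀ + κ, by linarith, fun x hx => ?_⟩, ?_, ?_, ?_⟩
  · have : Int.fract (x i - z₁) = x i - z₁ :=
      Int.fract_eq_self.2 ⟨by linarith [hx.1], by linarith [hx.2]⟩
    simp [hu', hb, cutoff, this,
      profile_mid hκ0 (show κ ≤ x i - z₁ by linarith [hx.1]) (show x i - z₁ + κ ≤ L by linarith [hx.2])]
  · have hpt : ∀ x, u' x * (1 - u' x) ≤ u x * (1 - u x) + b (x i) * (1 - b (x i)) := by
      intro x
      have h1 := hu.mem x; have h2 := hb01 (x i)
      simp only [hu']
      nlinarith [mul_nonneg h2.1 (mul_nonneg h1.1 (sub_nonneg.2 h1.2)),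
        mul_nonneg (mul_nonneg h2.1 (sub_nonneg.2 h2.2))
          (show 0 ≤ 1 - u x ^ 2 by nlinarith [h1.1, h1.2])]
    have hbb : Continuous fun x : Fin 3 → ℝ => b (x i) * (1 - b (x i)) := by
      have := hbC.continuous; fun_prop
    have huu : Continuous fun x => u x * (1 - u x) :=
      hu.smooth.continuous.mul (continuous_const.sub hu.smooth.continuous)
    unfold dfct
    refine (setIntegral_box_mono (f := fun x => u' x * (1 - u' x))
      (hu'A.smooth.continuous.mul (continuous_const.sub hu'A.smooth.continuous))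
      (huu.add hbb) fun x _ => hpt x).trans ?_
    simp only [Pi.add_apply]
    rw [integral_add (integrableOn_box huu) (integrableOn_box hbb), add_le_add_iff_left]
    have := integral_axis (f := fun _ => (1 : ℝ)) continuous_const
      (ψ := fun z => b z * (1 - b z)) (hbC.continuous.mul (continuous_const.sub hbC.continuous)) i
    simp only [mul_one, setIntegral_const, volume_box, smul_eq_mul] at this
    rw [this]
    have h1 := integral_period (z₁ := z₁) (f := fun _ => (1 : ℝ)) (fun _ => rfl)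
      fun r => G r * (1 - G r)
    simp only [mul_one] at h1
    exact (le_of_eq_of_le h1 (integral_profile_var hκ0 (by linarith) hL1.le)).trans hk5
  · rw [hmean, hI1]
    refine (intervalIntegral.integral_mono_on zero_le_one ((hGc.mul haz).intervalIntegrable _ _)
      (intervalIntegrable_const (c := η)) fun r hr => ?_).trans_eq (by simp)
    rcases le_total r L with h | h
    · exact (mul_le_of_le_one_left (hmem _).1 profile_mem.2).trans (haη r ⟨hr.1, h⟩)
    · simp [hG, profile_right hκ0 h, hη.le]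
  · have hE : energy u' ≤ (energy u - ∫ x in box 3, b (x i) * grad u x) +
        ∫ z in (0 : ℝ)..1, |b' z| * a z :=
      energy_cut hu i hbd hb'c hc01 hu'A.smooth
    have hsplit : ∫ r in (0 : ℝ)..1, G r * (prof (a (z₁ + r)) - β * a (z₁ + r)) =
        (∫ z in (0 : ℝ)..1, b z * prof (a z)) - β * ∫ z in (0 : ℝ)..1, b z * a z := by
      rw [hI1, hI2, ← intervalIntegral.integral_const_mul, ← intervalIntegral.integral_sub]
      · congr 1; funext r; ring
      · exact (hGc.mul hprofc).intervalIntegrable _ _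
      · exact (continuous_const.mul (hGc.mul haz)).intervalIntegrable _ _
    rw [hmean]
    linarith

theorem cutStep (hSl : Slicing) : CutStep := by
  intro u hu i β η hβ hη hη4 hβη hcut δ hδ
  obtain ⟨z₀, ⟨z₂, h02, h2b, haR, hR⟩, z₁, h1b, h10, haL, hL⟩ := hcut
  obtain ⟨κ, -, -, u', -, h⟩ :=
    cutAt hSl hu i hβ hη hη4 hβη h02 h2b haR hR h1b h10 haL hL hδ
  exact ⟨u', h⟩

end Vale.Agent.P232.Cut
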