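import Vale.Agent.P232.Boxes

/-!
# P232: slices
-/

noncomputable section

open MeasureTheory Filter Topology Set

namespace Vale.Agent.P232

variable {u : (Fin 3 → ℝ) → ℝ}

theorem continuous_insert_fixed (i : Fin 3) (z : ℝ) :
    Continuous fun y : Fin 2 → ℝ => i.insertNth (α := fun _ => ℝ) z y :=
  continuous_const.finInsertNth (A := fun _ : Fin 3 => ℝ) i continuous_id

theorem Adm.slice (hu : Adm u) (i : Fin 3) (z : ℝ) : Adm (slice u i z) where
  smooth := hu.smooth.comp (contDiff_insertNth i z)
  periodic := fun y k => by
    show u (i.insertNth z (y + Pi.single k 1)) = u (i.insertNth z y)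
    rw [← hu.periodic (i.insertNth z y) (i.succAbove k)]
    congr 1
    rw [insertNth_eq_add i z (y + Pi.single k 1), insertNth_eq_add i z y,
      show i.insertNth (α := fun _ => ℝ) 0 (y + Pi.single k 1) =
        i.insertNth 0 y + i.insertNth (α := fun _ => ℝ) 0 (Pi.single k 1) by
          rw [← Fin.insertNth_add]; simp, single_succAbove]
    abel
  mem := fun y => hu.mem _

theorem hasDerivAt_area (hu : Adm u) (i : Fin 3) (z : ℝ) :
    HasDerivAt (area u i) (slope u i z) z := by
  have hc : Continuous fun q : ℝ × (Fin 2 → ℝ) => |pd u i (i.insertNth q.1 q.2)| :=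
    ((continuous_pd hu.smooth i).comp
      (continuous_fst.finInsertNth (A := fun _ : Fin 3 => ℝ) i continuous_snd)).abs
  obtain ⟨M, hM⟩ := ((isCompact_Icc (a := z - 1) (b := z + 1)).prod
    (isCompact_Icc (a := (0 : Fin 2 → ℝ)) (b := 1))).bddAbove_image hc.continuousOn
  have hu' := hu.smooth.continuous
  refine (hasDerivAt_integral_of_dominated_loc_of_deriv_le (μ := volume.restrict (box 2))
    (bound := fun _ => M) (F := fun t y => u (i.insertNth t y))
    (F' := fun t y => pd u i (i.insertNth t y)) (Ioo_mem_nhds (show z - 1 < z by linarith)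
      (show z < z + 1 by linarith)) ?_ ?_ ?_ ?_ (integrableOn_box continuous_const) ?_).2
  · exact Eventually.of_forall fun t =>
      (hu'.comp (continuous_insert_fixed i t)).aestronglyMeasurable
  · exact integrableOn_box (hu'.comp (continuous_insert_fixed i z))
  · exact ((continuous_pd hu.smooth i).comp (continuous_insert_fixed i z)).aestronglyMeasurable
  · refine (ae_restrict_iff' measurableSet_box).2 (Eventually.of_forall fun y hy t ht => ?_)
    exact hM ⟨(t, y), ⟨⟨ht.1.le, ht.2.le⟩, fun k => (hy k).1, fun k => (hy k).2.le⟩, rfl⟩
  · exact Eventually.of_forall fun y t _ => hasDerivAt_insertNth hu.smooth i t y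

/-- The gradient splits into its part in the slice and its part across. -/
theorem split_le_grad (hu : Adm u) (i : Fin 3) (z : ℝ) (y : Fin 2 → ℝ) {s t : ℝ}
    (hs : 0 ≤ s) (ht : 0 ≤ t) (hst : s ^ 2 + t ^ 2 ≤ 1) :
    s * grad (slice u i z) y + t * |pd u i (i.insertNth z y)| ≤ grad u (i.insertNth z y) := by
  have hh : grad (slice u i z) y =
      Real.sqrt (∑ k, pd u (i.succAbove k) (i.insertNth z y) ^ 2) := by
    show Real.sqrt (∑ k, pd (fun y => u (i.insertNth z y)) k y ^ 2) = _
    simp only [pd_insertNth hu.smooth]
  rw [hh, grad, Fin.sum_univ_succAbove _ i]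
  set p := pd u i (i.insertNth z y)
  set S := ∑ k, pd u (i.succAbove k) (i.insertNth z y) ^ 2
  have hS : 0 ≤ S := Finset.sum_nonneg fun k _ => sq_nonneg _
  refine (Real.le_sqrt (by positivity) (by positivity)).2 ?_
  have h1 := Real.sq_sqrt hS
  nlinarith [sq_nonneg (s * |p| - t * Real.sqrt S), sq_abs p,
    mul_le_mul_of_nonneg_right hst (add_nonneg (sq_nonneg p) hS)]

theorem integral_dfct_slice (hu : Adm u) (i : Fin 3) :
    ∫ z in (0 : ℝ)..1, dfct (slice u i z) = dfct u := by
  have : Continuous fun x => u x * (1 - u x) :=
    hu.smooth.continuous.mul (continuous_const.sub hu.smooth.continuous)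
  exact (integral_box_succ this i).symm

theorem continuous_dfct_slice (hu : Adm u) (i : Fin 3) :
    Continuous fun z => dfct (slice u i z) :=
  continuous_sliceInt (f := fun x => u x * (1 - u x))
    (hu.smooth.continuous.mul (continuous_const.sub hu.smooth.continuous)) i

/-- The concavity of the cube root, integrated over the slices. -/
theorem integral_err_le (hu : Adm u) (i : Fin 3) :
    ∫ z in (0 : ℝ)..1, err (dfct (slice u i z)) ≤ err (dfct u) := by
  have hD := dfct_nonneg hu
  have hd := continuous_dfct_slice hu i
  have key : ∀ η : ℝ, 0 < η →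
      ∫ z in (0 : ℝ)..1, err (dfct (slice u i z)) ≤ err (dfct u + η) := by
    intro η hη
    set e := dfct u + η with he
    have he0 : 0 < e := by positivity
    have hpt : ∀ x, 0 ≤ x →
        err x ≤ 10 * e ^ (1 / 3 : ℝ) * (2 / 3 + x / (3 * e)) := by
      intro x hx
      have h := Real.geom_mean_le_arith_mean2_weighted (w₁ := 1 / 3) (w₂ := 2 / 3) (p₁ := x)
        (p₂ := e) (by norm_num) (by norm_num) hx he0.le (by norm_num)
      have h3 : e ^ (2 / 3 : ℝ) * e ^ (1 / 3 : ℝ) = e := by
        rw [← Real.rpow_add he0]; norm_num
      have h4 : 0 < e ^ (2 / 3 : ℝ) := Real.rpow_pos_of_pos he0 _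
      have h5 : e ^ (1 / 3 : ℝ) = e / e ^ (2 / 3 : ℝ) := by
        rw [eq_div_iff h4.ne', mul_comm, h3]
      rw [err, h5, mul_assoc]
      refine mul_le_mul_of_nonneg_left ?_ (by norm_num)
      rw [div_mul_eq_mul_div, le_div_iff₀ h4]
      refine h.trans (le_of_eq ?_)
      field_simp; ring
    have hdz : ∀ z, 0 ≤ dfct (slice u i z) := fun z => dfct_nonneg (hu.slice i z)
    calc ∫ z in (0 : ℝ)..1, err (dfct (slice u i z))
        ≤ ∫ z in (0 : ℝ)..1,
            10 * e ^ (1 / 3 : ℝ) * (2 / 3 + dfct (slice u i z) / (3 * e)) := by
          refine intervalIntegral.integral_mono_on zero_le_one ?_ ?_ fun z _ => hpt _ (hdz z)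
          · exact (continuous_const.mul
              (hd.rpow_const fun _ => Or.inr (by norm_num))).intervalIntegrable _ _
          · exact (by fun_prop : Continuous _).intervalIntegrable _ _
      _ = 10 * e ^ (1 / 3 : ℝ) * (2 / 3 + dfct u / (3 * e)) := by
          rw [intervalIntegral.integral_const_mul, intervalIntegral.integral_add
            intervalIntegrable_const ((hd.div_const _).intervalIntegrable _ _),
            intervalIntegral.integral_const, intervalIntegral.integral_div,
            integral_dfct_slice hu i]
          simp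
      _ ≤ err e := by
          refine mul_le_of_le_one_right (by positivity) ?_
          have : dfct u / (3 * e) ≤ 1 / 3 := by
            rw [div_le_iff₀ (by positivity)]; simp only [he]; linarith
          linarith
  have hlim : Tendsto (fun η => err (dfct u + η)) (𝓝[>] 0) (𝓝 (err (dfct u))) := by
    have : Continuous fun η => err (dfct u + η) :=
      continuous_const.mul ((continuous_const.add continuous_id).rpow_const
        fun _ => Or.inr (by norm_num))
    simpa using (this.tendsto 0).mono_left nhdsWithin_le_nhds
  exact ge_of_tendsto hlim (eventually_nhdsWithin_of_forall key)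

theorem slicing (hP : ProfileSquare) : Slicing := by
  intro u hu i
  have hac : Continuous (area u i) :=
    continuous_iff_continuousAt.2 fun z => (hasDerivAt_area hu i z).continuousAt
  have hsl : Continuous (slope u i) := continuous_sliceInt (continuous_pd hu.smooth i) i
  refine ⟨hasDerivAt_area hu i, hsl, fun z => ?_, fun z => mean_mem (hu.slice i z),
    (integral_box_succ hu.smooth.continuous i).symm, ?_⟩
  · exact setIntegral_congr_fun measurableSet_box fun y _ => hu.per.insertNth_add_one i z y
  intro ψ s t hψ hs ht hψ01 hs0 ht0 hst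
  have hprof : Continuous fun z => prof (area u i z) := by
    unfold prof; fun_prop
  have hG : Continuous fun z => ∫ y in box 2, grad u (i.insertNth z y) :=
    continuous_sliceInt (continuous_grad hu.smooth) i
  have herr : Continuous fun z => err (dfct (slice u i z)) :=
    continuous_const.mul ((continuous_dfct_slice hu i).rpow_const fun _ => Or.inr (by norm_num))
  have hpt : ∀ z, ψ z * (s z * prof (area u i z) + t z * |slope u i z|) ≤
      ψ z * (∫ y in box 2, grad u (i.insertNth z y)) + err (dfct (slice u i z)) := by
    intro z
    have hA := hu.slice i z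
    have h1 : prof (area u i z) - err (dfct (slice u i z)) ≤ energy (slice u i z) :=
      hP _ hA
    have hci := (continuous_pd hu.smooth i).comp (continuous_insert_fixed i z)
    have h2 : s z * energy (slice u i z) + t z * |slope u i z| ≤
        ∫ y in box 2, grad u (i.insertNth z y) := by
      have habs : |slope u i z| ≤ ∫ y in box 2, |pd u i (i.insertNth z y)| :=
        abs_integral_le_integral_abs
      calc s z * energy (slice u i z) + t z * |slope u i z|
          ≤ s z * energy (slice u i z) + t z * ∫ y in box 2, |pd u i (i.insertNth z y)| := by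
            linarith [mul_le_mul_of_nonneg_left habs (ht0 z)]
        _ = ∫ y in box 2,
              (s z * grad (slice u i z) y + t z * |pd u i (i.insertNth z y)|) := by
            have i1 : IntegrableOn (fun y => s z * grad (slice u i z) y) (box 2) :=
              integrableOn_box (continuous_const.mul (continuous_grad hA.smooth))
            have i2 : IntegrableOn (fun y => t z * |pd u i (i.insertNth z y)|) (box 2) :=
              integrableOn_box (continuous_const.mul hci.abs)
            rw [integral_add i1 i2, integral_const_mul, integral_const_mul]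
            rfl
        _ ≤ _ := setIntegral_box_mono
            ((continuous_const.mul (continuous_grad hA.smooth)).add
              (continuous_const.mul hci.abs))
            ((continuous_grad hu.smooth).comp (continuous_insert_fixed i z))
            fun y _ => split_le_grad hu i z y (hs0 z) (ht0 z) (hst z)
    have hs1 : s z ≤ 1 := by nlinarith [hs0 z, hst z, sq_nonneg (t z)]
    have he : 0 ≤ err (dfct (slice u i z)) :=
      mul_nonneg (by norm_num) (Real.rpow_nonneg (dfct_nonneg hA) _)
    have hle : s z * prof (area u i z) + t z * |slope u i z| ≤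
        (∫ y in box 2, grad u (i.insertNth z y)) + err (dfct (slice u i z)) := by
      linarith [mul_le_mul_of_nonneg_left h1 (hs0 z), mul_le_of_le_one_left he hs1]
    calc _ ≤ ψ z * ((∫ y in box 2, grad u (i.insertNth z y)) + err (dfct (slice u i z))) :=
          mul_le_mul_of_nonneg_left hle (hψ01 z).1
      _ ≤ _ := by rw [mul_add]; linarith [mul_le_of_le_one_left he (hψ01 z).2]
  have hRHS : ∫ x in box 3, ψ (x i) * grad u x =
      ∫ z in (0 : ℝ)..1, ψ z * ∫ y in box 2, grad u (i.insertNth z y) := by
    rw [integral_box_succ (f := fun x => ψ (x i) * grad u x) ((hψ.comp (continuous_apply i)).mul (continuous_grad hu.smooth)) i]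
    simp only [Fin.insertNth_apply_same, integral_const_mul]
  refine (intervalIntegral.integral_mono_on zero_le_one ?_ ?_ fun z _ => hpt z).trans ?_
  · exact (hψ.mul ((hs.mul hprof).add (ht.mul hsl.abs))).intervalIntegrable _ _
  · exact ((hψ.mul hG).add herr).intervalIntegrable _ _
  · have i1 : IntervalIntegrable
        (fun z => ψ z * ∫ y in box 2, grad u (i.insertNth z y)) volume 0 1 :=
      (hψ.mul hG).intervalIntegrable _ _
    rw [intervalIntegral.integral_add i1 (herr.intervalIntegrable _ _), ← hRHS]
    linarith [integral_err_le hu i]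

end Vale.Agent.P232
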