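import Vale.Agent.P232.Periodic

/-!
# P232: balls, tubes and slabs attain the canonical values

All three are balls in the first `d` coordinates, for `d = 3, 2, 1`.
-/

noncomputable section

open MeasureTheory Filter Topology Set
open scoped ContDiff

namespace Vale.Agent.P232

open Periodic

namespace Compet

/-- The space of the first `d` coordinates. -/
abbrev Sub (d : ℕ) := EuclideanSpace ℝ (Fin d)

variable {d : ℕ}

/-- The projection to the first `d` coordinates. -/
def pr (hd : d ≤ 3) : Point →L[ℝ] Sub d :=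
  ((PiLp.continuousLinearEquiv 2 ℝ fun _ : Fin d => ℝ).symm :
      (Fin d → ℝ) →L[ℝ] Sub d).comp
    (ContinuousLinearMap.pi fun i => EuclideanSpace.proj (Fin.castLE hd i))

lemma pr_apply (hd : d ≤ 3) (x : Point) (i : Fin d) : pr hd x i = x (Fin.castLE hd i) := rfl

lemma norm_pr_le (hd : d ≤ 3) (x : Point) : ‖pr hd x‖ ≤ ‖x‖ := by
  rw [EuclideanSpace.norm_eq, EuclideanSpace.norm_eq]
  refine Real.sqrt_le_sqrt ?_
  have h := Finset.sum_map (Finset.univ : Finset (Fin d))
    ⟨Fin.castLE hd, Fin.castLE_injective hd⟩ fun i => ‖x i‖ ^ 2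
  simp only [Function.Embedding.coeFn_mk] at h
  simp only [pr_apply, ← h]
  exact Finset.sum_le_sum_of_subset_of_nonneg (Finset.subset_univ _) fun i _ _ => sq_nonneg _

/-- The representative of a point in the cube. -/
def fr (x : Point) : Point := WithLp.toLp 2 fun i => Int.fract (x i)

/-- The integral part of a point. -/
def fl (x : Point) : Point := WithLp.toLp 2 fun i => (⌊x i⌋ : ℝ)

lemma measurable_fr : Measurable fr :=
  (WithLp.measurable_toLp 2 _).comp
    (measurable_pi_lambda _ fun i =>
      measurable_fract.comp (EuclideanSpace.proj (𝕜 := ℝ) i).continuous.measurable)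

lemma fr_periodic : IsPeriodic fr := by
  intro x k
  ext i
  show Int.fract ((x + EuclideanSpace.single k (1 : ℝ) : Point) i) = Int.fract (x i)
  by_cases h : i = k <;> simp [h]

lemma fl_of_mem {x : Point} (hx : x ∈ cube) : fl x = 0 := by
  ext i
  show ((⌊x i⌋ : ℤ) : ℝ) = 0
  rw [Int.floor_eq_zero_iff.2 (hx i), Int.cast_zero]

lemma fr_of_mem {x : Point} (hx : x ∈ cube) : fr x = x := by
  ext i
  exact Int.fract_eq_self.2 (hx i)

/-- The centre of the unit box. -/
def mid (d : ℕ) : Sub d := WithLp.toLp 2 fun _ => 1 / 2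

/-- The unit box of the first `d` coordinates. -/
def boxSub (d : ℕ) : Set (Sub d) := {z | ∀ i, z i ∈ Ico (0 : ℝ) 1}

lemma ball_subset_boxSub {r : ℝ} (hr : r ≤ 1 / 2) : Metric.ball (mid d) r ⊆ boxSub d := by
  intro z hz i
  have h := (PiLp.norm_apply_le (z - mid d) i).trans_lt (mem_ball_iff_norm.1 hz)
  have h2 : |z i - 1 / 2| < r := by simpa [mid] using h
  obtain ⟨h3, h4⟩ := abs_lt.1 h2
  exact ⟨by linarith, by linarith⟩

lemma le_norm_sub_mid {r : ℝ} (z : Sub d) (i : Fin d) (h : r ≤ |z i - 1 / 2|) :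
    r ≤ ‖z - mid d‖ :=
  h.trans (le_of_eq_of_le (by simp [mid]) (PiLp.norm_apply_le (z - mid d) i))

lemma measurePreserving_pr (hd : d ≤ 3) :
    MeasurePreserving (pr hd) (volume.restrict cube) (volume.restrict (boxSub d)) := by
  classical
  set ν : Measure ℝ := volume.restrict (Ico (0 : ℝ) 1) with hν
  have : IsProbabilityMeasure ν := ⟨by simp [ν]⟩
  have hcoord : MeasurePreserving (fun (y : Fin 3 → ℝ) (i : Fin d) => y (Fin.castLE hd i))
      (Measure.pi fun _ => ν) (Measure.pi fun _ => ν) := by
    have hm : Measurable fun (y : Fin 3 → ℝ) (i : Fin d) => y (Fin.castLE hd i) :=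
      measurable_pi_lambda _ fun i => measurable_pi_apply _
    refine ⟨hm, (Measure.pi_eq fun s hs => ?_).symm⟩
    rw [Measure.map_apply hm (MeasurableSet.univ_pi hs)]
    set s' : Fin 3 → Set ℝ := fun j => if h : (j : ℕ) < d then s ⟨j, h⟩ else univ with hs'
    have he : (fun (y : Fin 3 → ℝ) (i : Fin d) => y (Fin.castLE hd i)) ⁻¹' (univ.pi s) =
        univ.pi s' := by
      ext y
      simp only [mem_preimage, mem_univ_pi, hs']
      constructor
      · intro h j
        by_cases hj : (j : ℕ) < d
        · simp only [hj, dif_pos]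
          exact h ⟨j, hj⟩
        · simp [hj]
      · intro h i
        have := h (Fin.castLE hd i)
        simpa using this
    rw [he, Measure.pi_pi]
    have hmap : ∏ i : Fin d, ν (s i) = ∏ j ∈ (Finset.univ : Finset (Fin d)).map
        ⟨Fin.castLE hd, Fin.castLE_injective hd⟩, ν (s' j) := by
      rw [Finset.prod_map]
      refine Finset.prod_congr rfl fun i _ => ?_
      simp [hs']
    rw [hmap]
    refine (Finset.prod_subset (Finset.subset_univ _) fun j _ hj => ?_).symm
    have hj' : ¬(j : ℕ) < d := fun h => hj (Finset.mem_map.2 ⟨⟨j, h⟩, Finset.mem_univ _, rfl⟩)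
    simp [hs', hj']
  have h1 : MeasurePreserving (WithLp.ofLp : Point → Fin 3 → ℝ) (volume.restrict cube)
      (Measure.pi fun _ => ν) := by
    have e : Measure.pi (fun _ : Fin 3 => ν) = volume.restrict (univ.pi fun _ => Ico (0 : ℝ) 1) := by
      rw [volume_pi, Measure.restrict_pi_pi]
    have hc : cube = (WithLp.ofLp : Point → Fin 3 → ℝ) ⁻¹' (univ.pi fun _ => Ico (0 : ℝ) 1) := by
      ext x; simp [cube]
    rw [e, hc]
    exact (PiLp.volume_preserving_ofLp (Fin 3)).restrict_preimage
      (MeasurableSet.univ_pi fun _ => measurableSet_Ico)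
  have h2 : MeasurePreserving (WithLp.toLp 2 : (Fin d → ℝ) → Sub d) (Measure.pi fun _ => ν)
      (volume.restrict (boxSub d)) := by
    have e : Measure.pi (fun _ : Fin d => ν) = volume.restrict (WithLp.toLp 2 ⁻¹' boxSub d) := by
      rw [show WithLp.toLp 2 ⁻¹' boxSub d = univ.pi fun _ : Fin d => Ico (0 : ℝ) 1 by
        ext y; simp [boxSub], volume_pi, Measure.restrict_pi_pi]
    have hb : MeasurableSet (boxSub d) := by
      simp only [boxSub, ofPred_forall]
      exact MeasurableSet.iInter fun i =>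
        (EuclideanSpace.proj (𝕜 := ℝ) i).continuous.measurable measurableSet_Ico
    rw [e]
    exact (PiLp.volume_preserving_toLp (Fin d)).restrict_preimage hb
  exact h2.comp (hcoord.comp h1)

/-- The radial ramp of width `h` inside the ball of radius `r`. -/
def ramp (d : ℕ) (r h : ℝ) (z : Sub d) : ℝ :=
  Real.smoothTransition ((r ^ 2 - ‖z - mid d‖ ^ 2) / h)

/-- The derivative of the profile of the ramp. -/
def speed (r h s : ℝ) : ℝ :=
  deriv Real.smoothTransition ((r ^ 2 - s ^ 2) / h) * (2 * s / h)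

/-- The periodic ramp. -/
def cand (hd : d ≤ 3) (r h : ℝ) (x : Point) : ℝ := ramp d r h (pr hd (fr x))

/-- The periodic set over the ball of radius `r`. -/
def body (hd : d ≤ 3) (r : ℝ) : Set Point := {x | pr hd (fr x) ∈ Metric.ball (mid d) r}

lemma isTorusSet_body (hd : d ≤ 3) (r : ℝ) : IsTorusSet (body hd r) :=
  ⟨((pr hd).continuous.measurable.comp measurable_fr) Metric.isOpen_ball.measurableSet,
    fun x i => by
      show (pr hd (fr (x + EuclideanSpace.single i 1)) ∈ Metric.ball (mid d) r) =
        (pr hd (fr x) ∈ Metric.ball (mid d) r)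
      rw [fr_periodic x i]⟩

lemma body_inter_cube (hd : d ≤ 3) (r : ℝ) :
    body hd r ∩ cube = pr hd ⁻¹' Metric.ball (mid d) r ∩ cube := by
  ext x
  simp only [body, mem_inter_iff, mem_ofPred_eq, mem_preimage]
  constructor <;> rintro ⟨h, hx⟩ <;> rw [fr_of_mem hx] at * <;> exact ⟨h, hx⟩

lemma torusVolume_body (hd : d ≤ 3) {r : ℝ} (hr : 0 < r) (hr2 : r ≤ 1 / 2) :
    torusVolume (body hd r) = r ^ d * (volume (Metric.ball (0 : Sub d) 1)).toReal := by
  rw [torusVolume, body_inter_cube, measureReal_def,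
    ← Measure.restrict_apply ((pr hd).continuous.measurable Metric.isOpen_ball.measurableSet),
    (measurePreserving_pr hd).measure_preimage Metric.isOpen_ball.measurableSet.nullMeasurableSet,
    Measure.restrict_apply Metric.isOpen_ball.measurableSet,
    inter_eq_left.2 (ball_subset_boxSub hr2), Measure.addHaar_ball_of_pos volume _ hr,
    ENNReal.toReal_mul, ENNReal.toReal_ofReal (by positivity), finrank_euclideanSpace_fin]

lemma cand_periodic (hd : d ≤ 3) (r h : ℝ) : IsPeriodic (cand hd r h) := by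
  intro x i
  simp only [cand, fr_periodic x i]

lemma ramp_eq_zero {r h : ℝ} (hr : 0 ≤ r) (hh : 0 < h) {z : Sub d} (hz : r ≤ ‖z - mid d‖) :
    ramp d r h z = 0 :=
  Real.smoothTransition.zero_of_nonpos
    (div_nonpos_of_nonpos_of_nonneg (by linarith [pow_le_pow_left₀ hr hz 2]) hh.le)

/-- Near every point the periodic ramp is a translate of the ramp. -/
lemma cand_eventuallyEq (hd : d ≤ 3) {r h : ℝ} (hr : 0 ≤ r) (hr2 : r < 1 / 2) (hh : 0 < h)
    (x : Point) :
    cand hd r h =ᶠ[𝓝 x] fun y => ramp d r h (pr hd (y - fl x)) := by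
  filter_upwards [Metric.ball_mem_nhds x (show 0 < 1 / 2 - r by linarith)] with y hy
  have hclose : ∀ j : Fin 3, |y j - x j| < 1 / 2 - r := fun j => by
    have := (PiLp.norm_apply_le (y - x) j).trans_lt (mem_ball_iff_norm.1 hy)
    simpa using this
  by_cases hall : ∀ i : Fin d, ⌊y (Fin.castLE hd i)⌋ = ⌊x (Fin.castLE hd i)⌋
  · show ramp d r h _ = _
    congr 1
    ext i
    show Int.fract (y (Fin.castLE hd i)) = y (Fin.castLE hd i) - (⌊x (Fin.castLE hd i)⌋ : ℝ)
    rw [← hall i, Int.fract]
  push Not at hall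
  obtain ⟨i, hi⟩ := hall
  set j := Fin.castLE hd i
  set t := y j - (⌊x j⌋ : ℝ) with ht
  obtain ⟨c1, c2⟩ := abs_lt.1 (hclose j)
  have f1 := Int.floor_le (x j)
  have f2 := Int.lt_floor_add_one (x j)
  have hR : r ≤ |t - 1 / 2| ∧ r ≤ |Int.fract (y j) - 1 / 2| := by
    rcases lt_or_ge t 0 with h0 | h0
    · have hfl : ⌊y j⌋ = ⌊x j⌋ - 1 :=
        Int.floor_eq_iff.2 ⟨by push_cast; linarith, by push_cast; linarith⟩
      constructor
      · rw [abs_of_nonpos (by linarith)]; linarith
      · rw [Int.fract, hfl, Int.cast_sub, Int.cast_one]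
        rw [abs_of_nonneg (by linarith)]; linarith
    · have h1 : 1 ≤ t := by
        by_contra hlt
        exact hi (Int.floor_eq_iff.2 ⟨by linarith, by linarith [not_le.1 hlt]⟩)
      have hfl : ⌊y j⌋ = ⌊x j⌋ + 1 :=
        Int.floor_eq_iff.2 ⟨by push_cast; linarith, by push_cast; linarith⟩
      constructor
      · rw [abs_of_nonneg (by linarith)]; linarith
      · rw [Int.fract, hfl, Int.cast_add, Int.cast_one]
        rw [abs_of_nonpos (by linarith)]; linarith
  show ramp d r h _ = _
  rw [ramp_eq_zero hr hh (le_norm_sub_mid _ i hR.2),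
    ramp_eq_zero hr hh (le_norm_sub_mid (pr hd (y - fl x)) i hR.1)]

lemma contDiff_ramp (d : ℕ) (r h : ℝ) : ContDiff ℝ 1 (ramp d r h) :=
  (Real.smoothTransition.contDiff (n := 1)).comp
    ((contDiff_const.sub ((contDiff_id.sub contDiff_const).norm_sq ℝ)).div_const h)

lemma contDiff_cand (hd : d ≤ 3) {r h : ℝ} (hr : 0 ≤ r) (hr2 : r < 1 / 2) (hh : 0 < h) :
    ContDiff ℝ 1 (cand hd r h) := by
  refine contDiff_iff_contDiffAt.2 fun x => ContDiffAt.congr_of_eventuallyEq ?_
    (cand_eventuallyEq hd hr hr2 hh x)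
  exact ((contDiff_ramp d r h).comp
    ((pr hd).contDiff.comp (contDiff_id.sub contDiff_const))).contDiffAt

lemma deriv_transition_nonneg (t : ℝ) : 0 ≤ deriv Real.smoothTransition t :=
  Real.smoothTransition.monotone.deriv_nonneg

lemma deriv_transition_eq_zero {t : ℝ} (ht : t ≤ 0) : deriv Real.smoothTransition t = 0 :=
  IsLocalMin.deriv_eq_zero (Eventually.of_forall fun s => by
    rw [Real.smoothTransition.zero_of_nonpos ht]; exact Real.smoothTransition.nonneg s)

lemma continuous_speed (r h : ℝ) : Continuous (speed r h) :=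
  (((Real.smoothTransition.contDiff (n := 1)).continuous_deriv le_rfl).comp
    ((continuous_const.sub (continuous_id.pow 2)).div_const h)).mul
    ((continuous_const.mul continuous_id).div_const h)

lemma speed_nonneg {r h s : ℝ} (hh : 0 < h) (hs : 0 ≤ s) : 0 ≤ speed r h s :=
  mul_nonneg (deriv_transition_nonneg _) (by positivity)

lemma speed_eq_zero {r h s : ℝ} (hr : 0 ≤ r) (hh : 0 < h) (hs : r ≤ s) : speed r h s = 0 := by
  rw [speed, deriv_transition_eq_zero
    (div_nonpos_of_nonpos_of_nonneg (by linarith [pow_le_pow_left₀ hr hs 2]) hh.le), zero_mul]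

lemma abs_fderiv_ramp_le {r h : ℝ} (hh : 0 < h) (z w : Sub d) :
    |fderiv ℝ (ramp d r h) z w| ≤ speed r h ‖z - mid d‖ * ‖w‖ := by
  have h1 := (((hasFDerivAt_id (𝕜 := ℝ) z).sub_const (mid d)).norm_sq.const_sub
    (r ^ 2)).const_mul h⁻¹
  have h2 := ((Real.smoothTransition.contDiff (n := 1)).differentiable one_ne_zero
    (h⁻¹ * (r ^ 2 - ‖z - mid d‖ ^ 2))).hasDerivAt.comp_hasFDerivAt z h1
  have he : ramp d r h = fun y => Real.smoothTransition (h⁻¹ * (r ^ 2 - ‖y - mid d‖ ^ 2)) := by
    funext y; rw [ramp, div_eq_inv_mul]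
  have h3 : fderiv ℝ (ramp d r h) z w = deriv Real.smoothTransition
      (h⁻¹ * (r ^ 2 - ‖z - mid d‖ ^ 2)) * (h⁻¹ * -(2 * inner ℝ (z - mid d) w)) := by
    rw [(h2.congr_of_eventuallyEq (Eventually.of_forall fun y => by rw [he]; rfl)).fderiv]
    simp [inner_sub_left]
  rw [h3, abs_mul, abs_mul, abs_of_nonneg (deriv_transition_nonneg _),
    abs_of_nonneg (inv_nonneg.2 hh.le), abs_neg, abs_mul, abs_two, speed, ← div_eq_inv_mul]
  rw [mul_assoc (deriv _ _)]
  refine mul_le_mul_of_nonneg_left ?_ (deriv_transition_nonneg _)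
  have := abs_real_inner_le_norm (z - mid d) w
  rw [div_mul_eq_mul_div, ← div_eq_inv_mul]
  exact div_le_div_of_nonneg_right (by linarith) hh.le

lemma integral_speed_eq_one {r h : ℝ} (hh : 0 < h) (hh2 : h ≤ r ^ 2) :
    ∫ s in (0 : ℝ)..r, speed r h s = 1 := by
  have hderiv : ∀ s : ℝ,
      HasDerivAt (fun s => -Real.smoothTransition ((r ^ 2 - s ^ 2) / h)) (speed r h s) s := by
    intro s
    have h1 : HasDerivAt (fun s : ℝ => (r ^ 2 - s ^ 2) / h) (-(2 * s) / h) s := by
      simpa using ((hasDerivAt_pow 2 s).const_sub (r ^ 2)).div_const h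
    refine (((Real.smoothTransition.contDiff (n := 1)).differentiable one_ne_zero
      _).hasDerivAt.comp s h1).neg.congr_deriv ?_
    rw [speed]; ring
  rw [intervalIntegral.integral_eq_sub_of_hasDerivAt (fun s _ => hderiv s)
    ((continuous_speed r h).intervalIntegrable _ _)]
  rw [sub_self, zero_div, Real.smoothTransition.zero, zero_pow two_ne_zero, sub_zero,
    Real.smoothTransition.one_of_one_le ((one_le_div hh).2 hh2)]
  ring

lemma integral_speed_le (hd0 : 0 < d) {r h : ℝ} (hr : 0 < r) (hh : 0 < h) (hh2 : h ≤ r ^ 2) :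
    ∫ z : Sub d, speed r h ‖z - mid d‖ ≤
      d * (volume (Metric.ball (0 : Sub d) 1)).toReal * r ^ (d - 1) := by
  have : Nonempty (Fin d) := ⟨⟨0, hd0⟩⟩
  rw [integral_sub_right_eq_self (fun z : Sub d => speed r h ‖z‖) (mid d),
    integral_fun_norm_addHaar, finrank_euclideanSpace_fin, nsmul_eq_mul, smul_eq_mul,
    measureReal_def]
  rw [← mul_assoc]
  refine mul_le_mul_of_nonneg_left ?_ (by positivity)
  simp only [smul_eq_mul]
  rw [setIntegral_eq_of_subset_of_forall_sdiff_eq_zero measurableSet_Ioi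
    (Ioc_subset_Ioi_self : Ioc (0 : ℝ) r ⊆ Ioi 0) fun s hs => by
      have hrs : r ≤ s := by
        by_contra hlt
        exact hs.2 ⟨hs.1, (not_le.1 hlt).le⟩
      rw [speed_eq_zero hr.le hh hrs, mul_zero],
    ← intervalIntegral.integral_of_le hr.le]
  calc ∫ s in (0 : ℝ)..r, s ^ (d - 1) * speed r h s
      ≤ ∫ s in (0 : ℝ)..r, r ^ (d - 1) * speed r h s := by
        refine intervalIntegral.integral_mono_on hr.le
          (((continuous_id.pow _).mul (continuous_speed r h)).intervalIntegrable _ _)
          ((continuous_const.mul (continuous_speed r h)).intervalIntegrable _ _) fun s hs => ?_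
        exact mul_le_mul_of_nonneg_right (pow_le_pow_left₀ hs.1 hs.2 _) (speed_nonneg hh hs.1)
    _ = r ^ (d - 1) := by
        rw [intervalIntegral.integral_const_mul, integral_speed_eq_one hh hh2, mul_one]

/-- The perimeter of a ball in the first `d` coordinates. -/
theorem perimeterLE_body (hd : d ≤ 3) (hd0 : 0 < d) {r : ℝ} (hr : 0 < r) (hr2 : r < 1 / 2) :
    PerimeterLE (body hd r) (d * (volume (Metric.ball (0 : Sub d) 1)).toReal * r ^ (d - 1)) := by
  intro X hX hXp hX1
  set h : ℕ → ℝ := fun j => r ^ 2 / (j + 1) with hh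
  have hhpos : ∀ j, 0 < h j := fun j => by positivity
  have hhle : ∀ j, h j ≤ r ^ 2 := fun j =>
    div_le_self (sq_nonneg r) (by linarith [(Nat.cast_nonneg j : (0 : ℝ) ≤ j)])
  have hlim : Tendsto (fun j => ∫ x in cube, cand hd r (h j) x * divergence X x) atTop
      (𝓝 (∫ x in body hd r ∩ cube, divergence X x)) := by
    have hS := (isTorusSet_body hd r).1
    rw [inter_comm, ← setIntegral_indicator hS]
    obtain ⟨B, hB⟩ := (isCompact_closedBall (0 : Point) 2).exists_bound_of_continuousOn
      (continuous_divergence hX).continuousOn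
    refine tendsto_integral_of_dominated_convergence (fun _ => B) (fun j =>
      ((contDiff_cand hd hr.le hr2 (hhpos j)).continuous.mul
        (continuous_divergence hX)).aestronglyMeasurable) (integrable_const B) (fun j => ?_)
      (ae_of_all _ fun x => ?_)
    · filter_upwards [ae_restrict_mem measurableSet_cube] with x hx
      rw [norm_mul, cand, ramp, Real.norm_eq_abs, abs_of_nonneg (Real.smoothTransition.nonneg _)]
      exact (mul_le_of_le_one_left (norm_nonneg _) (Real.smoothTransition.le_one _)).trans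
        (hB x (cube_subset_closedBall hx))
    · by_cases hx : x ∈ body hd r
      · rw [indicator_of_mem hx]
        have hgap : 0 < r ^ 2 - ‖pr hd (fr x) - mid d‖ ^ 2 :=
          sub_pos.2 (pow_lt_pow_left₀ (mem_ball_iff_norm.1 hx) (norm_nonneg _) two_ne_zero)
        refine (tendsto_const_nhds.congr' ?_)
        have hev : ∀ᶠ j : ℕ in atTop,
            r ^ 2 / (r ^ 2 - ‖pr hd (fr x) - mid d‖ ^ 2) ≤ (j : ℝ) + 1 :=
          (tendsto_natCast_atTop_atTop.atTop_add tendsto_const_nhds).eventually
            (eventually_ge_atTop _)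
        filter_upwards [hev] with j hj
        have h1 : 1 ≤ (r ^ 2 - ‖pr hd (fr x) - mid d‖ ^ 2) / h j := by
          rw [one_le_div (hhpos j)]
          rw [div_le_iff₀ hgap] at hj
          simp only [hh]
          rw [div_le_iff₀ (by positivity)]
          linarith
        simp only [cand, ramp, Real.smoothTransition.one_of_one_le h1, one_mul]
      · rw [indicator_of_notMem hx]
        refine tendsto_const_nhds.congr fun j => ?_
        have hnot : r ≤ ‖pr hd (fr x) - mid d‖ := not_lt.1 fun hlt => hx (mem_ball_iff_norm.2 hlt)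
        simp only [cand, ramp_eq_zero hr.le (hhpos j) hnot, zero_mul]
  refine le_of_tendsto' hlim fun j => ?_
  have hc := contDiff_cand hd hr.le hr2 (hhpos j)
  rw [integral_mul_divergence hc (cand_periodic hd r _) hX hXp, ← integral_neg]
  have hg : Continuous fun z : Sub d => speed r (h j) ‖z - mid d‖ :=
    (continuous_speed r _).comp (continuous_id.sub continuous_const).norm
  have hgs : HasCompactSupport fun z : Sub d => speed r (h j) ‖z - mid d‖ := by
    refine HasCompactSupport.of_support_subset_isCompact (isCompact_closedBall (mid d) r) ?_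
    intro z hz
    rw [mem_closedBall_iff_norm]
    by_contra hlt
    exact hz (speed_eq_zero hr.le (hhpos j) (not_le.1 hlt).le)
  have hle : ∀ x ∈ cube, -fderiv ℝ (cand hd r (h j)) x (X x) ≤
      speed r (h j) ‖pr hd x - mid d‖ := by
    intro x hx
    have he := cand_eventuallyEq hd hr.le hr2 (hhpos j) x
    simp only [fl_of_mem hx, sub_zero] at he
    have hd2 : fderiv ℝ (fun y => ramp d r (h j) (pr hd y)) x =
        (fderiv ℝ (ramp d r (h j)) (pr hd x)).comp (pr hd) :=
      (((contDiff_ramp d r (h j)).differentiable one_ne_zero (pr hd x)).hasFDerivAt.comp x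
        (pr hd).hasFDerivAt).fderiv
    rw [he.fderiv_eq, hd2]
    refine (neg_le_abs _).trans ((abs_fderiv_ramp_le (hhpos j) _ _).trans ?_)
    exact mul_le_of_le_one_right (speed_nonneg (hhpos j) (norm_nonneg _))
      ((norm_pr_le hd _).trans (hX1 x))
  refine (setIntegral_mono_on (integrableOn_cube
    (((hc.continuous_fderiv one_ne_zero).clm_apply hX.continuous).neg))
    (integrableOn_cube (hg.comp (pr hd).continuous)) measurableSet_cube hle).trans ?_
  have hmp := measurePreserving_pr hd
  have hmap : ∫ z in boxSub d, speed r (h j) ‖z - mid d‖ =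
      ∫ x in cube, speed r (h j) ‖pr hd x - mid d‖ := by
    rw [← hmp.map_eq]
    exact integral_map hmp.measurable.aemeasurable hg.aestronglyMeasurable
  show ∫ x in cube, speed r (h j) ‖pr hd x - mid d‖ ≤ _
  rw [← hmap]
  exact (setIntegral_le_integral (hg.integrable_of_hasCompactSupport hgs)
    (ae_of_all _ fun z => speed_nonneg (hhpos j) (norm_nonneg _))).trans
    (integral_speed_le hd0 hr (hhpos j) (hhle j))

/-- The complement of a competitor is one. -/
lemma mem_perimeters_compl {V A : ℝ} (h : A ∈ perimeters V) : A ∈ perimeters (1 - V) := by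
  obtain ⟨E, hE, hV, hA⟩ := h
  refine ⟨Eᶜ, ⟨hE.1.compl, fun x i => ?_⟩, ?_, ?_⟩
  · show (x + _ ∉ E) = (x ∉ E)
    have h2 : (x + EuclideanSpace.single i 1 ∈ E) = (x ∈ E) := hE.2 x i
    simp [h2]
  · have h2 := measureReal_inter_add_sdiff (μ := (volume : Measure Point)) hE.1 volume_cube_ne_top
      (s := cube)
    rw [torusVolume, inter_comm, ← sdiff_eq]
    rw [torusVolume, inter_comm] at hV
    linarith [volume_real_cube]
  · intro X hX hXp hX1
    have hi := hA (fun x => -X x) hX.neg (fun x i => congrArg Neg.neg (hXp x i))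
      fun x => by simpa using hX1 x
    have hdiv : ∀ x, divergence (fun y => -X y) x = -divergence X x := fun x => by
      simp [divergence, Finset.sum_neg_distrib]
    simp only [hdiv, integral_neg] at hi
    have hint := integrableOn_cube (continuous_divergence hX)
    have hzero : ∫ x in cube, divergence X x = 0 := by
      have := integral_mul_divergence (U := fun _ => 1) contDiff_const (fun x i => rfl) hX hXp
      simpa using this
    have hsplit := integral_inter_add_sdiff hE.1 hint
    rw [inter_comm, ← sdiff_eq]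
    rw [inter_comm] at hi
    linarith

lemma mem_perimeters_body (hd : d ≤ 3) (hd0 : 0 < d) {r v A : ℝ} (hr : 0 < r) (hr2 : r < 1 / 2)
    (hv : r ^ d * (volume (Metric.ball (0 : Sub d) 1)).toReal = v)
    (hA : d * (volume (Metric.ball (0 : Sub d) 1)).toReal * r ^ (d - 1) = A) :
    A ∈ perimeters v :=
  ⟨body hd r, isTorusSet_body hd r, (torusVolume_body hd hr hr2.le).trans hv,
    hA ▸ perimeterLE_body hd hd0 hr hr2⟩

lemma ball_three : (volume (Metric.ball (0 : Sub 3) 1)).toReal = Real.pi * 4 / 3 := by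
  rw [EuclideanSpace.volume_ball_fin_three, ENNReal.toReal_mul, ← ENNReal.ofReal_pow zero_le_one,
    ENNReal.toReal_ofReal (by norm_num), ENNReal.toReal_ofReal (by positivity)]
  ring

lemma ball_two : (volume (Metric.ball (0 : Sub 2) 1)).toReal = Real.pi := by
  rw [EuclideanSpace.volume_ball_fin_two, ENNReal.toReal_mul, ← ENNReal.ofReal_pow zero_le_one,
    ENNReal.toReal_ofReal (by norm_num)]
  simp [Real.pi_pos.le]

lemma ball_one : (volume (Metric.ball (0 : Sub 1) 1)).toReal = 2 := by
  rw [EuclideanSpace.volume_ball, ENNReal.ofReal_one, one_pow, one_mul, Fintype.card_fin,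
    Nat.cast_one, pow_one, Real.Gamma_add_one (by norm_num), Real.Gamma_one_half_eq,
    ENNReal.toReal_ofReal (by positivity)]
  field_simp

lemma ballPer_mem {v : ℝ} (hv : 0 < v) (hv2 : v ≤ 1 / 2) : ballPer v ∈ perimeters v := by
  have hπ := Real.pi_pos
  set r : ℝ := (3 * v / (4 * Real.pi)) ^ (1 / 3 : ℝ) with hr
  have hr0 : 0 < r := Real.rpow_pos_of_pos (by positivity) _
  have hr3 : r ^ 3 = 3 * v / (4 * Real.pi) := by
    rw [hr, ← Real.rpow_natCast, ← Real.rpow_mul (by positivity)]
    norm_num
  have hlt : r < 1 / 2 := by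
    refine lt_of_pow_lt_pow_left₀ 3 (by norm_num) ?_
    rw [hr3, div_lt_iff₀ (by positivity)]
    nlinarith [Real.pi_gt_three]
  refine mem_perimeters_body (d := 3) le_rfl (by norm_num) hr0 hlt ?_ ?_
  · rw [ball_three, hr3]; field_simp
  · rw [ball_three]
    refine (pow_left_inj₀ (by positivity) (by unfold ballPer; positivity) three_ne_zero).1 ?_
    have h1 : ((36 * Real.pi) ^ (1 / 3 : ℝ)) ^ 3 = 36 * Real.pi := by
      rw [← Real.rpow_natCast, ← Real.rpow_mul (by positivity)]; norm_num
    have h2 : (v ^ (2 / 3 : ℝ)) ^ 3 = v ^ 2 := by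
      rw [← Real.rpow_natCast, ← Real.rpow_mul hv.le]; norm_num
    simp only [ballPer, mul_pow]
    rw [h1, h2,
      show (r ^ (3 - 1)) ^ 3 = (r ^ 3) ^ 2 by ring, hr3]
    push_cast
    field_simp
    ring

lemma tubePer_mem {v : ℝ} (hv : 0 < v) (hv2 : v ≤ 1 / 2) : tubePer v ∈ perimeters v := by
  have hπ := Real.pi_pos
  set r : ℝ := Real.sqrt (v / Real.pi) with hr
  have hr0 : 0 < r := Real.sqrt_pos.2 (by positivity)
  have hr2 : r ^ 2 = v / Real.pi := Real.sq_sqrt (by positivity)
  have hlt : r < 1 / 2 := by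
    refine lt_of_pow_lt_pow_left₀ 2 (by norm_num) ?_
    rw [hr2, div_lt_iff₀ hπ]
    nlinarith [Real.pi_gt_three]
  refine mem_perimeters_body (d := 2) (by norm_num) (by norm_num) hr0 hlt ?_ ?_
  · rw [ball_two, hr2]; field_simp
  · rw [ball_two, tubePer]
    have : Real.sqrt (Real.pi * v) = Real.pi * r := by
      rw [Real.sqrt_eq_iff_mul_self_eq (by positivity) (by positivity), ← sq, mul_pow, hr2]
      field_simp
    rw [this]
    simp; ring

lemma slabPer_mem {v : ℝ} (hv : 0 < v) (hv2 : v ≤ 1 / 2) : (2 : ℝ) ∈ perimeters v := by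
  refine mem_perimeters_body (d := 1) (by norm_num) one_pos (r := v / 2) (by linarith)
    (by linarith) ?_ ?_
  · rw [ball_one]; ring
  · rw [ball_one]; simp

lemma canonical_mem {v : ℝ} (hv : 0 < v) (hv2 : v ≤ 1 / 2) : canonical v ∈ perimeters v := by
  unfold canonical
  rcases min_choice (min (ballPer v) (tubePer v)) 2 with h | h <;> rw [h]
  · rcases min_choice (ballPer v) (tubePer v) with h' | h' <;> rw [h']
    · exact ballPer_mem hv hv2
    · exact tubePer_mem hv hv2
  · exact slabPer_mem hv hv2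

end Compet

open Compet

/-- The competitors attain the canonical values. -/
theorem competitors : Competitors := by
  intro V hV0 hV1
  unfold J
  rcases le_total V (1 - V) with h | h
  · rw [min_eq_left h]; exact canonical_mem hV0 (by linarith)
  · rw [min_eq_right h]
    simpa using mem_perimeters_compl (canonical_mem (v := 1 - V) (by linarith) (by linarith))

end Vale.Agent.P232
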