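import Vale.Agent.P232.Recursion

/-!
# P232: from sets of finite perimeter to the bound
-/

noncomputable section

open MeasureTheory Filter Topology Set

namespace Vale.Agent.P232

theorem Adm.scale {u : (Fin 3 → ℝ) → ℝ} (hu : Adm u) {c : ℝ} (hc : c ∈ Icc (0 : ℝ) 1) :
    Adm fun x => c * u x :=
  ⟨contDiff_const.mul hu.smooth, hu.per.comp_left fun t => c * t,
    fun x => ⟨mul_nonneg hc.1 (hu.mem x).1, mul_le_one₀ hc.2 (hu.mem x).1 (hu.mem x).2⟩⟩

/-- Scaling down costs little. -/
theorem scale_spec {u : (Fin 3 → ℝ) → ℝ} (hu : Adm u) {c : ℝ} (hc : c ∈ Icc (0 : ℝ) 1) :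
    mean (fun x => c * u x) = c * mean u ∧ dfct (fun x => c * u x) ≤ dfct u + (1 - c) ∧
      energy (fun x => c * u x) ≤ energy u := by
  refine ⟨integral_const_mul c _, ?_, ?_⟩
  · have hcont : Continuous fun x => u x * (1 - u x) :=
      hu.smooth.continuous.mul (continuous_const.sub hu.smooth.continuous)
    unfold dfct
    refine (setIntegral_box_mono (f := fun x => c * u x * (1 - c * u x)) ?_
      (hcont.add (continuous_const (y := 1 - c))) fun x _ => ?_).trans_eq ?_
    · have := hu.smooth.continuous; fun_prop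
    · simp only [Pi.add_apply]
      nlinarith [hc.1, hc.2, (hu.mem x).1, (hu.mem x).2,
        mul_nonneg (sub_nonneg.2 hc.2) (show 0 ≤ u x * (1 - u x) by nlinarith [(hu.mem x).1, (hu.mem x).2]),
        mul_nonneg (sub_nonneg.2 hc.2) (show 0 ≤ 1 - c * u x ^ 2 by
          nlinarith [(hu.mem x).1, (hu.mem x).2, hc.1, hc.2, mul_le_mul (hu.mem x).2 (hu.mem x).2 (hu.mem x).1 zero_le_one])]
    · simp only [Pi.add_apply]
      rw [integral_add (integrableOn_box hcont) (integrableOn_box continuous_const)]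
      simp [volume_box]
  · refine setIntegral_box_mono (continuous_grad (hu.scale hc).smooth)
      (continuous_grad hu.smooth) fun x _ => ?_
    rw [grad_comp (φ := fun t => c * t) (d := c) (by simpa using (hasDerivAt_id (u x)).const_mul c)
      (hu.smooth.differentiable one_ne_zero x), abs_of_nonneg hc.1]
    exact mul_le_of_le_one_left (grad_nonneg _ _) hc.2

/-- Smooth functions with the volume of the set, up to complement. -/
theorem exists_adm (hA : Approx) {E : Set Point} (hE : IsTorusSet E) {A : ℝ}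
    (hP : PerimeterLE E A) {V : ℝ} (hV : torusVolume E = V) (hV0 : 0 < V) (hV1 : V < 1)
    {δ : ℝ} (hδ : 0 < δ) :
    ∃ w : (Fin 3 → ℝ) → ℝ, Adm w ∧ mean w = min V (1 - V) ∧ dfct w ≤ δ ∧ energy w ≤ A + δ := by
  set v := min V (1 - V) with hv
  have hv0 : 0 < v := lt_min hV0 (by linarith)
  have hv2 : v ≤ 1 / 2 := by
    rcases le_total V (1 / 2) with h | h
    · exact (min_le_left _ _).trans h
    · exact (min_le_right _ _).trans (by linarith)
  obtain ⟨ρ, hρ, hρ1, hρ2⟩ : ∃ ρ > 0, ρ ≤ δ ∧ ρ + ρ / v ≤ δ := by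
    refine ⟨δ * v / (1 + v), by positivity, ?_, le_of_eq ?_⟩
    · rw [div_le_iff₀ (by positivity)]; nlinarith
    · field_simp; ring
  obtain ⟨u, hu, hmu, hdu, heu⟩ := hA E A hE hP ρ hρ
  obtain ⟨w, hw, hmw, hdw, hew⟩ :
      ∃ w : (Fin 3 → ℝ) → ℝ, Adm w ∧ |mean w - v| ≤ ρ ∧ dfct w ≤ ρ ∧ energy w ≤ A + ρ := by
    rw [hV] at hmu
    rcases min_choice V (1 - V) with h | h <;> rw [← hv] at h
    · exact ⟨u, hu, by rw [h]; exact hmu, hdu, heu⟩
    · refine ⟨_, hu.one_sub, ?_, (dfct_one_sub u).trans_le hdu, (energy_one_sub hu).trans_le heu⟩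
      rw [mean_one_sub hu, h, show 1 - mean u - (1 - V) = -(mean u - V) by ring, abs_neg]
      exact hmu
  rw [abs_le] at hmw
  rcases le_or_gt v (mean w) with hge | hlt
  · have hc : v / mean w ∈ Icc (0 : ℝ) 1 :=
      ⟨div_nonneg hv0.le (hv0.le.trans hge), div_le_one_of_le₀ hge (hv0.le.trans hge)⟩
    obtain ⟨h1, h2, h3⟩ := scale_spec hw hc
    have hmpos : 0 < mean w := hv0.trans_le hge
    refine ⟨_, hw.scale hc, ?_, ?_, h3.trans (by linarith)⟩
    · rw [h1, div_mul_cancel₀ _ hmpos.ne']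
    · have : 1 - v / mean w ≤ ρ / v := by
        rw [one_sub_div hmpos.ne']
        exact div_le_div₀ hρ.le (by linarith [hmw.2]) hv0 hge
      linarith
  · set g := fun x => 1 - w x with hg
    have hgA : Adm g := hw.one_sub
    have hgm : mean g = 1 - mean w := mean_one_sub hw
    have hc : (1 - v) / mean g ∈ Icc (0 : ℝ) 1 :=
      ⟨div_nonneg (by linarith) (by linarith), div_le_one_of_le₀ (by linarith) (by linarith)⟩
    obtain ⟨h1, h2, h3⟩ := scale_spec hgA hc
    refine ⟨_, (hgA.scale hc).one_sub, ?_, ?_, ?_⟩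
    · rw [mean_one_sub (hgA.scale hc), h1, div_mul_cancel₀ _ (by linarith : mean g ≠ 0)]; ring
    · rw [dfct_one_sub]
      rw [hg, dfct_one_sub w] at h2
      have : 1 - (1 - v) / mean g ≤ ρ / v := by
        rw [one_sub_div (by linarith : mean g ≠ 0)]
        exact div_le_div₀ hρ.le (by linarith [hmw.1]) hv0 (by linarith)
      linarith
    · rw [energy_one_sub (hgA.scale hc)]
      rw [hg, energy_one_sub hw] at h3
      linarith

/-- The error tends to zero. -/
theorem exists_small_slack (ε : ℝ) (hε : 0 < ε) :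
    ∃ δ > 0, ∀ D, 0 ≤ D → D ≤ δ → slack 3 D δ + δ ≤ ε := by
  have hc : Continuous fun δ : ℝ => slack 3 δ δ + δ := by
    unfold slack err ballPer
    have : ∀ f : ℝ → ℝ, Continuous f → ∀ q : ℝ, 0 ≤ q → Continuous fun x => f x ^ q :=
      fun f hf q hq => hf.rpow_const fun _ => Or.inr hq
    refine ((continuous_const.mul ((continuous_const.mul (this _ (by fun_prop) _ (by norm_num))).add
      continuous_id)).add (continuous_const.mul (this _ (by fun_prop) _ (by norm_num)))).add
      continuous_id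
  have h0 : slack 3 0 0 + 0 = 0 := by
    simp [slack, err, ballPer]
  obtain ⟨ρ, hρ, h⟩ := Metric.continuousAt_iff.1 (hc.continuousAt (x := 0)) ε hε
  refine ⟨ρ / 2, by positivity, fun D hD hDle => ?_⟩
  have := h (show dist (ρ / 2) 0 < ρ by
    rw [Real.dist_eq, sub_zero, abs_of_pos (by positivity)]; linarith)
  rw [Real.dist_eq, h0, sub_zero, abs_lt] at this
  refine le_trans ?_ this.2.le
  unfold slack
  have hle : D + (3 : ℕ) * (ρ / 2) ≤ ρ / 2 + (3 : ℕ) * (ρ / 2) := by linarith
  have h1 := err_mono (by positivity) hle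
  have h2 := ballPer_mono (by positivity) hle
  push_cast at h1 h2 ⊢
  linarith

theorem lower_bound (hA : Approx) (hT : ThreeGaps) (hR : RowBound) (hTi : TinyBound)
    (hC : CutStep) (hS : Scalar) {V A : ℝ} (hV0 : 0 < V) (hV1 : V < 1)
    (hrange : min V (1 - V) ≤ 262 / 1000 ∨ 365 / 1000 ≤ min V (1 - V))
    (hA' : A ∈ perimeters V) : J V ≤ A := by
  obtain ⟨E, hE, hvol, hP⟩ := hA'
  refine le_of_forall_pos_le_add fun ε hε => ?_
  obtain ⟨δ, hδ, hsmall⟩ := exists_small_slack ε hε
  obtain ⟨w, hw, hm, hd, he⟩ := exists_adm hA hE hP hvol hV0 hV1 hδ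
  have hs := hsmall _ (dfct_nonneg hw) hd
  unfold J
  rw [← hm] at hrange ⊢
  have huniv : ∀ j ∉ (Finset.univ : Finset (Fin 3)), HasGap w j := fun j hj =>
    absurd (Finset.mem_univ j) hj
  rcases hrange with h | h
  · have := low_bound hT hR hC hS hTi 3 w hw Finset.univ le_rfl huniv h δ hδ
    linarith
  · have h2 : mean w ≤ 1 / 2 := by
      rw [hm]
      rcases le_total V (1 / 2) with g | g
      · exact (min_le_left _ _).trans g
      · exact (min_le_right _ _).trans (by linarith)
    have := high_bound hT hR hC hS 3 w hw Finset.univ le_rfl huniv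
      (by push_cast; linarith) h2 δ hδ
    rw [max_eq_left (by linarith)] at this
    have hc : canonical (mean w) ≤ 2 := min_le_right _ _
    linarith

end Vale.Agent.P232
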