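import Vale.Agent.P232.Pins

/-!
# P232: the variation of a periodic profile without a cut

Where no cut is possible the profile grows quadratically away from its thin points, so each gap
between two excursions above `η` holds a thin set of length at most `2 T`, and each further gap is
paid by its crossing.
-/

noncomputable section

open MeasureTheory Filter Topology Set

namespace Vale.Agent.P232
namespace Exc

variable {a : ℝ → ℝ} {β η k x τ : ℝ}

lemma cutRate_ge (hβ : 0 ≤ β) (hβη : β * Real.sqrt η ≤ 2 * k * Real.sqrt Real.pi) {s : ℝ}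
    (hs : 0 ≤ s) (hsη : s ≤ η) :
    2 * (1 - k) * Real.sqrt Real.pi * Real.sqrt s ≤ cutRate β s := by
  have h : β * Real.sqrt s ≤ 2 * k * Real.sqrt Real.pi :=
    (mul_le_mul_of_nonneg_left (Real.sqrt_le_sqrt hsη) hβ).trans hβη
  have hs2 := Real.mul_self_sqrt hs
  rw [cutRate, Real.sqrt_mul Real.pi_pos.le]
  nlinarith [mul_le_mul_of_nonneg_right h (Real.sqrt_nonneg s)]

/-- Without a cut to the right the profile grows quadratically. -/
lemma growth (hac : Continuous a) (h0 : ∀ y, 0 ≤ a y) (hβ : 0 ≤ β) (hk : k < 1)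
    (hβη : β * Real.sqrt η ≤ 2 * k * Real.sqrt Real.pi) (hno : ¬ RightCut a β η x) (hτ : 0 < τ)
    (hτ2 : τ < 1 / 2) (hle : ∀ y ∈ Icc x (x + τ), a y ≤ η) :
    (1 - k) ^ 2 * Real.pi * τ ^ 2 < a (x + τ) := by
  set g : ℝ → ℝ := fun y => cutRate β (a y)
  have hgc : Continuous g := by
    simp only [g, cutRate]
    fun_prop
  set W : ℝ → ℝ := fun z => ∫ y in x..z, g y with hW
  have hWd : ∀ z, HasDerivAt W (g z) z := fun z => (hgc.integral_hasStrictDerivAt x z).hasDerivAt
  have hk0 : 0 < (1 - k) * Real.sqrt Real.pi :=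
    mul_pos (by linarith) (Real.sqrt_pos.2 Real.pi_pos)
  have hg0 : ∀ y ∈ Icc x (x + τ), 0 ≤ g y := fun y hy =>
    le_trans (by nlinarith [Real.sqrt_nonneg (a y)]) (cutRate_ge hβ hβη (h0 y) (hle y hy))
  have haW : ∀ z ∈ Ioc x (x + τ), W z < a z := fun z hz => lt_of_not_ge fun h =>
    hno ⟨z, hz.1, by linarith [hz.2], fun y hy => hle y ⟨hy.1, hy.2.trans hz.2⟩, h⟩
  have hW0 : ∀ z ∈ Icc x (x + τ), 0 ≤ W z := fun z hz =>
    intervalIntegral.integral_nonneg hz.1 fun y hy => hg0 y ⟨hy.1, hy.2.trans hz.2⟩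
  have hgpos : ∀ y ∈ Ioc x (x + τ), 0 < g y := fun y hy => by
    have ha : 0 < a y := (hW0 y ⟨hy.1.le, hy.2⟩).trans_lt (haW y hy)
    refine lt_of_lt_of_le ?_ (cutRate_ge hβ hβη (h0 y) (hle y ⟨hy.1.le, hy.2⟩))
    have := Real.sqrt_pos.2 ha
    nlinarith
  have hWpos : ∀ z ∈ Ioc x (x + τ), 0 < W z := fun z hz =>
    intervalIntegral.intervalIntegral_pos_of_pos_on (hgc.intervalIntegrable _ _)
      (fun y hy => hgpos y ⟨hy.1, hy.2.le.trans hz.2⟩) hz.1
  set φ : ℝ → ℝ := fun z => Real.sqrt (W z) - (1 - k) * Real.sqrt Real.pi * (z - x) with hφ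
  have hφd : ∀ z ∈ Ioo x (x + τ), HasDerivAt φ
      (g z / (2 * Real.sqrt (W z)) - (1 - k) * Real.sqrt Real.pi * 1) z := fun z hz =>
    ((hWd z).sqrt (hWpos z ⟨hz.1, hz.2.le⟩).ne').sub
      (((hasDerivAt_id z).sub_const x).const_mul _)
  have hmono : MonotoneOn φ (Icc x (x + τ)) := by
    refine monotoneOn_of_deriv_nonneg (convex_Icc _ _) ?_ ?_ ?_
    · have : Continuous W := continuous_iff_continuousAt.2 fun z => (hWd z).continuousAt
      exact Continuous.continuousOn (by simp only [hφ]; fun_prop)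
    · rw [interior_Icc]
      exact fun z hz => (hφd z hz).differentiableAt.differentiableWithinAt
    · rw [interior_Icc]
      intro z hz
      rw [(hφd z hz).deriv, mul_one, sub_nonneg,
        le_div_iff₀ (mul_pos two_pos (Real.sqrt_pos.2 (hWpos z ⟨hz.1, hz.2.le⟩)))]
      have h1 := cutRate_ge hβ hβη (h0 z) (hle z ⟨hz.1.le, hz.2.le⟩)
      have h2 := Real.sqrt_le_sqrt (haW z ⟨hz.1, hz.2.le⟩).le
      show _ ≤ cutRate β (a z)
      nlinarith [mul_le_mul_of_nonneg_left h2 hk0.le]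
  have h := hmono (left_mem_Icc.2 (by linarith)) (right_mem_Icc.2 (by linarith)) (by linarith)
  have hx : W x = 0 := intervalIntegral.integral_same
  simp only [hφ, hx, Real.sqrt_zero, sub_self, mul_zero, add_sub_cancel_left] at h
  have hend : x + τ ∈ Ioc x (x + τ) := ⟨by linarith, le_rfl⟩
  have hp : 0 ≤ (1 - k) * Real.sqrt Real.pi * τ := mul_nonneg hk0.le hτ.le
  calc (1 - k) ^ 2 * Real.pi * τ ^ 2 = ((1 - k) * Real.sqrt Real.pi * τ) ^ 2 := by
        rw [mul_pow, mul_pow, Real.sq_sqrt Real.pi_pos.le]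
    _ ≤ Real.sqrt (W (x + τ)) ^ 2 := pow_le_pow_left₀ hp (by linarith) 2
    _ = W (x + τ) := Real.sq_sqrt (hW0 _ ⟨by linarith, le_rfl⟩)
    _ < a (x + τ) := haW _ hend

/-- The reflection exchanges the two sorts of cut. -/
lemma not_rightCut_neg (h : ¬ LeftCut a β η x) : ¬ RightCut (fun y => a (-y)) β η (-x) := by
  rintro ⟨z, h1, h2, h3, h4⟩
  refine h ⟨-z, by linarith, by linarith, fun y hy => ?_, ?_⟩
  · simpa using h3 (-y) ⟨by linarith [hy.2], by linarith [hy.1]⟩
  · have e : (∫ y in -x..z, cutRate β (a (-y))) = ∫ y in -z..x, cutRate β (a y) := by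
      rw [intervalIntegral.integral_comp_neg (f := fun y => cutRate β (a y)), neg_neg]
    simpa [e] using h4

/-- Without a cut the profile reaches above `η` soon after each point. -/
lemma exists_above (hac : Continuous a) (h0 : ∀ y, 0 ≤ a y) (hβ : 0 ≤ β) (hη : 0 < η) (hk : k < 1)
    (hβη : β * Real.sqrt η ≤ 2 * k * Real.sqrt Real.pi)
    (hηk : 2 * Real.sqrt η < (1 - k) * Real.sqrt Real.pi) (hno : ¬ RightCut a β η x) :
    ∃ y ∈ Icc x (x + Real.sqrt η / ((1 - k) * Real.sqrt Real.pi)), η < a y := by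
  have hk0 : 0 < (1 - k) * Real.sqrt Real.pi :=
    mul_pos (by linarith) (Real.sqrt_pos.2 Real.pi_pos)
  by_contra hc
  simp only [not_exists, not_and, not_lt] at hc
  set τ := Real.sqrt η / ((1 - k) * Real.sqrt Real.pi) with hτ
  have hτ0 : 0 < τ := div_pos (Real.sqrt_pos.2 hη) hk0
  have hτ2 : τ < 1 / 2 := (div_lt_iff₀ hk0).2 (by linarith)
  have h := growth hac h0 hβ hk hβη hno hτ0 hτ2 hc
  have e : (1 - k) ^ 2 * Real.pi * τ ^ 2 = η := by
    have e1 : (1 - k) * Real.sqrt Real.pi * τ = Real.sqrt η := by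
      rw [hτ, mul_div_cancel₀ _ hk0.ne']
    calc _ = ((1 - k) * Real.sqrt Real.pi * τ) ^ 2 := by
          rw [mul_pow, mul_pow, Real.sq_sqrt Real.pi_pos.le]
      _ = η := by rw [e1, Real.sq_sqrt hη.le]
  linarith [hc (x + τ) ⟨by linarith, le_rfl⟩]

/-- A thin point reached below `η` from a point without a cut is close to it. -/
lemma thin_close (hac : Continuous a) (h0 : ∀ y, 0 ≤ a y) (hβ : 0 ≤ β) (hη : 0 < η) (hk : k < 1)
    (hβη : β * Real.sqrt η ≤ 2 * k * Real.sqrt Real.pi)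
    (hηk : 2 * Real.sqrt η < (1 - k) * Real.sqrt Real.pi) (hno : ¬ RightCut a β η x)
    {p T y : ℝ} (hT : 0 < T) (hpT : p ≤ (1 - k) ^ 2 * Real.pi * T ^ 2) (hy : a y ≤ p) (hle : ∀ w ∈ Icc x y, a w ≤ η) : y - x ≤ T := by
  by_contra hc
  obtain ⟨w, hw, hwη⟩ := exists_above hac h0 hβ hη hk hβη hηk hno
  have hk0 : 0 < (1 - k) * Real.sqrt Real.pi :=
    mul_pos (by linarith) (Real.sqrt_pos.2 Real.pi_pos)
  have hτ2 : Real.sqrt η / ((1 - k) * Real.sqrt Real.pi) < 1 / 2 :=
    (div_lt_iff₀ hk0).2 (by linarith)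
  have hyw : y < w := lt_of_not_ge fun h => (hle w ⟨hw.1, h⟩).not_gt hwη
  have hs : y - x < 1 / 2 := by linarith [hw.2]
  have h := growth hac h0 hβ hk hβη hno (τ := y - x) (by linarith) hs
    (fun w hw => hle w ⟨hw.1, by linarith [hw.2]⟩)
  rw [add_sub_cancel] at h
  have hK : 0 < (1 - k) ^ 2 * Real.pi := mul_pos (pow_pos (by linarith) 2) Real.pi_pos
  have := mul_lt_mul_of_pos_left (pow_lt_pow_left₀ (not_le.1 hc) hT.le two_ne_zero) hK
  linarith

end Exc

open Exc

theorem excursion : Excursion := by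
  intro a a' t β η p k T ℓ hd ha'c hper h01 htc ht01 ht0 hp hpη hη4 hβ hk hβη hηk hT hpT hℓ hℓT
    hmin hno z
  have hη : 0 < η := hp.trans hpη
  have hac : Continuous a := continuous_iff_continuousAt.2 fun y => (hd y).continuousAt
  have h0 : ∀ y, 0 ≤ a y := fun y => (h01 y).1
  have hbc : Continuous fun y => a (-y) := hac.comp continuous_neg
  have hb0 : ∀ y, 0 ≤ a (-y) := fun y => h0 _
  have hcases : ∀ x, ¬ RightCut a β η x ∨ ¬ LeftCut a β η x := fun x =>
    not_and_or.1 fun h => hno ⟨x, h⟩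
  obtain ⟨z₀, hz₀⟩ := hmin
  -- a point above `η`
  obtain ⟨w₀, hw₀⟩ : ∃ w, η < a w := by
    rcases hcases z₀ with h | h
    · obtain ⟨w, -, hw⟩ := exists_above hac h0 hβ hη hk hβη hηk h
      exact ⟨w, hw⟩
    · obtain ⟨w, -, hw⟩ := exists_above hbc hb0 hβ hη hk hβη hηk (not_rightCut_neg h)
      exact ⟨-w, hw⟩
  have hbdd : BddAbove (range a) := ⟨1, by rintro _ ⟨y, rfl⟩; exact (h01 y).2⟩
  refine ⟨(hw₀.le).trans (le_csSup hbdd (mem_range_self w₀)), ?_⟩
  -- the primitive of the weight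
  set G : ℝ → ℝ := fun x => ∫ r in p..x, t r with hG
  have hGd : ∀ x, HasDerivAt G (t x) x := fun x => (htc.integral_hasStrictDerivAt p x).hasDerivAt
  have hGmono : Monotone G := monotone_of_hasDerivAt_nonneg hGd fun x => (ht01 x).1
  have hGp : ∀ x, x ≤ p → G x = 0 := fun x hx => by
    have h := intervalIntegral.integral_congr (f := t) (g := fun _ => (0 : ℝ)) (μ := volume)
      (a := p) (b := x) fun r hr => ht0 r (by rw [uIcc_of_ge hx] at hr; exact hr.2)
    simpa [hG] using h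
  have hGη : ∀ x, η ≤ x → ℓ * T ≤ G x := fun x hx => hℓT.trans (hGmono hx)
  set f : ℝ → ℝ := fun y => t (a y) * |a' y| with hf
  have hfc : Continuous f := (htc.comp hac).mul ha'c.abs
  have hvar : ∀ u v, u ≤ v → |G (a v) - G (a u)| ≤ ∫ y in u..v, f y := by
    intro u v huv
    have h1 : ∫ y in u..v, t (a y) * a' y = G (a v) - G (a u) :=
      intervalIntegral.integral_eq_sub_of_hasDerivAt (f := fun y => G (a y))
        (fun y _ => (hGd (a y)).comp y (hd y)) (((htc.comp hac).mul ha'c).intervalIntegrable _ _)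
    rw [← h1]
    refine (intervalIntegral.abs_integral_le_integral_abs huv).trans_eq ?_
    exact intervalIntegral.integral_congr fun y _ => by
      simp only [hf, abs_mul, abs_of_nonneg (ht01 (a y)).1]
  -- the thin set
  set S : Set ℝ := {y | a y ≤ p} with hS
  have hSm : MeasurableSet S := measurableSet_le hac.measurable measurable_const
  set χ : ℝ → ℝ := S.indicator fun _ => 1 with hχ
  have hχi : ∀ u v, IntervalIntegrable χ volume u v := fun u v =>
    ⟨(integrableOn_const (by simp)).indicator hSm, (integrableOn_const (by simp)).indicator hSm⟩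
  have hmeas : ∀ u v, u ≤ v → ∫ y in u..v, χ y = volume.real (S ∩ Ioc u v) := fun u v huv => by
    rw [intervalIntegral.integral_of_le huv, hχ, setIntegral_indicator hSm, setIntegral_const,
      smul_eq_mul, mul_one, inter_comm]
  -- a gap between two excursions
  have hgap : ∀ u v, u ≤ v →
      (∀ x ∈ S ∩ Icc u v, ∀ y ∈ S ∩ Icc u v, ∀ w ∈ Icc x y, a w ≤ η) →
      ∫ y in u..v, χ y ≤ 2 * T := by
    intro u v huv hh
    rw [hmeas u v huv]
    set A := {x | x ∈ S ∩ Icc u v ∧ ¬ RightCut a β η x}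
    set B := {x | x ∈ S ∩ Icc u v ∧ ¬ LeftCut a β η x}
    have hA : ∀ x ∈ A, ∀ y ∈ A, x ≤ y → y - x ≤ T := fun x hx y hy _ =>
      thin_close hac h0 hβ hη hk hβη hηk hx.2 hT hpT hy.1.1 (hh x hx.1 y hy.1)
    have hB : ∀ x ∈ B, ∀ y ∈ B, x ≤ y → y - x ≤ T := fun x hx y hy _ => by
      have := thin_close hbc hb0 hβ hη hk hβη hηk (not_rightCut_neg hy.2) (y := -x) hT hpT
        (by simp only [neg_neg]; exact hx.1.1) fun w hw =>
          hh x hx.1 y hy.1 (-w) ⟨by linarith [hw.2], by linarith [hw.1]⟩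
      linarith
    have hd : ∀ A : Set ℝ, (∀ x ∈ A, ∀ y ∈ A, x ≤ y → y - x ≤ T) →
        volume A ≤ ENNReal.ofReal T := fun A hA => by
      refine (Real.volume_le_diam A).trans (Metric.ediam_le fun x hx y hy => ?_)
      rw [edist_dist]
      refine ENNReal.ofReal_le_ofReal ?_
      rw [Real.dist_eq, abs_le]
      rcases le_total x y with h | h
      · constructor <;> linarith [hA x hx y hy h]
      · constructor <;> linarith [hA y hy x hx h]
    have hsub : S ∩ Ioc u v ⊆ A ∪ B := fun x hx =>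
      (hcases x).imp (fun h => ⟨⟨hx.1, Ioc_subset_Icc_self hx.2⟩, h⟩)
        fun h => ⟨⟨hx.1, Ioc_subset_Icc_self hx.2⟩, h⟩
    have h := (measure_mono (μ := volume) hsub).trans
      ((measure_union_le A B).trans (add_le_add (hd A hA) (hd B hB)))
    rw [← ENNReal.ofReal_add hT.le hT.le] at h
    rw [Measure.real, two_mul]
    exact ENNReal.toReal_le_of_le_ofReal (by linarith) h
  -- uniform continuity
  obtain ⟨δ, hδ, huc⟩ : ∃ δ > 0, ∀ x y, |x - y| ≤ δ → |a x - a y| < η - p := by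
    obtain ⟨δ, hδ, h⟩ := Metric.uniformContinuousOn_iff.1
      ((isCompact_Icc (a := (-1 : ℝ)) (b := 2)).uniformContinuousOn_of_continuous hac.continuousOn)
      (η - p) (by linarith)
    refine ⟨min δ 1 / 2, by positivity, fun x y hxy => ?_⟩
    have h1 := abs_le.1 hxy
    have h2 : Function.Periodic a 1 := hper
    have hf0 := Int.fract_nonneg x
    have hf1 := Int.fract_lt_one x
    rw [Int.fract] at hf0 hf1
    rw [← h2.sub_int_mul_eq ⌊x⌋ (x := x), ← h2.sub_int_mul_eq ⌊x⌋ (x := y), mul_one]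
    have := min_le_left δ 1
    have := min_le_right δ 1
    simpa [Real.dist_eq] using h (x - ⌊x⌋) ⟨by linarith, by linarith⟩ (y - ⌊x⌋)
      ⟨by linarith, by linarith⟩ (by rw [Real.dist_eq, sub_sub_sub_cancel_right]; linarith)
  have hfar : ∀ {s w}, a s ≤ p → η < a w → δ < |w - s| := fun {s w} hs hw =>
    lt_of_not_ge fun h => by
      have := (abs_lt.1 (huc w s h)).2
      linarith
  -- induction on the number of steps
  have key : ∀ n : ℕ, ∀ u v, v - u ≤ n * δ → η < a u → η < a v → (∃ s ∈ Icc u v, a s ≤ p) →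
      G (a u) + G (a v) + ℓ * (∫ y in u..v, χ y) - 2 * T * ℓ ≤ ∫ y in u..v, f y := by
    intro n
    induction n with
    | zero =>
      intro u v huv hu _ ⟨s, hs, hsp⟩
      simp only [Nat.cast_zero, zero_mul] at huv
      have : s = u := le_antisymm (by linarith [hs.2]) hs.1
      rw [this] at hsp
      linarith
    | succ n ih =>
      intro u v huv hu hv ⟨s, hs, hsp⟩
      push_cast at huv
      have huv' : u ≤ v := hs.1.trans hs.2
      by_cases hsplit : ∃ x ∈ S ∩ Icc u v, ∃ y ∈ S ∩ Icc u v, ∃ w ∈ Icc x y, η < a w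
      · obtain ⟨x, hx, y, hy, w, hw, hwη⟩ := hsplit
        have e1 := hfar hy.1 hwη
        have e2 := hfar hx.1 hwη
        rw [abs_of_nonpos (by linarith [hw.2])] at e1
        rw [abs_of_nonneg (by linarith [hw.1])] at e2
        have r1 := ih u w (by linarith [hy.2.2]) hu hwη ⟨x, ⟨hx.2.1, hw.1⟩, hx.1⟩
        have r2 := ih w v (by linarith [hx.2.1]) hwη hv ⟨y, ⟨hw.2, hy.2.2⟩, hy.1⟩
        have a1 := intervalIntegral.integral_add_adjacent_intervals (μ := volume)
          (hfc.intervalIntegrable u w) (hfc.intervalIntegrable w v)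
        have a2 := intervalIntegral.integral_add_adjacent_intervals (μ := volume)
          (hχi u w) (hχi w v)
        rw [← a1, ← a2, mul_add]
        linarith [hGη _ hwη.le]
      · have hg := hgap u v huv' fun x hx y hy w hw => le_of_not_gt fun h =>
          hsplit ⟨x, hx, y, hy, w, hw, h⟩
        have a1 := intervalIntegral.integral_add_adjacent_intervals (μ := volume)
          (hfc.intervalIntegrable u s) (hfc.intervalIntegrable s v)
        have v1 := hvar u s hs.1
        have v2 := hvar s v hs.2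
        rw [hGp _ hsp, zero_sub, abs_neg] at v1
        rw [hGp _ hsp, sub_zero] at v2
        rw [← a1]
        linarith [le_abs_self (G (a u)), le_abs_self (G (a v)), mul_le_mul_of_nonneg_left hg hℓ]
  -- the maximum
  have hperiodic : Function.Periodic a 1 := hper
  obtain ⟨s₀, -, hs₀⟩ := (isCompact_Icc (a := (0 : ℝ)) (b := 1)).exists_isMaxOn
    (nonempty_Icc.2 zero_le_one) hac.continuousOn
  have hmax : ∀ y, a y ≤ a s₀ := fun y => by
    obtain ⟨y', hy', e⟩ := hperiodic.exists_mem_Ico₀ one_pos y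
    rw [e]
    exact hs₀ (Ico_subset_Icc_self hy')
  obtain ⟨s₁, hs₁, e₁⟩ := hperiodic.exists_mem_Ico one_pos z₀ s₀
  obtain ⟨n, hn⟩ := exists_nat_ge (1 / δ)
  have hs₀η : η < a s₀ := hw₀.trans_le (hmax w₀)
  have hK := key n s₀ (s₀ + 1) (by
      rw [add_sub_cancel_left]
      exact (div_le_iff₀ hδ).1 hn)
    hs₀η (by rw [hper]; exact hs₀η) ⟨s₁, Ico_subset_Icc_self hs₁, e₁ ▸ hz₀⟩
  rw [hper] at hK
  have hfper : Function.Periodic f 1 := fun y => by
    have e : a' (y + 1) = a' y := by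
      have h1 : HasDerivAt a (a' (y + 1)) y := by
        have := (hd (y + 1)).comp_add_const y 1
        simpa only [hper] using this
      exact h1.unique (hd y)
    simp only [hf, hper, e]
  have hχper : Function.Periodic χ 1 := fun y => by
    simp only [hχ, Set.indicator_apply, hS, mem_ofPred_eq, hper]
  rw [hfper.intervalIntegral_add_eq s₀ 0, hχper.intervalIntegral_add_eq s₀ 0, zero_add,
    hmeas 0 1 zero_le_one] at hK
  have hvol : volume.real (Ico (0 : ℝ) 1 ∩ S) = volume.real (S ∩ Ioc 0 1) := by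
    rw [inter_comm]
    exact congrArg ENNReal.toReal (measure_congr (EventuallyEq.rfl.inter Ico_ae_eq_Ioc))
  have := hGmono (hmax z)
  show 2 * G (a z) + ℓ * volume.real (Ico (0 : ℝ) 1 ∩ S) - 2 * T * ℓ ≤ ∫ y in (0 : ℝ)..1, f y
  rw [hvol]
  linarith

end Vale.Agent.P232
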