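import Vale.Agent.P232.Boxes

/-!
# P232: the isoperimetric profile of the square torus for nearly two-valued functions
-/

noncomputable section

open MeasureTheory Filter Topology Set

namespace Vale.Agent.P232.Square

/-- A continuous bump supported in `[l, g]`. -/
def bump (l g ε s : ℝ) : ℝ := max 0 (min 1 (min ((s - l) / ε) ((g - s) / ε)))

/-- The primitive of the bump. -/
def cut (l g ε s : ℝ) : ℝ := ∫ t in l..s, bump l g ε t

variable {l g ε s : ℝ}

theorem bump_nonneg : 0 ≤ bump l g ε s := le_max_left _ _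

theorem bump_le_one : bump l g ε s ≤ 1 := max_le zero_le_one (min_le_left _ _)

theorem continuous_bump : Continuous (bump l g ε) := by unfold bump; fun_prop

theorem bump_left (hε : 0 < ε) (h : s ≤ l) : bump l g ε s = 0 := by
  refine le_antisymm (max_le le_rfl ?_) bump_nonneg
  exact (min_le_right _ _).trans ((min_le_left _ _).trans
    (div_nonpos_of_nonpos_of_nonneg (by linarith) hε.le))

theorem bump_right (hε : 0 < ε) (h : g ≤ s) : bump l g ε s = 0 := by
  refine le_antisymm (max_le le_rfl ?_) bump_nonneg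
  exact (min_le_right _ _).trans ((min_le_right _ _).trans
    (div_nonpos_of_nonpos_of_nonneg (by linarith) hε.le))

theorem bump_mid (hε : 0 < ε) (h1 : l + ε ≤ s) (h2 : s + ε ≤ g) : bump l g ε s = 1 := by
  unfold bump
  rw [min_eq_left (le_min ((le_div_iff₀ hε).2 (by linarith)) ((le_div_iff₀ hε).2 (by linarith))),
    max_eq_right zero_le_one]

theorem bump_symm : bump (1 - g) (1 - l) ε (1 - s) = bump l g ε s := by
  unfold bump
  rw [show 1 - s - (1 - g) = g - s by ring, show 1 - l - (1 - s) = s - l by ring,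
    min_comm ((g - s) / ε)]

theorem hasDerivAt_cut : HasDerivAt (cut l g ε) (bump l g ε s) s :=
  (continuous_bump.integral_hasStrictDerivAt l s).hasDerivAt

theorem contDiff_cut : ContDiff ℝ 1 (cut l g ε) := by
  rw [contDiff_one_iff_deriv]
  refine ⟨fun s => hasDerivAt_cut.differentiableAt, ?_⟩
  rw [show deriv (cut l g ε) = bump l g ε from funext fun s => hasDerivAt_cut.deriv]
  exact continuous_bump

theorem monotone_cut : Monotone (cut l g ε) :=
  monotone_of_hasDerivAt_nonneg (fun _ => hasDerivAt_cut) fun _ => bump_nonneg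

theorem cut_left (hε : 0 < ε) (h : s ≤ l) : cut l g ε s = 0 := by
  rw [cut, intervalIntegral.integral_congr (g := fun _ => (0 : ℝ)) fun t ht => ?_]
  · simp
  · exact bump_left hε ((uIcc_of_ge h) ▸ ht).2

theorem cut_right (hε : 0 < ε) (h : g ≤ s) : cut l g ε s = cut l g ε g := by
  unfold cut
  rw [← intervalIntegral.integral_add_adjacent_intervals (b := g)
      (continuous_bump.intervalIntegrable l g) (continuous_bump.intervalIntegrable g s),
    intervalIntegral.integral_congr (a := g) (b := s) (g := fun _ => (0 : ℝ)) fun t ht => ?_]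
  · simp
  · exact bump_right hε ((uIcc_of_le h) ▸ ht).1

theorem le_cut (hε : 0 < ε) : max 0 (g - l - 2 * ε) ≤ cut l g ε g := by
  have h0 : 0 ≤ cut l g ε g := by
    rcases le_total g l with h | h
    · rw [cut_left hε h]
    · exact intervalIntegral.integral_nonneg h fun t _ => bump_nonneg
  refine max_le h0 ?_
  rcases le_total (g - l) (2 * ε) with h | h
  · linarith
  · have hi := fun a b => (continuous_bump (l := l) (g := g) (ε := ε)).intervalIntegrable
      (μ := volume) a b
    have hm : (g - ε) - (l + ε) = ∫ t in (l + ε)..(g - ε), bump l g ε t := by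
      rw [intervalIntegral.integral_congr (g := fun _ => (1 : ℝ)) fun t ht => ?_]
      · simp
      · rw [uIcc_of_le (by linarith)] at ht
        exact bump_mid hε ht.1 (by linarith [ht.2])
    unfold cut
    rw [← intervalIntegral.integral_add_adjacent_intervals (hi l (l + ε)) (hi (l + ε) g),
      ← intervalIntegral.integral_add_adjacent_intervals (hi (l + ε) (g - ε)) (hi (g - ε) g)]
    have h1 : 0 ≤ ∫ t in l..(l + ε), bump l g ε t :=
      intervalIntegral.integral_nonneg (by linarith) fun t _ => bump_nonneg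
    have h2 : 0 ≤ ∫ t in (g - ε)..g, bump l g ε t :=
      intervalIntegral.integral_nonneg (by linarith) fun t _ => bump_nonneg
    linarith

/-- The error in reading a volume off a band of levels. -/
def bandErr (θ : ℝ) : ℝ := (1 + θ) / (θ * (1 - θ))

theorem cut_sq_ge {θ : ℝ} (hε : 0 < ε) (hθ : 0 < θ) (hθ' : θ < 1 / 2) (hg : g ≤ 1 - θ)
    (hs : s ∈ Icc (0 : ℝ) 1) :
    cut l g ε g ^ 2 * (s - bandErr θ * (s * (1 - s))) ≤ cut l g ε s ^ 2 := by
  have h1θ : 0 < θ * (1 - θ) := by nlinarith
  rcases lt_or_ge s g with hlt | hge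
  · refine le_trans ?_ (sq_nonneg _)
    refine mul_nonpos_of_nonneg_of_nonpos (sq_nonneg _) ?_
    rw [sub_nonpos, bandErr, div_mul_eq_mul_div, le_div_iff₀ h1θ]
    rcases le_or_gt s θ with h | h
    · nlinarith [mul_nonneg hs.1 (sub_nonneg.2 h), hs.1]
    · nlinarith [mul_nonneg (sub_nonneg.2 h.le) (by linarith : (0 : ℝ) ≤ 1 - θ - s), hs.1, hs.2]
  · rw [cut_right hε hge]
    refine mul_le_of_le_one_right (sq_nonneg _) ?_
    have : 0 ≤ bandErr θ * (s * (1 - s)) :=
      mul_nonneg (div_nonneg (by linarith) h1θ.le) (mul_nonneg hs.1 (by linarith [hs.2]))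
    linarith [hs.2]

variable {u : (Fin 2 → ℝ) → ℝ}

theorem grad_cut (hu : Adm u) (x : Fin 2 → ℝ) :
    grad (fun y => cut l g ε (u y)) x = bump l g ε (u x) * grad u x := by
  rw [grad_comp hasDerivAt_cut (hu.smooth.differentiable one_ne_zero x), abs_of_nonneg bump_nonneg]

/-- A band of levels below which both families of lines have a line. -/
theorem planar_band (hS : SobolevPlane) (hu : Adm u) {θ : ℝ} (hε : 0 < ε) (hθ : 0 < θ)
    (hθ' : θ < 1 / 2) (hg : g ≤ 1 - θ)
    (hlines : ∀ k, ∃ c, ∀ x : Fin 2 → ℝ, x k = c → u x < l) :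
    max 0 (g - l - 2 * ε) *
        (2 * Real.sqrt Real.pi * Real.sqrt (max 0 (mean u - bandErr θ * dfct u))) ≤
      ∫ x in box 2, bump l g ε (u x) * grad u x := by
  choose c hc using hlines
  set v := fun x => u (x + c) with hv
  have hvA : Adm v := hu.shift c
  obtain ⟨δ, hδ, hslab⟩ := exists_slab_all hvA.smooth.continuous hvA.per (l := l)
    fun k x hx => hc k (x + c) (by simp [hx])
  set w := fun x => cut l g ε (v x) with hw
  have hwC : ContDiff ℝ 1 w := contDiff_cut.comp hvA.smooth
  have hwnn : ∀ x, 0 ≤ w x := fun x => by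
    rcases le_total (v x) l with h | h
    · rw [hw]; simp only; rw [cut_left hε h]
    · have := monotone_cut (l := l) (g := g) (ε := ε) h
      rwa [cut_left hε le_rfl] at this
  obtain ⟨G, hG1, hG2, hG3, hG4, hG5⟩ := exists_ext hwC (hvA.per.comp_left _) hwnn hδ
    fun k x hx => cut_left hε (hslab k x hx).le
  have hsob := hS G hG1 hG2 hG3
  rw [hG4 (fun t => t ^ 2) (by norm_num), hG5] at hsob
  have henergy : ∫ x in box 2, grad w x = ∫ x in box 2, bump l g ε (u x) * grad u x := by
    have hgr : ∀ x, grad w x = bump l g ε (u (x + c)) * grad u (x + c) := fun x => by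
      rw [← grad_shift u c x]; exact grad_cut hvA x
    simp only [hgr]
    exact integral_box_add (f := fun x => bump l g ε (u x) * grad u x)
      ((continuous_bump.comp hu.smooth.continuous).mul (continuous_grad hu.smooth))
      (fun x i => by simp only [hu.periodic x i, hu.per.grad x i]) c
  rw [henergy] at hsob
  refine le_trans ?_ hsob
  have hsq : cut l g ε g ^ 2 * (mean u - bandErr θ * dfct u) ≤ ∫ x in box 2, w x ^ 2 := by
    rw [← mean_shift hu c, ← dfct_shift hu c, mean, dfct, ← integral_const_mul,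
      ← integral_sub, ← integral_const_mul]
    · exact setIntegral_box_mono (by have := hu.smooth.continuous; fun_prop) (hwC.continuous.pow 2)
        fun x _ => cut_sq_ge hε hθ hθ' hg (hvA.mem x)
    · exact integrableOn_box hvA.smooth.continuous
    · exact integrableOn_box (continuous_const.mul
        (hvA.smooth.continuous.mul (continuous_const.sub hvA.smooth.continuous)))
  calc max 0 (g - l - 2 * ε) *
        (2 * Real.sqrt Real.pi * Real.sqrt (max 0 (mean u - bandErr θ * dfct u)))
      ≤ cut l g ε g *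
        (2 * Real.sqrt Real.pi * Real.sqrt (max 0 (mean u - bandErr θ * dfct u))) :=
        mul_le_mul_of_nonneg_right (le_cut hε) (by positivity)
    _ = 2 * Real.sqrt Real.pi *
        Real.sqrt (cut l g ε g ^ 2 * max 0 (mean u - bandErr θ * dfct u)) := by
        rw [Real.sqrt_mul (sq_nonneg _), Real.sqrt_sq ((le_max_left _ _).trans (le_cut hε))]
        ring
    _ ≤ 2 * Real.sqrt Real.pi * Real.sqrt (∫ x in box 2, w x ^ 2) := by
        refine mul_le_mul_of_nonneg_left (Real.sqrt_le_sqrt ?_) (by positivity)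
        rw [mul_max_of_nonneg _ _ (sq_nonneg _), mul_zero]
        exact max_le (setIntegral_nonneg measurableSet_box fun x _ => sq_nonneg _) hsq

/-- A band of levels which every line of one family crosses. -/
theorem crossing_band (hu : Adm u) (hε : 0 < ε) (k : Fin 2)
    (hcross : l ≤ g → ∀ c, (∃ x : Fin 2 → ℝ, x k = c ∧ g ≤ u x) ∧
      ∃ x : Fin 2 → ℝ, x k = c ∧ u x ≤ l) :
    max 0 (g - l - 2 * ε) * 2 ≤ ∫ x in box 2, bump l g ε (u x) * grad u x := by
  have hcont : Continuous fun x => bump l g ε (u x) * grad u x :=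
    (continuous_bump.comp hu.smooth.continuous).mul (continuous_grad hu.smooth)
  rcases lt_or_ge g l with hgl | hgl
  · rw [max_eq_left (by linarith), zero_mul]
    exact setIntegral_nonneg measurableSet_box fun x _ => mul_nonneg bump_nonneg (grad_nonneg _ _)
  set i : Fin 2 := k.succAbove 0
  have hswap : ∀ c t : ℝ, k.insertNth (α := fun _ => ℝ) c (fun _ : Fin 1 => t) =
      i.insertNth (α := fun _ => ℝ) t (fun _ : Fin 1 => c) := by
    intro c t; funext j
    fin_cases k <;> fin_cases j <;> simp [i, Fin.insertNth, Fin.succAboveCases]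
  rw [integral_box_succ hcont k]
  set w := fun x => cut l g ε (u x) with hw
  have hwC : ContDiff ℝ 1 w := contDiff_cut.comp hu.smooth
  have key : ∀ c : ℝ, max 0 (g - l - 2 * ε) * 2 ≤
      ∫ y in box 1, bump l g ε (u (k.insertNth c y)) * grad u (k.insertNth c y) := by
    intro c
    rw [integral_box_one]
    simp only [hswap]
    obtain ⟨⟨x, hx, hxg⟩, y, hy, hyl⟩ := hcross hgl c
    have hrep : ∀ z : Fin 2 → ℝ, z k = c →
        z = i.insertNth (α := fun _ => ℝ) (z i) (fun _ : Fin 1 => c) := by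
      intro z hz; funext j
      fin_cases k <;> fin_cases j <;> simp_all [i, Fin.insertNth, Fin.succAboveCases]
    have hvar := periodic_variation
      (g := fun t => w (i.insertNth t fun _ : Fin 1 => c))
      (fun t => hasDerivAt_insertNth hwC i t _)
      ((continuous_pd hwC i).comp
        (continuous_id.finInsertNth (A := fun _ : Fin 2 => ℝ) i continuous_const))
      (fun t => (hu.per.comp_left (cut l g ε)).insertNth_add_one i t fun _ : Fin 1 => c) (x i) (y i)
    simp only [← hrep x hx, ← hrep y hy] at hvar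
    have hxw : w x = cut l g ε g := cut_right hε hxg
    rw [hxw, show w y = 0 from cut_left hε hyl, sub_zero,
      abs_of_nonneg ((le_max_left _ _).trans (le_cut hε))] at hvar
    refine le_trans ?_ (hvar.trans ?_)
    · linarith [le_cut (l := l) (g := g) hε]
    refine intervalIntegral.integral_mono_on zero_le_one ?_ ?_ fun t _ => ?_
    · exact (((continuous_pd hwC i).comp
        (continuous_id.finInsertNth (A := fun _ : Fin 2 => ℝ) i continuous_const)).abs).intervalIntegrable _ _
    · exact (hcont.comp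
        (continuous_id.finInsertNth (A := fun _ : Fin 2 => ℝ) i continuous_const)).intervalIntegrable _ _
    · exact (abs_pd_le_grad _ _ _).trans_eq (grad_cut hu _)
  refine le_trans (le_of_eq ?_) (intervalIntegral.integral_mono_on zero_le_one
    intervalIntegrable_const ((continuous_sliceInt hcont k).intervalIntegrable _ _)
    fun c _ => key c)
  simp

/-- The levels above which a line of the family `k` lies. -/
def ceilSet (u : (Fin 2 → ℝ) → ℝ) (θ : ℝ) (k : Fin 2) : Set ℝ :=
  {s | s ∈ Icc θ (1 - θ) ∧ (s = 1 - θ ∨ ∃ c, ∀ x, x k = c → u x < s)}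

/-- The levels below which a line of the family `k` lies. -/
def floorSet (u : (Fin 2 → ℝ) → ℝ) (θ : ℝ) (k : Fin 2) : Set ℝ :=
  {s | s ∈ Icc θ (1 - θ) ∧ (s = θ ∨ ∃ c, ∀ x, x k = c → s < u x)}

/-- The least level above some line. -/
def upper (u : (Fin 2 → ℝ) → ℝ) (θ : ℝ) (k : Fin 2) : ℝ := sInf (ceilSet u θ k)

/-- The greatest level below some line. -/
def lower (u : (Fin 2 → ℝ) → ℝ) (θ : ℝ) (k : Fin 2) : ℝ := sSup (floorSet u θ k)

variable {θ : ℝ}

theorem upper_mem (hθ' : θ ≤ 1 / 2) (k : Fin 2) : upper u θ k ∈ Icc θ (1 - θ) :=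
  have h1 : (1 - θ) ∈ ceilSet u θ k := ⟨⟨by linarith, le_rfl⟩, Or.inl rfl⟩
  ⟨le_csInf ⟨_, h1⟩ fun _ h => h.1.1, csInf_le ⟨θ, fun _ h => h.1.1⟩ h1⟩

theorem lower_mem (hθ' : θ ≤ 1 / 2) (k : Fin 2) : lower u θ k ∈ Icc θ (1 - θ) :=
  have h1 : θ ∈ floorSet u θ k := ⟨⟨le_rfl, by linarith⟩, Or.inl rfl⟩
  ⟨le_csSup ⟨1 - θ, fun _ h => h.1.2⟩ h1, csSup_le ⟨_, h1⟩ fun _ h => h.1.2⟩

theorem exists_ge_of_lt_upper (hθ' : θ ≤ 1 / 2) {k : Fin 2} (h1 : θ ≤ g) (h2 : g < upper u θ k)
    (c : ℝ) : ∃ x : Fin 2 → ℝ, x k = c ∧ g ≤ u x := by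
  by_contra hcon
  push Not at hcon
  have : g ∈ ceilSet u θ k :=
    ⟨⟨h1, h2.le.trans (upper_mem hθ' k).2⟩, Or.inr ⟨c, fun x hx => hcon x hx⟩⟩
  exact h2.not_ge (csInf_le ⟨θ, fun _ h => h.1.1⟩ this)

theorem exists_le_of_lower_lt (hθ' : θ ≤ 1 / 2) {k : Fin 2} (h1 : l ≤ 1 - θ)
    (h2 : lower u θ k < l) (c : ℝ) : ∃ x : Fin 2 → ℝ, x k = c ∧ u x ≤ l := by
  by_contra hcon
  push Not at hcon
  have : l ∈ floorSet u θ k :=
    ⟨⟨(lower_mem hθ' k).1.trans h2.le, h1⟩, Or.inr ⟨c, fun x hx => hcon x hx⟩⟩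
  exact h2.not_ge (le_csSup ⟨1 - θ, fun _ h => h.1.2⟩ this)

theorem line_above_upper (hθ' : θ ≤ 1 / 2) {k : Fin 2} (h1 : upper u θ k < l)
    (h2 : l ≤ 1 - θ) : ∃ c, ∀ x : Fin 2 → ℝ, x k = c → u x < l := by
  obtain ⟨s, ⟨hs, hor⟩, hsl⟩ :=
    exists_lt_of_csInf_lt (s := ceilSet u θ k) ⟨_, ⟨⟨by linarith, le_rfl⟩, Or.inl rfl⟩⟩ h1
  rcases hor with rfl | ⟨c, hc⟩
  · linarith
  · exact ⟨c, fun x hx => (hc x hx).trans hsl⟩

theorem line_below_lower (hθ' : θ ≤ 1 / 2) {k : Fin 2} (h1 : g < lower u θ k)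
    (h2 : θ ≤ g) : ∃ c, ∀ x : Fin 2 → ℝ, x k = c → g < u x := by
  obtain ⟨s, ⟨hs, hor⟩, hsl⟩ :=
    exists_lt_of_lt_csSup (s := floorSet u θ k) ⟨_, ⟨⟨le_rfl, by linarith⟩, Or.inl rfl⟩⟩ h1
  rcases hor with rfl | ⟨c, hc⟩
  · linarith
  · exact ⟨c, fun x hx => hsl.trans (hc x hx)⟩

theorem lower_le_upper (hθ' : θ ≤ 1 / 2) {k k' : Fin 2} (hk : k ≠ k') :
    lower u θ k ≤ upper u θ k' := by
  refine csSup_le ⟨θ, ⟨⟨le_rfl, by linarith⟩, Or.inl rfl⟩⟩ fun s hs => ?_
  refine le_csInf ⟨_, ⟨⟨by linarith, le_rfl⟩, Or.inl rfl⟩⟩ fun t ht => ?_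
  rcases hs.2 with rfl | ⟨c, hc⟩
  · exact ht.1.1
  rcases ht.2 with rfl | ⟨c', hc'⟩
  · exact hs.1.2
  exact ((hc (Function.update (fun _ => c') k c) (by simp)).trans
    (hc' _ (by simp [Function.update_of_ne hk.symm]))).le

theorem bump_sum_le (hε : 0 < ε) {a b c d e : ℝ} (hbc : b ≤ c) (hcd : c ≤ d) (t : ℝ) :
    bump a (b - ε) ε t + bump (b + ε) (c - ε) ε t + bump (c + ε) (d - ε) ε t +
      bump (d + ε) e ε t ≤ 1 := by
  rcases le_total t b with h1 | h1
  · rw [bump_left hε (show t ≤ b + ε by linarith), bump_left hε (show t ≤ c + ε by linarith),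
      bump_left hε (show t ≤ d + ε by linarith)]
    linarith [bump_le_one (l := a) (g := b - ε) (ε := ε) (s := t)]
  rw [bump_right hε (show b - ε ≤ t by linarith)]
  rcases le_total t c with h2 | h2
  · rw [bump_left hε (show t ≤ c + ε by linarith), bump_left hε (show t ≤ d + ε by linarith)]
    linarith [bump_le_one (l := b + ε) (g := c - ε) (ε := ε) (s := t)]
  rw [bump_right hε (show c - ε ≤ t by linarith)]
  rcases le_total t d with h3 | h3
  · rw [bump_left hε (show t ≤ d + ε by linarith)]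
    linarith [bump_le_one (l := c + ε) (g := d - ε) (ε := ε) (s := t)]
  rw [bump_right hε (show d - ε ≤ t by linarith)]
  linarith [bump_le_one (l := d + ε) (g := e) (ε := ε) (s := t)]

theorem prof_le_two (a : ℝ) : prof a ≤ 2 := by
  unfold prof
  have : min (min (Real.sqrt (Real.pi * a)) 1) (Real.sqrt (Real.pi * (1 - a))) ≤ 1 :=
    (min_le_left _ _).trans (min_le_right _ _)
  linarith

theorem energy_ge_levels (hS : SobolevPlane) (hu : Adm u) (hθ : 0 < θ) (hθ' : θ < 1 / 2)
    (hε : 0 < ε) {P : ℝ} (hP : 0 ≤ P) (hP2 : P ≤ 2)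
    (hPl : P ≤ 2 * Real.sqrt Real.pi * Real.sqrt (max 0 (mean u - bandErr θ * dfct u)))
    (hPr : P ≤ 2 * Real.sqrt Real.pi *
      Real.sqrt (max 0 ((1 - mean u) - bandErr θ * dfct u))) :
    ((1 - 2 * θ) - 14 * ε) * P ≤ energy u := by
  obtain ⟨i, j, hij, hle⟩ : ∃ i j : Fin 2, i ≠ j ∧ lower u θ i ≤ lower u θ j := by
    rcases le_total (lower u θ 0) (lower u θ 1) with h | h
    · exact ⟨0, 1, by decide, h⟩
    · exact ⟨1, 0, by decide, h⟩
  have hfin : ∀ k : Fin 2, k = i ∨ k = j := by omega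
  have hθ'' : θ ≤ 1 / 2 := hθ'.le
  set b := lower u θ i with hb
  set c := upper u θ i with hc
  set d := max (upper u θ i) (upper u θ j) with hd
  have hab : θ ≤ b := (lower_mem hθ'' i).1
  have hbc : b ≤ c := hle.trans (lower_le_upper hθ'' hij.symm)
  have hcd : c ≤ d := le_max_left _ _
  have hde : d ≤ 1 - θ := max_le (upper_mem hθ'' i).2 (upper_mem hθ'' j).2
  have hint : ∀ l g : ℝ, IntegrableOn (fun x => bump l g ε (u x) * grad u x) (box 2) := fun l g =>
    integrableOn_box ((continuous_bump.comp hu.smooth.continuous).mul (continuous_grad hu.smooth))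
  have hnn : ∀ l g : ℝ, 0 ≤ ∫ x in box 2, bump l g ε (u x) * grad u x := fun l g =>
    setIntegral_nonneg measurableSet_box fun x _ => mul_nonneg bump_nonneg (grad_nonneg _ _)
  have hlen : ∀ {l g K : ℝ}, P ≤ K →
      max 0 (g - l - 2 * ε) * K ≤ ∫ x in box 2, bump l g ε (u x) * grad u x →
      (g - l - 2 * ε) * P ≤ ∫ x in box 2, bump l g ε (u x) * grad u x := fun hK h =>
    le_trans ((mul_le_mul_of_nonneg_right (le_max_right 0 _) hP).trans
      (mul_le_mul_of_nonneg_left hK (le_max_left _ _))) h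
  -- below both families of lines
  have h1 : ((b - ε) - θ - 2 * ε) * P ≤ ∫ x in box 2, bump θ (b - ε) ε (u x) * grad u x := by
    rcases lt_or_ge (b - ε) θ with hlt | hge
    · exact le_trans (mul_nonpos_of_nonpos_of_nonneg (by linarith) hP) (hnn _ _)
    refine hlen hPr ?_
    have hlines : ∀ k, ∃ a, ∀ x : Fin 2 → ℝ, x k = a → 1 - u x < 1 - (b - ε) := by
      intro k
      have : b ≤ lower u θ k := by rcases hfin k with rfl | rfl; exacts [le_rfl, hle]
      obtain ⟨a, ha⟩ := line_below_lower hθ'' (g := b - ε) (k := k) (by linarith) hge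
      exact ⟨a, fun x hx => by linarith [ha x hx]⟩
    have := planar_band hS hu.one_sub (g := 1 - θ) (l := 1 - (b - ε)) (ε := ε) hε hθ hθ' le_rfl
      hlines
    rw [mean_one_sub hu, dfct_one_sub, show 1 - θ - (1 - (b - ε)) = b - ε - θ by ring] at this
    simpa [bump_symm, pd_one_sub hu.smooth] using this
  -- crossed by the first family
  have h2 : ((c - ε) - (b + ε) - 2 * ε) * P ≤
      ∫ x in box 2, bump (b + ε) (c - ε) ε (u x) * grad u x := by
    refine hlen hP2 (crossing_band hu hε i fun hlg a => ⟨?_, ?_⟩)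
    · exact exists_ge_of_lt_upper hθ'' (by linarith) (by linarith [hc]) a
    · exact exists_le_of_lower_lt hθ'' (by linarith [(upper_mem (u := u) hθ'' i).2]) (by linarith) a
  -- crossed by the second family
  have h3 : ((d - ε) - (c + ε) - 2 * ε) * P ≤
      ∫ x in box 2, bump (c + ε) (d - ε) ε (u x) * grad u x := by
    refine hlen hP2 (crossing_band hu hε j fun hlg a => ⟨?_, ?_⟩)
    · refine exists_ge_of_lt_upper hθ'' (by linarith) ?_ a
      rcases max_choice (upper u θ i) (upper u θ j) with h | h <;> rw [← hd] at h <;> linarith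
    · exact exists_le_of_lower_lt hθ'' (by linarith)
        (by linarith [lower_le_upper (u := u) hθ'' hij.symm]) a
  -- above both families of lines
  have h4 : ((1 - θ) - (d + ε) - 2 * ε) * P ≤
      ∫ x in box 2, bump (d + ε) (1 - θ) ε (u x) * grad u x := by
    rcases lt_or_ge (1 - θ) (d + ε) with hlt | hge
    · exact le_trans (mul_nonpos_of_nonpos_of_nonneg (by linarith) hP) (hnn _ _)
    refine hlen hPl (planar_band hS hu hε hθ hθ' le_rfl fun k => ?_)
    refine line_above_upper hθ'' ?_ hge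
    have : upper u θ k ≤ d := by
      rcases hfin k with rfl | rfl; exacts [le_max_left _ _, le_max_right _ _]
    linarith
  have hsum : (∫ x in box 2, bump θ (b - ε) ε (u x) * grad u x) +
      (∫ x in box 2, bump (b + ε) (c - ε) ε (u x) * grad u x) +
      (∫ x in box 2, bump (c + ε) (d - ε) ε (u x) * grad u x) +
      (∫ x in box 2, bump (d + ε) (1 - θ) ε (u x) * grad u x) ≤ energy u := by
    rw [← integral_add (hint _ _) (hint _ _)]
    have h12 := (hint θ (b - ε)).add (hint (b + ε) (c - ε))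
    erw [← integral_add h12 (hint _ _), ← integral_add (h12.add (hint _ _)) (hint _ _)]
    refine setIntegral_mono_on ((h12.add (hint _ _)).add (hint _ _))
      (integrableOn_box (continuous_grad hu.smooth)) measurableSet_box fun x _ => ?_
    simp only [Pi.add_apply, ← add_mul]
    exact mul_le_of_le_one_left (grad_nonneg _ _) (bump_sum_le hε hbc hcd _)
  linarith

theorem prof_le_left (a : ℝ) : prof a ≤ 2 * Real.sqrt Real.pi * Real.sqrt a := by
  unfold prof
  rw [mul_assoc, ← Real.sqrt_mul Real.pi_pos.le]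
  exact mul_le_mul_of_nonneg_left ((min_le_left _ _).trans (min_le_left _ _)) zero_le_two

theorem prof_le_right (a : ℝ) : prof a ≤ 2 * Real.sqrt Real.pi * Real.sqrt (1 - a) := by
  unfold prof
  rw [mul_assoc, ← Real.sqrt_mul Real.pi_pos.le]
  exact mul_le_mul_of_nonneg_left (min_le_right _ _) zero_le_two

theorem energy_ge (hS : SobolevPlane) (hu : Adm u) (hθ : 0 < θ) (hD : dfct u ≤ θ ^ 3) :
    prof (mean u) - 10 * θ ≤ energy u := by
  have hE := energy_nonneg u
  have h2 := prof_le_two (mean u)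
  rcases le_or_gt (1 / 5) θ with hbig | hsmall
  · linarith
  set K := 2 * Real.sqrt Real.pi
  have hK : 0 ≤ K ∧ K ≤ 18 / 5 := by
    refine ⟨by positivity, ?_⟩
    have : Real.sqrt Real.pi ≤ 9 / 5 := by
      rw [Real.sqrt_le_left (by norm_num)]; linarith [Real.pi_lt_d2]
    simp only [K]; linarith
  set e := bandErr θ * dfct u with he
  have he2 : e ≤ (13 / 10 * θ) ^ 2 := by
    rw [he, bandErr, div_mul_eq_mul_div, div_le_iff₀ (by nlinarith)]
    nlinarith [mul_le_mul_of_nonneg_left hD (by linarith : (0 : ℝ) ≤ 1 + θ), pow_pos hθ 3]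
  have hsq : Real.sqrt e ≤ 13 / 10 * θ := by
    rw [Real.sqrt_le_left (by positivity)]; exact he2
  have he0 : 0 ≤ e := mul_nonneg (div_nonneg (by linarith) (by nlinarith)) (dfct_nonneg hu)
  set P := prof (mean u) - K * Real.sqrt e with hP
  have hKe : K * Real.sqrt e ≤ 18 / 5 * (13 / 10 * θ) :=
    mul_le_mul hK.2 hsq (Real.sqrt_nonneg _) (by norm_num)
  rcases lt_or_ge P 0 with hneg | hnn
  · nlinarith
  have hroot : ∀ b : ℝ, prof (mean u) ≤ K * Real.sqrt b →
      P ≤ K * Real.sqrt (max 0 (b - e)) := by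
    intro b hb
    have : Real.sqrt b ≤ Real.sqrt (max 0 (b - e)) + Real.sqrt e := by
      refine (Real.sqrt_le_left (by positivity)).2 ?_
      nlinarith [Real.sq_sqrt (le_max_left 0 (b - e)), Real.sq_sqrt he0,
        le_max_right 0 (b - e), Real.sqrt_nonneg e, Real.sqrt_nonneg (max 0 (b - e))]
    nlinarith [hK.1]
  have hP2 : P ≤ 2 := by nlinarith [hK.1, Real.sqrt_nonneg e]
  have hlim : (1 - 2 * θ) * P ≤ energy u := by
    refine le_of_forall_pos_le_add fun η hη => ?_
    have := energy_ge_levels hS hu hθ (by linarith) (ε := η / 28) (by linarith) hnn hP2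
      (hroot _ (prof_le_left _)) (hroot _ (prof_le_right _))
    nlinarith
  nlinarith

theorem profileSquare (hS : SobolevPlane) : ProfileSquare := by
  intro u hu
  have hD := dfct_nonneg hu
  refine le_of_forall_pos_le_add fun η hη => ?_
  have h0 : 0 ≤ dfct u ^ (1 / 3 : ℝ) := Real.rpow_nonneg hD _
  have hθ : 0 < dfct u ^ (1 / 3 : ℝ) + η / 10 := by positivity
  have := energy_ge hS hu hθ (by
    refine le_trans (le_of_eq ?_) (pow_le_pow_left₀ h0 (le_add_of_nonneg_right (by positivity)) 3)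
    rw [← Real.rpow_natCast, ← Real.rpow_mul hD]; norm_num)
  unfold err
  linarith

end Vale.Agent.P232.Square
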