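import Vale.Agent.P232.Axis

/-!
# P232: an axis without a cut gives the bound of a row
-/

noncomputable section

open MeasureTheory Filter Topology Set

namespace Vale.Agent.P232

open Axis

/-- The calibration is only used at the least (raised to the thin height) and the largest area. -/
theorem rowBound_at (hSl : Slicing) (hEx : Excursion) {r : Row} (hr : r.Good)
    {u : (Fin 3 → ℝ) → ℝ} (hu : Adm u) (i : Fin 3) (hnc : ¬ CanCut (area u i) r.β r.η)
    (hv0 : r.v0 ≤ mean u) (hv1 : mean u ≤ r.v1) {X : ℝ}
    (hX : ∀ zm zM, (∀ z, area u i zm ≤ area u i z ∧ area u i z ≤ area u i zM) →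
      ∃ C N, r.p ≤ C ∧ C ≤ max r.p (area u i zm) ∧ area u i zM ≤ N ∧ N ≤ 1 ∧
        X + (if max r.p (area u i zm) = r.p then 2 * r.T * r.ℓ else 0) ≤ chord C N (mean u) +
          2 * ∫ a in max r.p (area u i zm)..area u i zM, weight C N a) :
    X - err (dfct u) ≤ energy u := by
  obtain ⟨hder, hsl, hper, hmem, hint, -⟩ := hSl u hu i
  set a := area u i with ha
  set v := mean u with hv
  have hac : Continuous a := continuous_area hSl hu i
  obtain ⟨zm, zM, hz⟩ := exists_extrema hac hper
  set c := a zm with hc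
  set M := a zM with hM
  have hcv : c ≤ v := le_integral_of_slice hac hint fun z => (hz z).1
  have hvM : v ≤ M := integral_le_of_slice hac hint fun z => (hz z).2
  set c1 := max r.p c with hc1
  have hpv : r.p < v := hr.p_lt.trans_le hv0
  have hc1v : c1 ≤ v := max_le hpv.le hcv
  have hp0 := hr.p_pos
  obtain ⟨C, N, hpC, hC1, hMN, hN1, hscal⟩ := hX zm zM hz
  simp only [← hc, ← hc1, ← hM] at hC1 hMN hscal
  have hC0 : 0 < C := hp0.trans_le hpC
  have hCv : C ≤ v := hC1.trans hc1v
  have hCN : C ≤ N := hCv.trans (hvM.trans hMN)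
  have hP : 0 < prof C := prof_pos hC0 (by linarith [hr.v1_le])
  have hl : 0 ≤ r.ℓ := by
    by_contra hneg
    have := mul_neg_of_neg_of_pos (not_le.1 hneg) (sub_pos.2 hr.p_lt)
    nlinarith [hr.ell, prof_nonneg r.p, hr.p_lt]
  have hη : c ≤ r.p → max r.v0 r.η ≤ M := by
    intro hcp
    refine max_le (hv0.trans hvM) ?_
    have h := (hEx a (slope u i) (fun _ => 0) r.β r.η r.p r.k r.T 0 hder hsl hper hmem
      continuous_const (fun _ => ⟨le_rfl, zero_le_one⟩) (fun _ _ => rfl) hp0 hr.p_eta
      (hr.eta_le.trans (by norm_num)) hr.beta_nonneg hr.k_lt hr.beta_eta hr.eta_time hr.T_pos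
      hr.p_time le_rfl (by simp) ⟨zm, hcp⟩ hnc zM).1
    rwa [sSup_range_eq fun z => (hz z).2] at h
  refine le_of_forall_pos_le_add fun ε hε => ?_
  obtain ⟨e, he0, heε, hegap⟩ : ∃ e : ℝ, 0 < e ∧ e ≤ ε / 4 ∧
      (c ≤ r.p → r.ℓ * r.T + e ≤ ∫ x in r.p..r.η, weight r.p N x) := by
    by_cases hcp : c ≤ r.p
    · have hgap := hr.excursion N ((hη hcp).trans hMN) hN1
      exact ⟨min (ε / 4) ((∫ x in r.p..r.η, weight r.p N x) - r.ℓ * r.T),
        lt_min (by positivity) (sub_pos.2 hgap), min_le_left _ _,
        fun _ => by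
          linarith [min_le_right (ε / 4) ((∫ x in r.p..r.η, weight r.p N x) - r.ℓ * r.T)]⟩
    · exact ⟨ε / 4, by positivity, le_rfl, fun h => absurd h hcp⟩
  set d := min e (prof C * e ^ 2 / 2) with hd
  have hd0 : 0 < d := lt_min he0 (by positivity)
  have hde : 2 * d ≤ prof C * e ^ 2 := by
    linarith [min_le_right e (prof C * e ^ 2 / 2)]
  set S := calS C N d with hS
  set t := calT C N d with ht
  have hSc : Continuous S := continuous_calS hd0
  have htc : Continuous t := continuous_calT hd0
  have htp := calT_le hC0.le hN1 hCN hd0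
  have hslice := slice_bound hSl hu i (hSc.comp hac) (htc.comp hac)
    (fun z => (calS_mem hC0.le hN1 hCN hd0 _).1) (fun z => (htp _).1) fun z => (htp _).2.2
  simp only [Function.comp_apply] at hslice
  have i1 : IntervalIntegrable (fun z => S (a z) * prof (a z)) volume 0 1 :=
    ((hSc.comp hac).mul (continuous_prof.comp hac)).intervalIntegrable _ _
  have i2 : IntervalIntegrable (fun z => t (a z) * |slope u i z|) volume 0 1 :=
    ((htc.comp hac).mul hsl.abs).intervalIntegrable _ _
  rw [intervalIntegral.integral_add i1 i2] at hslice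
  -- the part along the slices
  have hlow : ∀ z, chord C N (a z) - d -
      r.ℓ * {y | a y ≤ r.p}.indicator (fun _ => (1 : ℝ)) z ≤ S (a z) * prof (a z) := by
    intro z
    have hSnn : 0 ≤ S (a z) * prof (a z) :=
      mul_nonneg (calS_mem hC0.le hN1 hCN hd0 _).1 (prof_nonneg _)
    by_cases hzp : a z ≤ r.p
    · rw [indicator_of_mem (show z ∈ {y | a y ≤ r.p} from hzp)]
      have hCp : C = r.p :=
        le_antisymm (hC1.trans (max_eq_left ((hz z).1.trans hzp)).le) hpC
      have hMp : 0 < N - r.p := by linarith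
      have hch : chord C N (a z) ≤ r.ℓ := by
        have h2 : prof r.p * N / (N - r.p) ≤ r.ℓ := by
          rw [div_le_iff₀ hMp]
          have hv0p := sub_pos.2 hr.p_lt
          have h1 := mul_le_mul_of_nonneg_right hr.ell hMp.le
          nlinarith [mul_le_mul_of_nonneg_left (hv0.trans (hvM.trans hMN))
            (mul_nonneg (prof_nonneg r.p) hp0.le)]
        have hl0 : 0 ≤ (r.p - a z) / (N - r.p) := div_nonneg (by linarith) hMp.le
        have hl1 : (r.p - a z) / (N - r.p) ≤ r.p / (N - r.p) :=
          div_le_div_of_nonneg_right (by linarith [(hmem z).1]) hMp.le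
        have he : chord C N (a z) =
            prof r.p + (prof r.p - prof N) * ((r.p - a z) / (N - r.p)) := by
          rw [hCp, chord]; field_simp; ring
        have h3 : prof r.p * N / (N - r.p) = prof r.p + prof r.p * (r.p / (N - r.p)) := by
          field_simp; ring
        rw [he]
        nlinarith [mul_nonneg (prof_nonneg N) hl0, mul_le_mul_of_nonneg_left hl1 (prof_nonneg r.p)]
      linarith
    · rw [indicator_of_notMem (show z ∉ {y | a y ≤ r.p} from hzp)]
      have h1 : C ≤ a z := hC1.trans (max_le (le_of_not_ge hzp) (hz z).1)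
      linarith [chord_sub_le hC0.le hN1 hd0 h1 ((hz z).2.trans hMN)]
  have hint1 : chord C N v - d - r.ℓ * volume.real (Ico (0 : ℝ) 1 ∩ {y | a y ≤ r.p}) ≤
      ∫ z in (0 : ℝ)..1, S (a z) * prof (a z) := by
    have ic : IntervalIntegrable (fun z => chord C N (a z)) volume 0 1 :=
      ((continuous_chord C N).comp hac).intervalIntegrable _ _
    have il := (intervalIntegrable_low hac r.p).const_mul r.ℓ
    refine le_trans (le_of_eq ?_) (intervalIntegral.integral_mono_on zero_le_one
      ((ic.sub intervalIntegrable_const).sub il) i1 fun z _ => hlow z)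
    rw [intervalIntegral.integral_sub (ic.sub intervalIntegrable_const) il,
      intervalIntegral.integral_sub ic intervalIntegrable_const, integral_chord hac hint,
      intervalIntegral.integral_const_mul, integral_indicator_low hac]
    simp
  -- the part across the slices
  have hwt : ∀ {x y : ℝ}, C ≤ x → x ≤ y → y ≤ N →
      (∫ w in x..y, weight C N w) - e ≤ ∫ w in x..y, t w := by
    intro x y hx hxy hy
    have hle : y - x ≤ 1 := by linarith
    have h := intervalIntegral.integral_mono_on hxy
      ((intervalIntegrable_weight C N x y).sub intervalIntegrable_const)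
      (htc.intervalIntegrable _ _)
      fun w hw => weight_sub_le hC0.le hN1 hP hd0 he0.le hde (hx.trans hw.1) (hw.2.trans hy)
    rw [intervalIntegral.integral_sub (intervalIntegrable_weight C N x y) intervalIntegrable_const,
      intervalIntegral.integral_const, smul_eq_mul] at h
    nlinarith
  have hde' : d ≤ e := min_le_left _ _
  by_cases hcp : c ≤ r.p
  · have hc1p : c1 = r.p := max_eq_left hcp
    have hCp : C = r.p := le_antisymm (hC1.trans hc1p.le) hpC
    rw [hCp, hc1p, if_pos rfl] at hscal
    have hη' := max_le_iff.1 (hη hcp)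
    have hex := (hEx a (slope u i) t r.β r.η r.p r.k r.T r.ℓ hder hsl hper hmem htc
      (fun x => ⟨(htp x).1, (htp x).2.1⟩) (fun x hx => calT_of_le hCN (hx.trans hpC)) hp0
      hr.p_eta (hr.eta_le.trans (by norm_num)) hr.beta_nonneg hr.k_lt hr.beta_eta hr.eta_time
      hr.T_pos hr.p_time hl (by
        have := hwt (x := r.p) (y := r.η) hCp.le hr.p_eta.le (hη'.2.trans hMN)
        have := hegap hcp
        rw [hCp] at *
        linarith) ⟨zm, hcp⟩ hnc zM).2
    have h2 := hwt (x := r.p) (y := M) hCp.le (by linarith) hMN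
    rw [hCp] at h2 hint1
    linarith
  · have hc1c : c1 = c := max_eq_right (le_of_not_ge hcp)
    rw [hc1c, if_neg (ne_of_gt (not_le.1 hcp))] at hscal
    have hvol : volume.real (Ico (0 : ℝ) 1 ∩ {y | a y ≤ r.p}) = 0 := by
      have : Ico (0 : ℝ) 1 ∩ {y | a y ≤ r.p} = ∅ :=
        eq_empty_iff_forall_notMem.2 fun y hy => hcp ((hz y).1.trans hy.2)
      rw [this, measureReal_empty]
    have hvar := weighted_variation hder hsl hper htc (fun x => (htp x).1) zm zM
    rw [← hc, ← hM] at hvar
    have h2 := hwt (x := c) (y := M) (hC1.trans hc1c.le) (hcv.trans hvM) hMN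
    rw [hvol, mul_zero] at hint1
    linarith

theorem rowBound (hSl : Slicing) (hEx : Excursion) : RowBound := by
  intro r hr u hu i hnc hv0 hv1
  have hac : Continuous (area u i) := continuous_area hSl hu i
  obtain ⟨-, -, -, hmem, hint, -⟩ := hSl u hu i
  exact rowBound_at hSl hEx hr hu i hnc hv0 hv1 fun zm zM hz => hr.scalar _ _ _ (le_max_left _ _)
    (max_le (hr.p_lt.trans_le hv0).le (le_integral_of_slice hac hint fun z => (hz z).1))
    (integral_le_of_slice hac hint fun z => (hz z).2) (hmem zM).2 hv0 hv1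

end Vale.Agent.P232
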