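import Vale.Agent.P232.Defs

/-!
# P232: internal notions and the statements proved in the component files
-/

noncomputable section

open MeasureTheory Filter Topology Set

namespace Vale.Agent.P232

variable {n : ℕ}

/-- The partial derivative along a coordinate. -/
def pd (u : (Fin n → ℝ) → ℝ) (k : Fin n) (x : Fin n → ℝ) : ℝ := fderiv ℝ u x (Pi.single k 1)

/-- The Euclidean length of the gradient. -/
def grad (u : (Fin n → ℝ) → ℝ) (x : Fin n → ℝ) : ℝ := Real.sqrt (∑ k, pd u k x ^ 2)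

/-- The unit box. -/
def box (n : ℕ) : Set (Fin n → ℝ) := {x | ∀ i, x i ∈ Ico (0 : ℝ) 1}

/-- Periodic `C¹` functions with values in `[0, 1]`. -/
structure Adm (u : (Fin n → ℝ) → ℝ) : Prop where
  smooth : ContDiff ℝ 1 u
  periodic : ∀ x i, u (x + Pi.single i 1) = u x
  mem : ∀ x, u x ∈ Icc (0 : ℝ) 1

/-- The mean over the box. -/
def mean (u : (Fin n → ℝ) → ℝ) : ℝ := ∫ x in box n, u x

/-- The distance from being an indicator. -/
def dfct (u : (Fin n → ℝ) → ℝ) : ℝ := ∫ x in box n, u x * (1 - u x)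

/-- The total variation over the box. -/
def energy (u : (Fin n → ℝ) → ℝ) : ℝ := ∫ x in box n, grad u x

/-- The profile of the square torus. -/
def prof (a : ℝ) : ℝ :=
  2 * min (min (Real.sqrt (Real.pi * a)) 1) (Real.sqrt (Real.pi * (1 - a)))

/-- The error term of the profile inequality. -/
def err (e : ℝ) : ℝ := 10 * e ^ (1 / 3 : ℝ)

/-- The sharp Sobolev inequality in the plane. -/
def SobolevPlane : Prop :=
  ∀ w : (Fin 2 → ℝ) → ℝ, ContDiff ℝ 1 w → HasCompactSupport w → (∀ x, 0 ≤ w x) →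
    2 * Real.sqrt Real.pi * Real.sqrt (∫ x, w x ^ 2) ≤ ∫ x, grad w x

/-- The sharp Sobolev inequality in space. -/
def SobolevSpace : Prop :=
  ∀ w : (Fin 3 → ℝ) → ℝ, ContDiff ℝ 1 w → HasCompactSupport w → (∀ x, 0 ≤ w x) →
    (36 * Real.pi) ^ (1 / 3 : ℝ) * (∫ x, w x ^ (3 / 2 : ℝ)) ^ (2 / 3 : ℝ) ≤ ∫ x, grad w x

/-- The isoperimetric profile of the square torus, for nearly two-valued functions. -/
def ProfileSquare : Prop :=
  ∀ u : (Fin 2 → ℝ) → ℝ, Adm u → prof (mean u) - err (dfct u) ≤ energy u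

/-- The slice orthogonal to the axis `i` at height `z`. -/
def slice (u : (Fin 3 → ℝ) → ℝ) (i : Fin 3) (z : ℝ) : (Fin 2 → ℝ) → ℝ :=
  fun y => u (i.insertNth z y)

/-- The area of a slice. -/
def area (u : (Fin 3 → ℝ) → ℝ) (i : Fin 3) (z : ℝ) : ℝ := mean (slice u i z)

/-- The derivative of the area of a slice. -/
def slope (u : (Fin 3 → ℝ) → ℝ) (i : Fin 3) (z : ℝ) : ℝ :=
  ∫ y in box 2, pd u i (i.insertNth z y)

/-- The facts about slices. -/
def Slicing : Prop :=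
  ∀ u : (Fin 3 → ℝ) → ℝ, Adm u → ∀ i : Fin 3,
    (∀ z, HasDerivAt (area u i) (slope u i z) z) ∧ Continuous (slope u i) ∧
    (∀ z, area u i (z + 1) = area u i z) ∧ (∀ z, area u i z ∈ Icc (0 : ℝ) 1) ∧
    (∫ z in (0 : ℝ)..1, area u i z = mean u) ∧
    ∀ ψ s t : ℝ → ℝ, Continuous ψ → Continuous s → Continuous t →
      (∀ z, ψ z ∈ Icc (0 : ℝ) 1) → (∀ z, 0 ≤ s z) → (∀ z, 0 ≤ t z) →
      (∀ z, s z ^ 2 + t z ^ 2 ≤ 1) →
      ∫ z in (0 : ℝ)..1, ψ z * (s z * prof (area u i z) + t z * |slope u i z|) ≤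
        (∫ x in box 3, ψ (x i) * grad u x) + err (dfct u)

/-- The gain rate of a tail cut. -/
def cutRate (β a : ℝ) : ℝ := 2 * Real.sqrt (Real.pi * a) - β * a

/-- A cut is possible to the right of `z₀`. -/
def RightCut (a : ℝ → ℝ) (β η z₀ : ℝ) : Prop :=
  ∃ z, z₀ < z ∧ z < z₀ + 1 / 2 ∧ (∀ y ∈ Icc z₀ z, a y ≤ η) ∧
    a z ≤ ∫ y in z₀..z, cutRate β (a y)

/-- A cut is possible to the left of `z₀`. -/
def LeftCut (a : ℝ → ℝ) (β η z₀ : ℝ) : Prop :=
  ∃ z, z₀ - 1 / 2 < z ∧ z < z₀ ∧ (∀ y ∈ Icc z z₀, a y ≤ η) ∧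
    a z ≤ ∫ y in z..z₀, cutRate β (a y)

/-- A thin tail can be cut off. -/
def CanCut (a : ℝ → ℝ) (β η : ℝ) : Prop := ∃ z₀, RightCut a β η z₀ ∧ LeftCut a β η z₀

/-- The axis `i` has an empty slab. -/
def HasGap (u : (Fin 3 → ℝ) → ℝ) (i : Fin 3) : Prop :=
  ∃ a b : ℝ, a < b ∧ ∀ x : Fin 3 → ℝ, x i ∈ Ioo a b → u x = 0

/-- Cutting a tail. -/
def CutStep : Prop :=
  ∀ u : (Fin 3 → ℝ) → ℝ, Adm u → ∀ (i : Fin 3) (β η : ℝ), 0 ≤ β → 0 < η → η ≤ 1 / 4 →
    β * Real.sqrt η ≤ 2 * Real.sqrt Real.pi → CanCut (area u i) β η →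
    ∀ δ : ℝ, 0 < δ → ∃ u', Adm u' ∧ (∀ x, u' x ≤ u x) ∧ HasGap u' i ∧
      dfct u' ≤ dfct u + δ ∧ mean u - mean u' ≤ η ∧
      energy u' + β * (mean u - mean u') ≤ energy u + err (dfct u) + δ

/-- The variation bound for a periodic profile without a cut. -/
def Excursion : Prop :=
  ∀ (a a' t : ℝ → ℝ) (β η p k T ℓ : ℝ),
    (∀ z, HasDerivAt a (a' z) z) → Continuous a' → (∀ z, a (z + 1) = a z) →
    (∀ z, a z ∈ Icc (0 : ℝ) 1) → Continuous t → (∀ x, t x ∈ Icc (0 : ℝ) 1) →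
    (∀ x, x ≤ p → t x = 0) → 0 < p → p < η → η ≤ 1 / 4 → 0 ≤ β → k < 1 →
    β * Real.sqrt η ≤ 2 * k * Real.sqrt Real.pi →
    2 * Real.sqrt η < (1 - k) * Real.sqrt Real.pi → 0 < T →
    p ≤ (1 - k) ^ 2 * Real.pi * T ^ 2 → 0 ≤ ℓ → ℓ * T ≤ ∫ x in p..η, t x →
    (∃ z, a z ≤ p) → ¬ CanCut a β η → ∀ z,
    η ≤ sSup (range a) ∧
    2 * (∫ x in p..a z, t x) + ℓ * volume.real (Ico (0 : ℝ) 1 ∩ {y | a y ≤ p}) - 2 * T * ℓ ≤
      ∫ y in (0 : ℝ)..1, t (a y) * |a' y|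

/-- The chord of the profile over `[c, m]`. -/
def chord (c m a : ℝ) : ℝ := prof c + (prof m - prof c) * ((a - c) / (m - c))

/-- The weight of the variation along a chord. -/
def weight (c m a : ℝ) : ℝ := Real.sqrt (max 0 (1 - (chord c m a / prof a) ^ 2))

/-- The parameters of a range of volumes. -/
structure Row where
  /-- least volume -/
  v0 : ℝ
  /-- largest volume -/
  v1 : ℝ
  /-- height of a thin slice -/
  p : ℝ
  /-- height of an excursion -/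
  η : ℝ
  /-- rate of a cut -/
  β : ℝ
  /-- relative loss of a cut -/
  k : ℝ
  /-- length of a thin piece -/
  T : ℝ
  /-- loss on a thin piece -/
  ℓ : ℝ
  /-- the bound to reach -/
  target : ℝ → ℝ

/-- The conditions on a row. -/
structure Row.Good (r : Row) : Prop where
  p_pos : 0 < r.p
  p_lt : r.p < r.v0
  p_eta : r.p < r.η
  v1_le : r.v1 ≤ 1 / 2
  eta_le : r.η ≤ 1 / 100
  k_lt : r.k < 1
  beta_nonneg : 0 ≤ r.β
  beta_eta : r.β * Real.sqrt r.η ≤ 2 * r.k * Real.sqrt Real.pi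
  eta_time : 2 * Real.sqrt r.η < (1 - r.k) * Real.sqrt Real.pi
  T_pos : 0 < r.T
  p_time : r.p ≤ (1 - r.k) ^ 2 * Real.pi * r.T ^ 2
  ell : prof r.p * r.v0 ≤ r.ℓ * (r.v0 - r.p)
  excursion : ∀ m, max r.v0 r.η ≤ m → m ≤ 1 → r.ℓ * r.T < ∫ a in r.p..r.η, weight r.p m a
  scalar : ∀ c m v, r.p ≤ c → c ≤ v → v ≤ m → m ≤ 1 → r.v0 ≤ v → v ≤ r.v1 →
    ∃ C M, r.p ≤ C ∧ C ≤ c ∧ m ≤ M ∧ M ≤ 1 ∧
      r.target v + (if c = r.p then 2 * r.T * r.ℓ else 0) ≤
        chord C M v + 2 * ∫ a in c..m, weight C M a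

/-- The volumes below the window, cut into rows. -/
def lowRows : List Row :=
  [⟨25/1000000, 50/1000000, 2/1000000, 30/1000000, 16539/100, 256/1000, 108/100000, 546/100000, canonical⟩,
   ⟨50/1000000, 100/1000000, 4/1000000, 60/1000000, 13127/100, 287/1000, 159/100000, 771/100000, canonical⟩,
   ⟨100/1000000, 250/1000000, 6/1000000, 100/1000000, 10419/100, 294/1000, 196/100000, 924/100000, canonical⟩,
   ⟨250/1000000, 600/1000000, 15/1000000, 220/1000000, 7677/100, 322/1000, 323/100000, 1461/100000, canonical⟩,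
   ⟨600/1000000, 1600/1000000, 40/1000000, 500/1000000, 5734/100, 362/1000, 560/100000, 2403/100000, canonical⟩,
   ⟨1600/1000000, 4000/1000000, 100/1000000, 1100/1000000, 4135/100, 387/1000, 921/100000, 3782/100000, canonical⟩,
   ⟨4/1000, 16/1000, 3/10000, 3/1000, 3047/100, 471/1000, 1848/100000, 6640/100000, canonical⟩,
   ⟨16/1000, 60/1000, 8/10000, 6/1000, 1920/100, 420/1000, 2752/100000, 10557/100000, canonical⟩,
   ⟨60/1000, 90/1000, 13/10000, 8/1000, 1236/100, 312/1000, 2958/100000, 13068/100000, canonical⟩,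
   ⟨90/1000, 150/1000, 16/10000, 98/10000, 1080/100, 302/1000, 3234/100000, 14440/100000, canonical⟩,
   ⟨150/1000, 262/1000, 16/10000, 1/100, 911/100, 258/1000, 3043/100000, 14336/100000, canonical⟩]

/-- The row just below the slab range. -/
def slabFringe : Row :=
  ⟨345/1000, 365/1000, 16/10000, 1/100, 69/10, 195/1000, 2804/100000, 14249/100000,
    fun v => 2 - 6 * (365/1000 - v)⟩

/-- The slab range. -/
def slabRow : Row :=
  ⟨365/1000, 1/2, 16/10000, 1/100, 69/10, 195/1000, 2804/100000, 14249/100000, fun _ => 2⟩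

/-- All scalar facts. -/
def Scalar : Prop := (∀ r ∈ lowRows, r.Good) ∧ slabFringe.Good ∧ slabRow.Good

/-- Smooth approximation of sets of finite perimeter. -/
def Approx : Prop :=
  ∀ (E : Set Point) (A : ℝ), IsTorusSet E → PerimeterLE E A → ∀ δ : ℝ, 0 < δ →
    ∃ u : (Fin 3 → ℝ) → ℝ, Adm u ∧ |mean u - torusVolume E| ≤ δ ∧ dfct u ≤ δ ∧
      energy u ≤ A + δ

/-- The competitors attain the canonical values. -/
def Competitors : Prop := ∀ V : ℝ, 0 < V → V < 1 → J V ∈ perimeters V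

end Vale.Agent.P232
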