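import Vale.Agent.P232.AssemblyPins
import Vale.Agent.P232.Boxes

/-!
# P232: removing thin tails axis by axis
-/

noncomputable section

open MeasureTheory Filter Topology Set

namespace Vale.Agent.P232

theorem ballPer_nonneg {v : ℝ} (hv : 0 ≤ v) : 0 ≤ ballPer v := by unfold ballPer; positivity

theorem ballPer_mono {a b : ℝ} (ha : 0 ≤ a) (hab : a ≤ b) : ballPer a ≤ ballPer b :=
  mul_le_mul_of_nonneg_left (Real.rpow_le_rpow ha hab (by norm_num)) (by positivity)

theorem ballPer_add_le {a b : ℝ} (ha : 0 ≤ a) (hb : 0 ≤ b) :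
    ballPer (a + b) ≤ ballPer a + ballPer b := by
  unfold ballPer
  rw [← mul_add]
  exact mul_le_mul_of_nonneg_left (Real.rpow_add_le_add_rpow ha hb (by norm_num) (by norm_num))
    (by positivity)

theorem canonical_le_ball (v : ℝ) : canonical v ≤ ballPer v :=
  (min_le_left _ _).trans (min_le_left _ _)

theorem canonical_zero : canonical 0 = 0 := by
  simp [canonical, ballPer, tubePer]

theorem canonical_star {a b : ℝ} (ha : 0 ≤ a) (hab : a ≤ b) :
    canonical b * a ≤ canonical a * b := by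
  have hb : 0 ≤ b := ha.trans hab
  have h1 : ballPer b * a ≤ ballPer a * b := by
    have e : ∀ x : ℝ, 0 ≤ x → x = x ^ (2 / 3 : ℝ) * x ^ (1 / 3 : ℝ) := fun x hx => by
      rw [← Real.rpow_add_of_nonneg hx (by norm_num) (by norm_num)]; norm_num
    unfold ballPer
    rw [mul_assoc, mul_assoc]
    refine mul_le_mul_of_nonneg_left ?_ (by positivity)
    calc b ^ (2 / 3 : ℝ) * a = b ^ (2 / 3 : ℝ) * (a ^ (2 / 3 : ℝ) * a ^ (1 / 3 : ℝ)) := by
          rw [← e a ha]
      _ ≤ b ^ (2 / 3 : ℝ) * (a ^ (2 / 3 : ℝ) * b ^ (1 / 3 : ℝ)) := by gcongr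
      _ = a ^ (2 / 3 : ℝ) * (b ^ (2 / 3 : ℝ) * b ^ (1 / 3 : ℝ)) := by ring
      _ = a ^ (2 / 3 : ℝ) * b := by rw [← e b hb]
  have h2 : tubePer b * a ≤ tubePer a * b := by
    unfold tubePer
    rw [Real.sqrt_mul Real.pi_pos.le, Real.sqrt_mul Real.pi_pos.le]
    have : Real.sqrt b * a ≤ Real.sqrt a * b := by
      calc Real.sqrt b * a = Real.sqrt b * Real.sqrt a * Real.sqrt a := by
            rw [mul_assoc, Real.mul_self_sqrt ha]
        _ ≤ Real.sqrt b * Real.sqrt a * Real.sqrt b := by gcongr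
        _ = Real.sqrt a * (Real.sqrt b * Real.sqrt b) := by ring
        _ = Real.sqrt a * b := by rw [Real.mul_self_sqrt hb]
    nlinarith [Real.sqrt_nonneg Real.pi]
  unfold canonical
  rw [min_mul_of_nonneg _ _ ha, min_mul_of_nonneg _ _ hb, min_mul_of_nonneg _ _ ha,
    min_mul_of_nonneg _ _ hb]
  exact min_le_min (min_le_min h1 h2) (by linarith)

/-- Removing volume costs at most the rate `β`. -/
theorem canonical_le_add {a b β : ℝ} (ha : 0 ≤ a) (hab : a ≤ b) (hβ : ballPer b ≤ β * b) :
    canonical b ≤ canonical a + β * (b - a) := by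
  rcases eq_or_lt_of_le (ha.trans hab) with h0 | hb
  · obtain rfl : b = 0 := h0.symm
    obtain rfl : a = 0 := le_antisymm hab ha
    simp
  refine le_of_mul_le_mul_right ?_ hb
  have h1 := canonical_star ha hab
  have h2 : canonical b * (b - a) ≤ β * b * (b - a) :=
    mul_le_mul_of_nonneg_right ((canonical_le_ball b).trans hβ) (sub_nonneg.2 hab)
  linarith

theorem ballPer_le_mul {b v₀ β : ℝ} (hb : v₀ ≤ b) (hv₀ : 0 ≤ v₀) (hβ : 0 ≤ β)
    (h : 36 * Real.pi ≤ β ^ 3 * v₀) : ballPer b ≤ β * b := by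
  have hb0 : 0 ≤ b := hv₀.trans hb
  have : ballPer b = (36 * Real.pi * b ^ 2) ^ (1 / 3 : ℝ) := by
    rw [ballPer, Real.mul_rpow (by positivity) (sq_nonneg b)]
    congr 1
    rw [← Real.rpow_natCast, ← Real.rpow_mul hb0]; norm_num
  rw [this]
  have h3 : β * b = ((β * b) ^ 3) ^ (1 / 3 : ℝ) := by
    rw [← Real.rpow_natCast, ← Real.rpow_mul (mul_nonneg hβ hb0)]; norm_num
  rw [h3]
  refine Real.rpow_le_rpow (by positivity) ?_ (by norm_num)
  nlinarith [mul_le_mul_of_nonneg_right (h.trans (mul_le_mul_of_nonneg_left hb (pow_nonneg hβ 3)))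
    (sq_nonneg b)]

theorem exists_lowRow {v : ℝ} (h0 : 25 / 1000000 ≤ v) (h1 : v ≤ 262 / 1000) :
    ∃ r ∈ lowRows, r.target = canonical ∧ r.v0 ≤ v ∧ v ≤ r.v1 ∧
      36 * Real.pi ≤ r.β ^ 3 * r.v0 := by
  have hall : ∀ r ∈ lowRows, r.target = canonical ∧ 36 * Real.pi ≤ r.β ^ 3 * r.v0 := by
    have hπ : Real.pi ≤ 31416 / 10000 := by linarith [Real.pi_lt_d4]
    intro r hr
    simp only [lowRows, List.mem_cons, List.not_mem_nil, or_false] at hr
    rcases hr with rfl | rfl | rfl | rfl | rfl | rfl | rfl | rfl | rfl | rfl | rfl <;>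
      exact ⟨rfl, by norm_num; linarith⟩
  suffices ∃ r ∈ lowRows, r.v0 ≤ v ∧ v ≤ r.v1 by
    obtain ⟨r, hr, h2, h3⟩ := this
    exact ⟨r, hr, (hall r hr).1, h2, h3, (hall r hr).2⟩
  simp only [lowRows, List.mem_cons, List.not_mem_nil, or_false, exists_eq_or_imp, exists_eq_left]
  rcases le_or_gt v (50 / 1000000) with g | g
  · left; constructor <;> linarith
  rcases le_or_gt v (100 / 1000000) with g | g
  · right; left; constructor <;> linarith
  rcases le_or_gt v (250 / 1000000) with g | g
  · right; right; left; constructor <;> linarith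
  rcases le_or_gt v (600 / 1000000) with g | g
  · right; right; right; left; constructor <;> linarith
  rcases le_or_gt v (1600 / 1000000) with g | g
  · right; right; right; right; left; constructor <;> linarith
  rcases le_or_gt v (4 / 1000) with g | g
  · right; right; right; right; right; left; constructor <;> linarith
  rcases le_or_gt v (16 / 1000) with g | g
  · right; right; right; right; right; right; left; constructor <;> linarith
  rcases le_or_gt v (60 / 1000) with g | g
  · right; right; right; right; right; right; right; left; constructor <;> linarith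
  rcases le_or_gt v (90 / 1000) with g | g
  · right; right; right; right; right; right; right; right; left; constructor <;> linarith
  rcases le_or_gt v (150 / 1000) with g | g
  · right; right; right; right; right; right; right; right; right; left; constructor <;> linarith
  · right; right; right; right; right; right; right; right; right; right; constructor <;> linarith

theorem Row.Good.eta_pos {r : Row} (hr : r.Good) : 0 < r.η := hr.p_pos.trans hr.p_eta

theorem Row.Good.beta_eta' {r : Row} (hr : r.Good) :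
    r.β * Real.sqrt r.η ≤ 2 * Real.sqrt Real.pi := by
  have := Real.sqrt_nonneg Real.pi
  nlinarith [hr.beta_eta, hr.k_lt]

/-- The error after `k` cuts. -/
def slack (k : ℕ) (D δ : ℝ) : ℝ := k * (err (D + k * δ) + δ) + ballPer (D + k * δ)

theorem err_mono {a b : ℝ} (ha : 0 ≤ a) (hab : a ≤ b) : err a ≤ err b :=
  mul_le_mul_of_nonneg_left (Real.rpow_le_rpow ha hab (by norm_num)) (by norm_num)

theorem err_nonneg {a : ℝ} (ha : 0 ≤ a) : 0 ≤ err a := by unfold err; positivity

theorem err_le_slack {k : ℕ} {D δ : ℝ} (hD : 0 ≤ D) (hδ : 0 ≤ δ) :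
    err D ≤ slack (k + 1) D δ := by
  unfold slack
  have h1 : err D ≤ err (D + (k + 1 : ℕ) * δ) :=
    err_mono hD (le_add_of_nonneg_right (by positivity))
  have h2 : 0 ≤ err (D + (k + 1 : ℕ) * δ) := err_nonneg (by positivity)
  have h3 : 0 ≤ ballPer (D + (k + 1 : ℕ) * δ) := ballPer_nonneg (by positivity)
  have h4 : (1 : ℝ) ≤ (k + 1 : ℕ) := by push_cast; linarith [(Nat.cast_nonneg k : (0 : ℝ) ≤ k)]
  nlinarith [mul_le_mul_of_nonneg_right h4 (add_nonneg h2 hδ)]

theorem slack_step {k : ℕ} {D D' δ : ℝ} (hD : 0 ≤ D) (hD' : 0 ≤ D') (hδ : 0 ≤ δ)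
    (h : D' ≤ D + δ) : slack k D' δ + err D + δ ≤ slack (k + 1) D δ := by
  unfold slack
  have hle : D' + k * δ ≤ D + (k + 1 : ℕ) * δ := by push_cast; linarith
  have h1 := err_mono (by positivity) hle
  have h2 := ballPer_mono (by positivity) hle
  have h3 : err D ≤ err (D + (k + 1 : ℕ) * δ) :=
    err_mono hD (le_add_of_nonneg_right (by positivity))
  have h4 := mul_le_mul_of_nonneg_left h1 (Nat.cast_nonneg k)
  push_cast at h1 h2 h3 h4 ⊢
  linarith

theorem mean_mono {u u' : (Fin 3 → ℝ) → ℝ} (hu : Adm u) (hu' : Adm u') (h : ∀ x, u' x ≤ u x) :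
    mean u' ≤ mean u :=
  setIntegral_box_mono hu'.smooth.continuous hu.smooth.continuous fun x _ => h x

theorem HasGap.of_le {u u' : (Fin 3 → ℝ) → ℝ} (hu' : Adm u') (h : ∀ x, u' x ≤ u x) {i : Fin 3}
    (hg : HasGap u i) : HasGap u' i := by
  obtain ⟨a, b, hab, hz⟩ := hg
  exact ⟨a, b, hab, fun x hx => le_antisymm ((h x).trans (hz x hx).le) (hu'.mem x).1⟩

theorem gaps_erase {u u' : (Fin 3 → ℝ) → ℝ} (hu' : Adm u') (h : ∀ x, u' x ≤ u x)
    {s : Finset (Fin 3)} {i : Fin 3} (hgap : HasGap u' i) (hs : ∀ j ∉ s, HasGap u j) :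
    ∀ j ∉ s.erase i, HasGap u' j := by
  intro j hj
  rcases eq_or_ne j i with rfl | hji
  · exact hgap
  · exact (hs j fun hjs => hj (Finset.mem_erase.2 ⟨hji, hjs⟩)).of_le hu' h

variable (hT : ThreeGaps) (hR : RowBound) (hC : CutStep) (hS : Scalar)

include hT in
theorem bound_no_axis {u : (Fin 3 → ℝ) → ℝ} (hu : Adm u) (k : ℕ) {s : Finset (Fin 3)}
    (hs : s = ∅) (hg : ∀ j ∉ s, HasGap u j) {δ : ℝ} (hδ : 0 ≤ δ) :
    ballPer (mean u) ≤ energy u + slack k (dfct u) δ := by
  have hD := dfct_nonneg hu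
  have h := hT u hu fun j => hg j (by simp [hs])
  have h1 : ballPer (mean u) ≤ ballPer (max 0 (mean u - dfct u)) + ballPer (dfct u) :=
    (ballPer_mono (mean_mem hu).1 (by linarith [le_max_right 0 (mean u - dfct u)])).trans
      (ballPer_add_le (le_max_left _ _) hD)
  have h2 : ballPer (dfct u) ≤ ballPer (dfct u + k * δ) :=
    ballPer_mono hD (le_add_of_nonneg_right (by positivity))
  have h3 : 0 ≤ (k : ℝ) * (err (dfct u + k * δ) + δ) :=
    mul_nonneg (Nat.cast_nonneg k) (add_nonneg (err_nonneg (by positivity)) hδ)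
  unfold slack
  linarith

include hT hR hC hS in
theorem low_bound (hTi : TinyBound) (k : ℕ) :
    ∀ u : (Fin 3 → ℝ) → ℝ, Adm u → ∀ s : Finset (Fin 3), s.card ≤ k →
      (∀ j ∉ s, HasGap u j) → mean u ≤ 262 / 1000 → ∀ δ : ℝ, 0 < δ →
        canonical (mean u) ≤ energy u + slack k (dfct u) δ := by
  induction k with
  | zero =>
    intro u hu s hs hg _ δ hδ
    exact (canonical_le_ball _).trans
      (bound_no_axis hT hu 0 (Finset.card_eq_zero.1 (Nat.le_zero.1 hs)) hg hδ.le)
  | succ k ih =>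
    intro u hu s hs hg hv δ hδ
    rcases s.eq_empty_or_nonempty with he | ⟨i, hi⟩
    · exact (canonical_le_ball _).trans (bound_no_axis hT hu _ he hg hδ.le)
    have hD := dfct_nonneg hu
    have herr := err_le_slack (k := k) hD hδ.le
    rcases eq_or_lt_of_le (mean_mem hu).1 with h0 | h0
    · rw [← h0, canonical_zero]
      linarith [energy_nonneg u, err_nonneg hD]
    -- the parameters of the cut
    obtain ⟨β, η, hβ0, hη0, hη4, hβη, hball, hno⟩ : ∃ β η : ℝ, 0 ≤ β ∧ 0 < η ∧ η ≤ 1 / 4 ∧
        β * Real.sqrt η ≤ 2 * Real.sqrt Real.pi ∧ ballPer (mean u) ≤ β * mean u ∧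
        (¬ CanCut (area u i) β η → canonical (mean u) - err (dfct u) ≤ energy u) := by
      rcases le_or_gt (25 / 1000000) (mean u) with hbig | htiny
      · obtain ⟨r, hr, htar, hr0, hr1, hr3⟩ := exists_lowRow hbig hv
        have hgood := hS.1 r hr
        refine ⟨r.β, r.η, hgood.beta_nonneg, hgood.eta_pos, by linarith [hgood.eta_le],
          hgood.beta_eta', ballPer_le_mul hr0 (hgood.p_pos.trans hgood.p_lt).le hgood.beta_nonneg
            hr3, fun hnc => ?_⟩
        have := hR r hgood u hu i hnc hr0 hr1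
        rwa [htar] at this
      · set v := mean u
        have hv13 : v ^ (1 / 3 : ℝ) ≤ 3 / 100 := by
          calc v ^ (1 / 3 : ℝ) ≤ ((3 / 100 : ℝ) ^ (3 : ℕ)) ^ (1 / 3 : ℝ) :=
                Real.rpow_le_rpow h0.le (by norm_num; linarith) (by norm_num)
            _ = 3 / 100 := by rw [← Real.rpow_natCast, ← Real.rpow_mul (by norm_num)]; norm_num
        have hv43 : v ^ (4 / 3 : ℝ) = v * v ^ (1 / 3 : ℝ) := by
          nth_rewrite 2 [← Real.rpow_one v]
          rw [← Real.rpow_add h0]; norm_num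
        refine ⟨ballPer v / v, 105 / 2 * v ^ (4 / 3 : ℝ), div_nonneg (ballPer_nonneg h0.le) h0.le,
          by positivity, ?_, ?_, le_of_eq (div_mul_cancel₀ _ h0.ne').symm, fun hnc => ?_⟩
        · rw [hv43]; nlinarith [Real.rpow_nonneg h0.le (1 / 3 : ℝ)]
        · set c := (36 * Real.pi) ^ (1 / 3 : ℝ) with hc
          have hc5 : c ≤ 5 := by
            calc c ≤ ((5 : ℝ) ^ (3 : ℕ)) ^ (1 / 3 : ℝ) :=
                  Real.rpow_le_rpow (by positivity) (by linarith [Real.pi_lt_d2]) (by norm_num)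
              _ = 5 := by rw [← Real.rpow_natCast, ← Real.rpow_mul (by norm_num)]; norm_num
          have hv23 : v ^ (2 / 3 : ℝ) * v ^ (2 / 3 : ℝ) = v ^ (4 / 3 : ℝ) := by
            rw [← Real.rpow_add h0]; norm_num
          rw [← hv23, Real.sqrt_mul (by norm_num), Real.sqrt_mul_self (by positivity), ballPer,
            ← hc]
          have hs : Real.sqrt (105 / 2) ≤ 8 := by
            rw [Real.sqrt_le_left (by norm_num)]; norm_num
          have hpi : (17 / 10 : ℝ) ≤ Real.sqrt Real.pi := by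
            rw [Real.le_sqrt (by norm_num) Real.pi_pos.le]; linarith [Real.pi_gt_d2]
          have e : c * v ^ (2 / 3 : ℝ) / v * (Real.sqrt (105 / 2) * v ^ (2 / 3 : ℝ)) =
              c * Real.sqrt (105 / 2) * v ^ (1 / 3 : ℝ) := by
            rw [div_mul_eq_mul_div, div_eq_iff h0.ne']
            calc c * v ^ (2 / 3 : ℝ) * (Real.sqrt (105 / 2) * v ^ (2 / 3 : ℝ))
                = c * Real.sqrt (105 / 2) * (v ^ (2 / 3 : ℝ) * v ^ (2 / 3 : ℝ)) := by ring
              _ = _ := by rw [hv23, hv43]; ring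
          rw [e]
          have hprod : c * Real.sqrt (105 / 2) * v ^ (1 / 3 : ℝ) ≤ 5 * 8 * (3 / 100) := by gcongr
          linarith
        · linarith [hTi u hu i h0 htiny.le hnc, canonical_le_ball v]
    by_cases hcut : CanCut (area u i) β η
    · obtain ⟨u', hu', hle, hgap, hD', -, hE⟩ := hC u hu i β η hβ0 hη0 hη4 hβη hcut δ hδ
      have hmm := mean_mono hu hu' hle
      have hrec := ih u' hu' (s.erase i)
        (by rw [Finset.card_erase_of_mem hi]; omega) (gaps_erase hu' hle hgap hg)
        (hmm.trans hv) δ hδ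
      have hstar := canonical_le_add (mean_mem hu').1 hmm hball
      linarith [slack_step (k := k) hD (dfct_nonneg hu') hδ.le hD']
    · linarith [hno hcut]

include hT hR hC hS in
theorem high_bound (k : ℕ) :
    ∀ u : (Fin 3 → ℝ) → ℝ, Adm u → ∀ s : Finset (Fin 3), s.card ≤ k →
      (∀ j ∉ s, HasGap u j) → 335 / 1000 + k / 100 ≤ mean u → mean u ≤ 1 / 2 → ∀ δ : ℝ, 0 < δ →
        2 ≤ energy u + 69 / 10 * max 0 (365 / 1000 - mean u) + slack k (dfct u) δ := by
  have hball : ∀ {v : ℝ}, 335 / 1000 ≤ v → 2 ≤ ballPer v := by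
    intro v hv
    refine le_trans ?_ (ballPer_mono (by norm_num) hv)
    rw [ballPer, show (2 / 3 : ℝ) = 2 * (1 / 3) by norm_num, Real.rpow_mul (by norm_num),
      ← Real.mul_rpow (by positivity) (by positivity)]
    calc (2 : ℝ) = ((2 : ℝ) ^ (3 : ℕ)) ^ (1 / 3 : ℝ) := by
          rw [← Real.rpow_natCast, ← Real.rpow_mul (by norm_num)]; norm_num
      _ ≤ _ := Real.rpow_le_rpow (by norm_num) (by norm_num; linarith [Real.pi_gt_three])
          (by norm_num)
  induction k with
  | zero =>
    intro u hu s hs hg hv0 _ δ hδ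
    have := bound_no_axis hT hu 0 (Finset.card_eq_zero.1 (Nat.le_zero.1 hs)) hg hδ.le
    have := hball (v := mean u) (by simpa using hv0)
    linarith [le_max_left (0 : ℝ) (365 / 1000 - mean u)]
  | succ k ih =>
    intro u hu s hs hg hv0 hv1 δ hδ
    have hk : (0 : ℝ) ≤ k := Nat.cast_nonneg k
    push_cast at hv0
    rcases s.eq_empty_or_nonempty with he | ⟨i, hi⟩
    · have := bound_no_axis hT hu (k + 1) he hg hδ.le
      have := hball (v := mean u) (by linarith)
      linarith [le_max_left (0 : ℝ) (365 / 1000 - mean u)]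
    have hD := dfct_nonneg hu
    have herr := err_le_slack (k := k) hD hδ.le
    obtain ⟨r, hgood, hrη, hrβ, hno⟩ : ∃ r : Row, r.Good ∧ r.η = 1 / 100 ∧ r.β = 69 / 10 ∧
        (¬ CanCut (area u i) r.β r.η →
          2 ≤ energy u + 69 / 10 * max 0 (365 / 1000 - mean u) + err (dfct u)) := by
      rcases le_or_gt (365 / 1000) (mean u) with h | h
      · refine ⟨slabRow, hS.2.2, rfl, rfl, fun hnc => ?_⟩
        have := hR slabRow hS.2.2 u hu i hnc h hv1
        simp only [slabRow] at this
        linarith [le_max_left (0 : ℝ) (365 / 1000 - mean u)]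
      · refine ⟨slabFringe, hS.2.1, rfl, rfl, fun hnc => ?_⟩
        have := hR slabFringe hS.2.1 u hu i hnc
          (show 345 / 1000 ≤ mean u by linarith) (show mean u ≤ 365 / 1000 from h.le)
        simp only [slabFringe] at this
        rw [max_eq_right (by linarith)]
        linarith
    by_cases hcut : CanCut (area u i) r.β r.η
    · obtain ⟨u', hu', hle, hgap, hD', hmass, hE⟩ := hC u hu i r.β r.η hgood.beta_nonneg
        hgood.eta_pos (by linarith [hgood.eta_le]) hgood.beta_eta' hcut δ hδ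
      have hmm := mean_mono hu hu' hle
      rw [hrη] at hmass
      rw [hrβ] at hE
      have hrec := ih u' hu' (s.erase i)
        (by rw [Finset.card_erase_of_mem hi]; omega) (gaps_erase hu' hle hgap hg)
        (by linarith) (hmm.trans hv1) δ hδ
      have hmax : max 0 (365 / 1000 - mean u') ≤
          max 0 (365 / 1000 - mean u) + (mean u - mean u') :=
        max_le (add_nonneg (le_max_left _ _) (sub_nonneg.2 hmm))
          (by linarith [le_max_right (0 : ℝ) (365 / 1000 - mean u)])
      linarith [slack_step (k := k) hD (dfct_nonneg hu') hδ.le hD']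
    · linarith [hno hcut]

end Vale.Agent.P232
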