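import Mathlib

/-!
# P232: the notions used by the statement
-/

noncomputable section

open MeasureTheory Filter Topology

namespace Vale.Agent.P232

/-- Euclidean three-space, the universal cover of the cubic torus. -/
abbrev Point := EuclideanSpace ℝ (Fin 3)

/-- The fundamental cube `[0,1)^3`. -/
def cube : Set Point := {x | ∀ i, x i ∈ Set.Ico (0 : ℝ) 1}

/-- Invariance under the translations by the three coordinate unit vectors. -/
def IsPeriodic {α : Type*} (f : Point → α) : Prop :=
  ∀ x i, f (x + EuclideanSpace.single i 1) = f x

/-- A measurable subset of the torus, seen as a periodic set. -/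
def IsTorusSet (E : Set Point) : Prop := MeasurableSet E ∧ IsPeriodic fun x => x ∈ E

/-- The volume of a subset of the torus. -/
def torusVolume (E : Set Point) : ℝ := volume.real (E ∩ cube)

/-- The divergence of a vector field. -/
def divergence (X : Point → Point) (x : Point) : ℝ :=
  ∑ i, fderiv ℝ X x (EuclideanSpace.single i 1) i

/-- De Giorgi's perimeter of `E` in the torus is at most `A`: against every periodic `C¹` vector
field of length at most one the divergence integrates over `E` to at most `A`. -/
def PerimeterLE (E : Set Point) (A : ℝ) : Prop :=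
  ∀ X : Point → Point, ContDiff ℝ 1 X → IsPeriodic X → (∀ x, ‖X x‖ ≤ 1) →
    ∫ x in E ∩ cube, divergence X x ≤ A

/-- Perimeter of a ball of volume `v`. -/
def ballPer (v : ℝ) : ℝ := (36 * Real.pi) ^ (1 / 3 : ℝ) * v ^ (2 / 3 : ℝ)

/-- Perimeter of a tube about a shortest closed geodesic of volume `v`. -/
def tubePer (v : ℝ) : ℝ := 2 * Real.sqrt (Real.pi * v)

/-- The least perimeter of a ball, a tube and a slab of volume `v`. -/
def canonical (v : ℝ) : ℝ := min (min (ballPer v) (tubePer v)) 2

/-- The conjectured profile: the canonical competitors and their complements. -/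
def J (V : ℝ) : ℝ := canonical (min V (1 - V))

/-- The perimeter bounds attained at volume `V`. -/
def perimeters (V : ℝ) : Set ℝ :=
  {A | ∃ E, IsTorusSet E ∧ torusVolume E = V ∧ PerimeterLE E A}

end Vale.Agent.P232
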