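import Vale.Agent.P232.Pins

/-!
# P232: periodic functions on space and integration by parts over the cube
-/

noncomputable section

open MeasureTheory Filter Topology Set
open scoped Pointwise

namespace Vale.Agent.P232

namespace Periodic

/-- The coordinate unit vectors. -/
def unitVec (i : Fin 3) : Point := EuclideanSpace.single i 1

theorem sum_unitVec (x : Point) : ∑ i, x i • unitVec i = x := by
  ext j
  simp [unitVec, Pi.single_apply]

theorem cube_eq : cube = ZSpan.fundamentalDomain (EuclideanSpace.basisFun (Fin 3) ℝ).toBasis := by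
  ext x
  simp [cube]

theorem measurableSet_cube : MeasurableSet cube := by
  rw [cube_eq]; exact ZSpan.fundamentalDomain_measurableSet _

theorem cube_subset_closedBall : cube ⊆ Metric.closedBall (0 : Point) 2 := by
  intro x hx
  rw [mem_closedBall_zero_iff, EuclideanSpace.norm_eq]
  refine Real.sqrt_le_iff.2 ⟨by norm_num, ?_⟩
  have h : ∀ i, ‖x i‖ ^ 2 ≤ 1 := fun i => by
    rw [Real.norm_eq_abs, abs_of_nonneg (hx i).1]
    nlinarith [(hx i).1, (hx i).2]
  rw [Fin.sum_univ_three]
  linarith [h 0, h 1, h 2]

theorem volume_cube_ne_top : volume cube ≠ ⊤ :=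
  ((measure_mono cube_subset_closedBall).trans_lt measure_closedBall_lt_top).ne

instance : IsFiniteMeasure (volume.restrict cube) :=
  isFiniteMeasure_restrict.2 volume_cube_ne_top

theorem integrableOn_cube {f : Point → ℝ} (hf : Continuous f) : IntegrableOn f cube :=
  (hf.continuousOn.integrableOn_compact (isCompact_closedBall 0 2)).mono_set cube_subset_closedBall

theorem apply_add_of_mem {α : Type*} {f : Point → α} (hf : IsPeriodic f) {g : Point}
    (hg : g ∈ Submodule.span ℤ (Set.range (EuclideanSpace.basisFun (Fin 3) ℝ).toBasis)) :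
    ∀ x, f (g + x) = f x := by
  induction hg using Submodule.span_induction with
  | mem g hg =>
    obtain ⟨i, rfl⟩ := hg
    intro x
    rw [add_comm]
    simpa using hf x i
  | zero => intro x; rw [zero_add]
  | add a b _ _ ha hb => intro x; rw [add_assoc, ha, hb]
  | smul a b _ hb =>
    intro x
    induction a using Int.induction_on generalizing x with
    | zero => simp
    | succ k ih => rw [add_smul, one_smul, add_assoc, ih, hb]
    | pred k ih => rw [sub_smul, one_smul, sub_eq_add_neg, add_assoc, ih, ← hb, add_neg_cancel_left]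

/-- Translating a periodic function does not change its integral over the cube. -/
theorem integral_translate {h : Point → ℝ} (hh : IsPeriodic h) (a : Point) :
    ∫ x in cube, h (x + a) = ∫ x in cube, h x := by
  have hs := ZSpan.isAddFundamentalDomain (EuclideanSpace.basisFun (Fin 3) ℝ).toBasis
    (volume : Measure Point)
  rw [← cube_eq] at hs
  have : VAddInvariantMeasure
      (Submodule.span ℤ (Set.range (EuclideanSpace.basisFun (Fin 3) ℝ).toBasis)) Point volume :=
    ⟨fun g s _ => measure_preimage_add volume (g : Point) s⟩
  have ht := hs.vadd_of_comm a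
  have hinv : ∀ (g : Submodule.span ℤ (Set.range (EuclideanSpace.basisFun (Fin 3) ℝ).toBasis))
      (x : Point), h (g +ᵥ x) = h x := fun g x => apply_add_of_mem hh g.2 x
  rw [← ht.setIntegral_eq hs hinv]
  have hpre : (fun x : Point => x + a) ⁻¹' (a +ᵥ cube) = cube := by
    ext x
    simp [Set.mem_vadd_set_iff_neg_vadd_mem]
  have := (measurePreserving_add_right volume a).setIntegral_preimage_emb
    (MeasurableEquiv.addRight a).measurableEmbedding h (a +ᵥ cube)
  rwa [hpre] at this

theorem fderiv_periodic {F : Type*} [NormedAddCommGroup F] [NormedSpace ℝ F] {f : Point → F}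
    (hf : IsPeriodic f) : IsPeriodic (fderiv ℝ f) := by
  intro x i
  rw [← fderiv_comp_add_right]
  congr 1
  exact funext fun y => hf y i

/-- A derivative of a periodic function has integral zero over the cube. -/
theorem integral_deriv_eq_zero {h : Point → ℝ} (hh : ContDiff ℝ 1 h) (hp : IsPeriodic h)
    (v : Point) : ∫ x in cube, fderiv ℝ h x v = 0 := by
  have hd : Continuous fun x => fderiv ℝ h x v :=
    (hh.continuous_fderiv one_ne_zero).clm_apply continuous_const
  obtain ⟨B, hB⟩ := (isCompact_closedBall (0 : Point) (2 + ‖v‖)).exists_bound_of_continuousOn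
    hd.continuousOn
  have hline : ∀ (x : Point) (t : ℝ),
      HasDerivAt (fun s : ℝ => h (x + s • v)) (fderiv ℝ h (x + t • v) v) t := by
    intro x t
    have h1 : HasDerivAt (fun s : ℝ => x + s • v) v t := by
      simpa using ((hasDerivAt_id' t).smul_const v).const_add x
    exact (hh.differentiable one_ne_zero (x + t • v)).hasFDerivAt.comp_hasDerivAt t h1
  have key := (hasDerivAt_integral_of_dominated_loc_of_deriv_le
    (μ := volume.restrict cube) (F := fun t x => h (x + t • v))
    (F' := fun t x => fderiv ℝ h (x + t • v) v) (x₀ := 0) (bound := fun _ => B)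
    (Metric.ball_mem_nhds (0 : ℝ) one_pos)
    (Eventually.of_forall fun t =>
      (hh.continuous.comp (by fun_prop : Continuous fun x => x + t • v)).aestronglyMeasurable)
    (integrableOn_cube (hh.continuous.comp (by fun_prop : Continuous fun x => x + (0 : ℝ) • v)))
    (hd.comp (by fun_prop : Continuous fun x => x + (0 : ℝ) • v)).aestronglyMeasurable
    ((ae_restrict_iff' measurableSet_cube).2 (ae_of_all _ fun x hx t ht => hB _ ?_))
    (integrable_const B) (ae_of_all _ fun x t _ => hline x t)).2
  · have hconst : (fun t : ℝ => ∫ x in cube, h (x + t • v)) = fun _ => ∫ x in cube, h x :=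
      funext fun t => integral_translate hp _
    rw [hconst] at key
    simpa using key.unique (hasDerivAt_const _ _)
  · rw [mem_closedBall_zero_iff]
    refine (norm_add_le _ _).trans (add_le_add ?_ ?_)
    · exact mem_closedBall_zero_iff.1 (cube_subset_closedBall hx)
    · rw [norm_smul]
      exact mul_le_of_le_one_left (norm_nonneg v) (mem_ball_zero_iff.1 ht).le

theorem fderiv_coord {X : Point → Point} (hX : ContDiff ℝ 1 X) (i : Fin 3) (x v : Point) :
    fderiv ℝ (fun y => X y i) x v = fderiv ℝ X x v i := by
  have h := ((EuclideanSpace.proj (𝕜 := ℝ) i).hasFDerivAt.comp x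
    (hX.differentiable one_ne_zero x).hasFDerivAt).fderiv
  exact congrArg (fun L : Point →L[ℝ] ℝ => L v) h

theorem continuous_divergence {X : Point → Point} (hX : ContDiff ℝ 1 X) :
    Continuous (divergence X) := by
  unfold divergence
  refine continuous_finsetSum _ fun i _ => ?_
  exact (EuclideanSpace.proj (𝕜 := ℝ) i).continuous.comp
    ((hX.continuous_fderiv one_ne_zero).clm_apply continuous_const)

theorem divergence_periodic {X : Point → Point} (hX : IsPeriodic X) :
    IsPeriodic (divergence X) := by
  intro x i
  simp only [divergence, fderiv_periodic hX x i]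

/-- Integration by parts over the cube. -/
theorem integral_mul_divergence {U : Point → ℝ} {X : Point → Point} (hU : ContDiff ℝ 1 U)
    (hUp : IsPeriodic U) (hX : ContDiff ℝ 1 X) (hXp : IsPeriodic X) :
    ∫ x in cube, U x * divergence X x = -∫ x in cube, fderiv ℝ U x (X x) := by
  have hXi : ∀ i : Fin 3, ContDiff ℝ 1 fun y => X y i := fun i =>
    (EuclideanSpace.proj (𝕜 := ℝ) i).contDiff.comp hX
  have c1 : ∀ i : Fin 3, Continuous fun x => fderiv ℝ U x (unitVec i) * X x i := fun i =>
    ((hU.continuous_fderiv one_ne_zero).clm_apply continuous_const).mul (hXi i).continuous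
  have c2 : ∀ i : Fin 3, Continuous fun x => U x * fderiv ℝ X x (unitVec i) i := fun i =>
    hU.continuous.mul ((EuclideanSpace.proj (𝕜 := ℝ) i).continuous.comp
      ((hX.continuous_fderiv one_ne_zero).clm_apply continuous_const))
  have hz : ∀ i : Fin 3, ∫ x in cube,
      (fderiv ℝ U x (unitVec i) * X x i + U x * fderiv ℝ X x (unitVec i) i) = 0 := by
    intro i
    refine Eq.trans (setIntegral_congr_fun measurableSet_cube fun x _ => ?_)
      (integral_deriv_eq_zero (hU.mul (hXi i)) (fun x k => ?_) (unitVec i))
    · have := fderiv_mul (hU.differentiable one_ne_zero x) ((hXi i).differentiable one_ne_zero x)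
      show _ = fderiv ℝ (U * fun y => X y i) x (unitVec i)
      rw [this]
      simp [fderiv_coord hX]
      ring
    · simp only [hUp x k, hXp x k]
  have e1 : ∀ x, fderiv ℝ U x (X x) = ∑ i, fderiv ℝ U x (unitVec i) * X x i := by
    intro x
    conv_lhs => rw [← sum_unitVec (X x)]
    simp [map_sum, mul_comm]
  have e2 : ∀ x, U x * divergence X x = ∑ i, U x * fderiv ℝ X x (unitVec i) i := fun x => by
    simp only [divergence, Finset.mul_sum, unitVec]
  simp only [e1, e2]
  rw [integral_finsetSum _ (fun i _ => integrableOn_cube (c2 i)),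
    integral_finsetSum _ (fun i _ => integrableOn_cube (c1 i)), ← Finset.sum_neg_distrib]
  refine Finset.sum_congr rfl fun i _ => ?_
  have := hz i
  rw [integral_add (integrableOn_cube (c1 i)) (integrableOn_cube (c2 i))] at this
  linarith

/-- The cube in coordinates is the box. -/
theorem integral_box (g : Point → ℝ) :
    ∫ x in box 3, g (WithLp.toLp 2 x) = ∫ x in cube, g x := by
  rw [← (PiLp.volume_preserving_toLp (Fin 3)).setIntegral_preimage_emb
    (MeasurableEquiv.toLp 2 (Fin 3 → ℝ)).measurableEmbedding]
  rfl

theorem volume_real_cube : volume.real cube = 1 := by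
  rw [measureReal_def, ← (PiLp.volume_preserving_toLp (Fin 3)).measure_preimage
    measurableSet_cube.nullMeasurableSet]
  have : WithLp.toLp 2 ⁻¹' cube = Set.pi univ fun _ : Fin 3 => Ico (0 : ℝ) 1 := by
    ext x; simp [cube]
  rw [this, Real.volume_pi_Ico]
  simp

end Periodic

end Vale.Agent.P232
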